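import Vale.Agent.Q155.Rows
import Vale.Agent.P155.EXA878.Near
import Vale.Agent.P155.H878.Lat

/-!
# P155 in the upper half-plane: Temperleyan graphs with a flat bottom
-/

namespace Vale.Agent.Q155

open MeasureTheory Filter Topology Vale.Agent.P155 Vale.Agent.P155.Q1

namespace APX

open Relation

/-! ## Histograms -/

/-- A finite nonempty set of cells standing on an interval of the row `0`. -/
structure Hist (C : Set Pt) : Prop where
  box : ∃ M : ℤ, ∀ f ∈ C, EXA.Box M f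
  ne : C.Nonempty
  up : ∀ f ∈ C, 0 ≤ f.2
  down : ∀ x y : ℤ, (x, y) ∈ C → 1 ≤ y → (x, y - 1) ∈ C
  row : ∀ x x' x'' : ℤ, (x, 0) ∈ C → (x'', 0) ∈ C → x ≤ x' → x' ≤ x'' → (x', 0) ∈ C

variable {C : Set Pt}

theorem Hist.fall (h : Hist C) (x : ℤ) (k : ℕ) (hk : (x, (k : ℤ)) ∈ C) :
    (x, (0 : ℤ)) ∈ C ∧ ReflTransGen (EXA.Rel C) (x, (k : ℤ)) (x, 0) := by
  induction k with
  | zero => exact ⟨hk, ReflTransGen.refl⟩
  | succ k ih =>
    have h1 : (x, (k : ℤ)) ∈ C := by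
      have := h.down x _ hk (by omega)
      rwa [show ((k + 1 : ℕ) : ℤ) - 1 = k by omega] at this
    obtain ⟨h2, h3⟩ := ih h1
    exact ⟨h2, ReflTransGen.head ⟨hk, h1, EXA.adj_of (by dsimp only; omega)⟩ h3⟩

theorem Hist.fall' (h : Hist C) {f : Pt} (hf : f ∈ C) :
    (f.1, (0 : ℤ)) ∈ C ∧ ReflTransGen (EXA.Rel C) f (f.1, 0) := by
  obtain ⟨x, y⟩ := f
  obtain ⟨k, rfl⟩ := Int.eq_ofNat_of_zero_le (h.up _ hf)
  exact h.fall x k hf

theorem Hist.walk (h : Hist C) (x : ℤ) (hx : (x, (0 : ℤ)) ∈ C) (k : ℕ)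
    (hk : (x + k, (0 : ℤ)) ∈ C) : ReflTransGen (EXA.Rel C) (x, (0 : ℤ)) (x + k, 0) := by
  induction k with
  | zero => simpa using ReflTransGen.refl
  | succ k ih =>
    have h1 : (x + k, (0 : ℤ)) ∈ C := h.row x _ _ hx hk (by omega) (by omega)
    exact (ih h1).tail ⟨h1, hk, EXA.adj_of (by dsimp only; omega)⟩

theorem Hist.walk' (h : Hist C) {x x' : ℤ} (hx : (x, (0 : ℤ)) ∈ C) (hx' : (x', (0 : ℤ)) ∈ C) :
    ReflTransGen (EXA.Rel C) (x, (0 : ℤ)) (x', 0) := by
  rcases le_total x x' with hle | hle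
  · obtain ⟨k, rfl⟩ := Int.le.dest hle
    exact h.walk x hx k hx'
  · obtain ⟨k, rfl⟩ := Int.le.dest hle
    exact EXA.rel_symm (h.walk x' hx' k hx)

theorem Hist.rise (h : Hist C) {x y : ℤ} (hy : 0 ≤ y) (hf : (x, y) ∉ C) (k : ℕ) :
    (x, y + k) ∉ C ∧ ReflTransGen (EXA.Rel Cᶜ) (x, y) (x, y + k) := by
  induction k with
  | zero => simpa using ⟨hf, ReflTransGen.refl⟩
  | succ k ih =>
    have h1 : (x, y + ((k + 1 : ℕ) : ℤ)) ∉ C := by
      intro h2
      have := h.down x _ h2 (by omega)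
      rw [show y + ((k + 1 : ℕ) : ℤ) - 1 = y + k by omega] at this
      exact ih.1 this
    exact ⟨h1, ih.2.tail ⟨ih.1, h1, EXA.adj_of (by dsimp only; omega)⟩⟩

theorem Hist.sink (h : Hist C) {x y : ℤ} (hy : y < 0) (k : ℕ) :
    ReflTransGen (EXA.Rel Cᶜ) (x, y) (x, y - k) := by
  induction k with
  | zero => simpa using ReflTransGen.refl
  | succ k ih =>
    refine ih.tail ⟨fun h2 => ?_, fun h2 => ?_, EXA.adj_of (by dsimp only; omega)⟩
    · have := h.up _ h2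
      dsimp only at this
      omega
    · have := h.up _ h2
      dsimp only at this
      omega

theorem Hist.disc (h : Hist C) : EXA.Disc C where
  box := h.box
  ne := h.ne
  conn := by
    intro f hf g hg
    obtain ⟨f1, f2⟩ := h.fall' hf
    obtain ⟨g1, g2⟩ := h.fall' hg
    exact (f2.trans (h.walk' f1 g1)).trans (EXA.rel_symm g2)
  out := by
    rintro N ⟨x, y⟩ hf
    rcases lt_or_ge y 0 with hy | hy
    · refine ⟨_, ?_, h.sink hy N.toNat⟩
      unfold EXA.Box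
      dsimp only
      omega
    · refine ⟨_, ?_, (h.rise hy hf (N.toNat + 1)).2⟩
      unfold EXA.Box
      dsimp only
      omega

theorem Hist.noPinch (h : Hist C) : EXA.NoPinch C := by
  intro x y
  constructor
  · rintro ⟨h1, h2, -, h4⟩
    have := h.up _ h2
    exact h4 (h.down x y h1 (by dsimp only at this; omega))
  · rintro ⟨h1, h2, -, h4⟩
    have := h.up _ h2
    exact h4 (h.down _ y h1 (by dsimp only at this; omega))

/-- `T` has the cells `C`, and the deleted vertex is not the lower left corner of a cell. -/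
structure Has (T : Temp) (C : Set Pt) : Prop where
  ins : ∀ f, T.γ.inside f ↔ f ∈ C
  del : (T.v0.1 / 2, T.v0.2 / 2) ∉ C

theorem Hist.exists_temp (h : Hist C) : ∃ T, Has T C := by
  obtain ⟨γ, hγ⟩ := h.disc.exists_cycle h.noPinch
  obtain ⟨M, hM⟩ := h.box
  obtain ⟨f0, hf0⟩ := h.ne
  obtain ⟨B, hB, hmax⟩ := Int.exists_greatest_of_bdd (P := fun x => (x, (0 : ℤ)) ∈ C)
    ⟨M, fun x hx => (hM _ hx).2.1⟩ ⟨_, (h.fall' hf0).1⟩
  have hB1 : (B + 1, (0 : ℤ)) ∉ C := fun h1 => by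
    have := hmax _ h1
    omega
  have hv : γ.vedge (B + 1) 0 := by
    by_contra hv
    have := LatCycle.inside_iff_v (γ := γ) (B + 1) 0 hv
    rw [hγ, hγ, add_sub_cancel_right] at this
    exact hB1 (this.2 hB)
  have hi : ∃ i, γ.c i = (B + 1, 0) := by
    obtain ⟨i, hi | hi⟩ := hv
    · exact ⟨i, hi.1⟩
    · exact ⟨i + 1, hi.2⟩
  obtain ⟨i, hi⟩ := hi
  refine ⟨⟨γ, i⟩, hγ, ?_⟩
  unfold Temp.v0
  dsimp only
  rw [hi]
  dsimp only
  rwa [show 2 * (B + 1) / 2 = B + 1 by omega, show (2 * 0 : ℤ) / 2 = 0 by omega]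

variable {T : Temp}

theorem Has.mem_V (h : Has T C) {v : Pt} (hv : (v.1 / 2, v.2 / 2) ∈ C) : v ∈ T.V := by
  rw [Temp.mem_V]
  refine ⟨⟨_, (h.ins _).2 hv, ?_, ?_, ?_, ?_⟩, ?_⟩
  · dsimp only; omega
  · dsimp only; omega
  · dsimp only; omega
  · dsimp only; omega
  · rintro rfl
    exact h.del hv

theorem Has.of_mem_V (h : Has T C) {v : Pt} (hv : v ∈ T.V) :
    ∃ f ∈ C, 2 * f.1 ≤ v.1 ∧ v.1 ≤ 2 * f.1 + 2 ∧ 2 * f.2 ≤ v.2 ∧ v.2 ≤ 2 * f.2 + 2 := by
  obtain ⟨f, hf, h1⟩ := (Temp.mem_V.1 hv).1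
  exact ⟨f, (h.ins f).1 hf, h1⟩

theorem Has.mem_face (h : Has T C) {v : Pt} : v ∈ T.faceSet ↔ (v.1 / 2, v.2 / 2) ∈ C := by
  rw [A1.mem_faceSet, h.ins]

/-! ## Boxes -/

/-- the box of cells `[-n, n] × [0, n]` -/
def bx (n : ℕ) : Set Pt := {f | -(n : ℤ) ≤ f.1 ∧ f.1 ≤ n ∧ 0 ≤ f.2 ∧ f.2 ≤ n}

theorem hist_bx (n : ℕ) : Hist (bx n) where
  box := ⟨n, fun f hf => ⟨hf.1, hf.2.1, by have := hf.2.2.1; omega, hf.2.2.2⟩⟩
  ne := ⟨(0, 0), by unfold bx; rw [Set.mem_ofPred_eq]; dsimp only; omega⟩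
  up := fun f hf => hf.2.2.1
  down := by
    intro x y h hy
    unfold bx at h ⊢
    rw [Set.mem_ofPred_eq] at h ⊢
    dsimp only at h ⊢
    omega
  row := by
    intro x x' x'' h h'' h1 h2
    unfold bx at h h'' ⊢
    rw [Set.mem_ofPred_eq] at h h'' ⊢
    dsimp only at h h'' ⊢
    omega

/-! ## The half-disc -/

variable {R δ h : ℝ} {a : ℂ}

theorem cHD_eq (R : ℝ) : cHD R = Metric.closedBall 0 R ∩ {z : ℂ | 0 ≤ z.im} := by
  ext z
  simp [cHD]

theorem HD_eq (R : ℝ) : HD R = Metric.ball 0 R ∩ {z : ℂ | 0 < z.im} := by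
  ext z
  simp [HD]

theorem interior_cHD (hR : 0 < R) : interior (cHD R) = HD R := by
  rw [cHD_eq, HD_eq, interior_inter, interior_closedBall _ hR.ne', Complex.interior_setOfPred_le_im]

theorem isOpen_HD (hR : 0 < R) : IsOpen (HD R) := interior_cHD hR ▸ isOpen_interior

theorem isClosed_cHD : IsClosed (cHD R) := by
  rw [cHD_eq]
  exact Metric.isClosed_closedBall.inter (isClosed_le continuous_const Complex.continuous_im)

theorem closure_HD (hR : 0 < R) : closure (HD R) = cHD R := by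
  have hc : Convex ℝ (cHD R) := by
    rw [cHD_eq]
    exact (convex_closedBall _ _).inter (convex_halfSpace_im_ge 0)
  have hne : (interior (cHD R)).Nonempty := by
    rw [interior_cHD hR]
    refine ⟨((R / 2 : ℝ) : ℂ) * Complex.I, ?_, ?_⟩
    · rw [norm_mul, Complex.norm_I, mul_one, Complex.norm_real, Real.norm_eq_abs,
        abs_of_pos (by linarith)]
      linarith
    · simp only [Complex.mul_im, Complex.ofReal_re, Complex.I_im, mul_one, Complex.ofReal_im,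
        Complex.I_re, mul_zero, add_zero]
      linarith
  rw [← interior_cHD hR, hc.closure_interior_eq_closure_of_nonempty_interior hne,
    isClosed_cHD.closure_eq]

theorem frontier_HD (hR : 0 < R) : frontier (HD R) = cHD R \ HD R := by
  rw [(isOpen_HD hR).frontier_eq, closure_HD hR]

theorem frontier_cHD (hR : 0 < R) : frontier (cHD R) = frontier (HD R) := by
  rw [frontier_HD hR, isClosed_cHD.frontier_eq, interior_cHD hR]

theorem exists_far (z : ℂ) {η : ℝ} (hη : 0 ≤ η) : ∃ w : ℂ, ‖w‖ = ‖z‖ + η ∧ dist z w = η := by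
  rcases eq_or_ne z 0 with rfl | hz
  · exact ⟨η, by simp [abs_of_nonneg hη], by simp [abs_of_nonneg hη]⟩
  have hn : 0 < ‖z‖ := norm_pos_iff.2 hz
  refine ⟨(1 + η / ‖z‖) • z, ?_, ?_⟩
  · rw [norm_smul, Real.norm_eq_abs, abs_of_nonneg (by positivity)]
    field_simp
  · rw [dist_comm, dist_eq_norm, add_smul, one_smul, add_sub_cancel_left, norm_smul,
      Real.norm_eq_abs, abs_of_nonneg (by positivity)]
    field_simp

/-- a point of the closed half-disc which is not well inside is close to the boundary -/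
theorem near_frontier (hR : 0 < R) {z : ℂ} (hz : z ∈ cHD R) {η : ℝ} (hη : 0 ≤ η)
    (hc : R ≤ ‖z‖ + η ∨ z.im ≤ η) : ∃ y ∈ frontier (HD R), dist z y ≤ η := by
  by_cases hz' : z ∈ HD R
  · have hw : ∃ w, w ∉ HD R ∧ dist z w ≤ η := by
      rcases hc with hc | hc
      · obtain ⟨w, h1, h2⟩ := exists_far z hη
        exact ⟨w, fun h3 => by have := h3.1; linarith, h2.le⟩
      · refine ⟨(z.re : ℂ), fun h3 => by simpa using h3.2, ?_⟩
        rw [Complex.dist_of_re_eq (by simp), Complex.ofReal_im, Real.dist_eq, sub_zero,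
          abs_of_nonneg hz.2]
        exact hc
    obtain ⟨w, hw1, hw2⟩ := hw
    obtain ⟨y, hy, hzy⟩ := exists_mem_frontier_infDist_compl_eq_dist hz'
      (fun h => hw1 (h ▸ Set.mem_univ w))
    refine ⟨y, hy, ?_⟩
    rw [← hzy]
    exact (Metric.infDist_le_dist_of_mem (show w ∈ (HD R)ᶜ from hw1)).trans hw2
  · exact ⟨z, by rw [frontier_HD hR]; exact ⟨hz, hz'⟩, by simpa using hη⟩

theorem mem_sqr' (hh : 0 < h) {z : ℂ} {f : Pt} : z ∈ sqr h a f ↔
    a.re + h * f.1 ≤ z.re ∧ z.re ≤ a.re + h * f.1 + h ∧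
      a.im + h * f.2 ≤ z.im ∧ z.im ≤ a.im + h * f.2 + h := by
  rw [KConn.mem_sqr hh]
  unfold KConn.gx KConn.gy
  rw [le_div_iff₀ hh, le_div_iff₀ hh, div_le_iff₀ hh, div_le_iff₀ hh]
  constructor <;> rintro ⟨h1, h2, h3, h4⟩ <;> refine ⟨?_, ?_, ?_, ?_⟩ <;> linarith

theorem sqr_two (hδ : 0 < δ) {f : Pt} : sqr δ a f ⊆ sqr (2 * δ) a (f.1 / 2, f.2 / 2) := by
  intro z hz
  rw [mem_sqr' hδ] at hz
  rw [mem_sqr' (by linarith : (0 : ℝ) < 2 * δ)]
  obtain ⟨z1, z2, z3, z4⟩ := hz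
  have key : ∀ p : ℤ, (2 : ℝ) * ((p / 2 : ℤ) : ℝ) ≤ p ∧ (p : ℝ) ≤ 2 * ((p / 2 : ℤ) : ℝ) + 1 := by
    intro p
    constructor
    · exact_mod_cast (by omega : 2 * (p / 2) ≤ p)
    · exact_mod_cast (by omega : p ≤ 2 * (p / 2) + 1)
  obtain ⟨k1, k2⟩ := key f.1
  obtain ⟨k3, k4⟩ := key f.2
  dsimp only
  refine ⟨?_, ?_, ?_, ?_⟩ <;> nlinarith

theorem pt_re (v : Pt) : (pt δ a v).re = a.re + δ * v.1 := by simp [pt]

theorem pt_im (v : Pt) : (pt δ a v).im = a.im + δ * v.2 := by simp [pt]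

theorem pt_mem_two (hδ : 0 < δ) {v f : Pt} (h1 : 2 * f.1 ≤ v.1) (h2 : v.1 ≤ 2 * f.1 + 2)
    (h3 : 2 * f.2 ≤ v.2) (h4 : v.2 ≤ 2 * f.2 + 2) : pt δ a v ∈ sqr (2 * δ) a f := by
  rw [mem_sqr' (by linarith : (0 : ℝ) < 2 * δ), pt_re, pt_im]
  have k1 : (2 : ℝ) * f.1 ≤ v.1 := by exact_mod_cast h1
  have k2 : (v.1 : ℝ) ≤ 2 * f.1 + 2 := by exact_mod_cast h2
  have k3 : (2 : ℝ) * f.2 ≤ v.2 := by exact_mod_cast h3
  have k4 : (v.2 : ℝ) ≤ 2 * f.2 + 2 := by exact_mod_cast h4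
  refine ⟨?_, ?_, ?_, ?_⟩ <;> nlinarith

theorem norm_le_iff' (hR : 0 ≤ R) {z : ℂ} : ‖z‖ ≤ R ↔ z.re ^ 2 + z.im ^ 2 ≤ R ^ 2 := by
  rw [← sq_le_sq₀ (norm_nonneg z) hR, Complex.sq_norm, Complex.normSq_apply]
  constructor <;> intro h <;> nlinarith

/-- the cells of the upper rows inside the closed disc -/
def cel (R h : ℝ) (a : ℂ) : Set Pt := {f | 0 ≤ f.2 ∧ ∀ z ∈ sqr h a f, ‖z‖ ≤ R}

theorem mem_cel (hh : 0 < h) {z : ℂ} {f : Pt} (hz : z ∈ sqr h a f) (hf : 0 ≤ f.2)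
    (hn : ‖z‖ + 2 * h ≤ R) : f ∈ cel R h a := by
  refine ⟨hf, fun w hw => ?_⟩
  have h1 := dist_le_of_mem_sqr hh hw hz
  have h2 : ‖w‖ ≤ ‖z‖ + dist w z := by
    rw [dist_eq_norm]
    exact norm_le_norm_add_norm_sub' w z
  linarith

theorem mem_cel' (hh : 0 < h) {z : ℂ} {f : Pt} (hz : z ∈ sqr h a f) (hi : a.im < z.im)
    (hn : ‖z‖ + 2 * h ≤ R) : f ∈ cel R h a := by
  refine mem_cel hh hz ?_ hn
  have h1 := ((mem_sqr' hh).1 hz).2.2.2
  have h2 : (0 : ℝ) < f.2 + 1 := by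
    by_contra h3
    push Not at h3
    nlinarith
  have h3 : (0 : ℤ) < f.2 + 1 := by exact_mod_cast h2
  omega

theorem sqr_sub (hh : 0 < h) (ha : 0 ≤ a.im) {f : Pt} (hf : f ∈ cel R h a) :
    sqr h a f ⊆ cHD R := by
  intro z hz
  refine ⟨hf.2 z hz, ?_⟩
  have h1 := ((mem_sqr' hh).1 hz).2.2.1
  have h2 : (0 : ℝ) ≤ f.2 := by exact_mod_cast hf.1
  have h3 := mul_nonneg hh.le h2
  linarith

theorem hist_cel (hR : 0 ≤ R) (hh : 0 < h) (ha : 0 ≤ a.im) (hne : (cel R h a).Nonempty) :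
    Hist (cel R h a) where
  box := by
    obtain ⟨M, hM⟩ := exists_int_ge ((R + ‖a‖) / h)
    rw [div_le_iff₀ hh] at hM
    refine ⟨M, fun f hf => ?_⟩
    have h1 : (⟨a.re + h * f.1, a.im + h * f.2⟩ : ℂ) ∈ sqr h a f := by
      rw [mem_sqr' hh]
      dsimp only
      refine ⟨le_rfl, by linarith, le_rfl, by linarith⟩
    have h2 := hf.2 _ h1
    have h3 := abs_le.1 ((Complex.abs_re_le_norm _).trans h2)
    have h4 := abs_le.1 ((Complex.abs_im_le_norm _).trans h2)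
    have h5 := abs_le.1 (Complex.abs_re_le_norm a)
    have h6 := abs_le.1 (Complex.abs_im_le_norm a)
    dsimp only at h3 h4
    have key : ∀ p : ℤ, -(R + ‖a‖) ≤ h * p → h * p ≤ R + ‖a‖ → -M ≤ p ∧ p ≤ M := by
      intro p p1 p2
      have q1 : (-M : ℝ) ≤ p := le_of_mul_le_mul_left (by linarith) hh
      have q2 : (p : ℝ) ≤ M := le_of_mul_le_mul_left (by linarith) hh
      exact ⟨by exact_mod_cast q1, by exact_mod_cast q2⟩
    obtain ⟨k1, k2⟩ := key f.1 (by linarith) (by linarith)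
    obtain ⟨k3, k4⟩ := key f.2 (by linarith) (by linarith)
    exact ⟨k1, k2, k3, k4⟩
  ne := hne
  up := fun f hf => hf.1
  down := by
    intro x y hf hy
    refine ⟨by dsimp only; omega, fun z hz => ?_⟩
    rw [mem_sqr' hh] at hz
    obtain ⟨z1, z2, z3, z4⟩ := hz
    dsimp only at z1 z2 z3 z4
    push_cast at z3 z4
    have h1 : (⟨z.re, z.im + h⟩ : ℂ) ∈ sqr h a (x, y) := by
      rw [mem_sqr' hh]
      dsimp only
      refine ⟨z1, z2, by linarith, by linarith⟩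
    have h2 := (norm_le_iff' hR).1 (hf.2 _ h1)
    dsimp only at h2
    have h3 : (1 : ℝ) ≤ y := by exact_mod_cast hy
    have h4 : 0 ≤ z.im := by nlinarith
    rw [norm_le_iff' hR]
    nlinarith
  row := by
    intro x x' x'' hf hf'' h1 h2
    refine ⟨le_rfl, fun z hz => ?_⟩
    rw [mem_sqr' hh] at hz
    obtain ⟨z1, z2, z3, z4⟩ := hz
    dsimp only at z1 z2 z3 z4
    have k1 : (⟨z.re - h * (x' - x), z.im⟩ : ℂ) ∈ sqr h a (x, 0) := by
      rw [mem_sqr' hh]
      dsimp only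
      refine ⟨by linarith, by linarith, z3, z4⟩
    have k2 : (⟨z.re + h * (x'' - x'), z.im⟩ : ℂ) ∈ sqr h a (x'', 0) := by
      rw [mem_sqr' hh]
      dsimp only
      refine ⟨by linarith, by linarith, z3, z4⟩
    have k3 := (norm_le_iff' hR).1 (hf.2 _ k1)
    have k4 := (norm_le_iff' hR).1 (hf''.2 _ k2)
    dsimp only at k3 k4
    have k5 : 0 ≤ h * ((x' : ℝ) - x) :=
      mul_nonneg hh.le (sub_nonneg.2 (by exact_mod_cast h1))
    have k6 : 0 ≤ h * ((x'' : ℝ) - x') :=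
      mul_nonneg hh.le (sub_nonneg.2 (by exact_mod_cast h2))
    rw [norm_le_iff' hR]
    rcases le_total 0 z.re with k7 | k7
    · nlinarith
    · nlinarith

section fix

variable (hδ : 0 < δ) (ha : 0 ≤ a.im) (hT : Has T (cel R (2 * δ) a))
include hδ ha hT

theorem region_sub : region δ a T.faceSet ⊆ cHD R := by
  intro z hz
  obtain ⟨v, hv, hzv⟩ := EXA.mem_region_iff.1 hz
  exact sqr_sub (by linarith) ha (hT.mem_face.1 hv) (sqr_two hδ hzv)

omit ha in
theorem mem_int {z : ℂ} (hi : a.im < z.im) (hn : ‖z‖ + 4 * δ ≤ R) :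
    z ∈ interior (region δ a T.faceSet) := by
  rw [KConn.mem_interior_region_iff hδ]
  intro g hg
  exact hT.mem_face.2 (mem_cel' (by linarith) (sqr_two hδ hg) hi (by linarith))

theorem pt_mem {v : Pt} (hv : v ∈ T.V) : pt δ a v ∈ cHD R := by
  obtain ⟨f, hf, h1, h2, h3, h4⟩ := hT.of_mem_V hv
  exact sqr_sub (by linarith) ha hf (pt_mem_two hδ h1 h2 h3 h4)

end fix

/-- the cells of the window -/
theorem win_cel (hδ : 0 < δ) (hs : ‖a‖ + 4 * δ ≤ R / 4) {r : ℕ} (hr : 2 * (δ * r) ≤ R) {v : Pt}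
    (hv : v ∈ Win r) : (v.1 / 2, v.2 / 2) ∈ cel R (2 * δ) a := by
  obtain ⟨h1, h2, h3, h4⟩ := mem_Win.1 hv
  have hR : 0 ≤ R := by
    have := norm_nonneg a
    linarith
  refine mem_cel (by linarith) (z := pt δ a v)
    (pt_mem_two hδ ?_ ?_ ?_ ?_) ?_ ?_
  · dsimp only; omega
  · dsimp only; omega
  · dsimp only; omega
  · dsimp only; omega
  · dsimp only; omega
  have k1 : (-(r : ℝ)) ≤ v.1 := by exact_mod_cast h1
  have k2 : (v.1 : ℝ) ≤ r := by exact_mod_cast h2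
  have k3 : (0 : ℝ) ≤ v.2 := by exact_mod_cast h3
  have k4 : (v.2 : ℝ) ≤ r := by exact_mod_cast h4
  have k5 : ‖pt δ a v - a‖ ≤ 3 * R / 4 := by
    rw [norm_le_iff' (by linarith), Complex.sub_re, Complex.sub_im, pt_re, pt_im,
      add_sub_cancel_left, add_sub_cancel_left]
    have m1 : -(R / 2) ≤ δ * v.1 := by nlinarith
    have m2 : δ * v.1 ≤ R / 2 := by nlinarith
    have m3 : -(R / 2) ≤ δ * v.2 := by nlinarith
    have m4 : δ * v.2 ≤ R / 2 := by nlinarith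
    have m5 := sq_le_sq' m1 m2
    have m6 := sq_le_sq' m3 m4
    nlinarith
  have k6 := norm_le_norm_add_norm_sub' (pt δ a v) a
  linarith

end APX

open APX in
/-- exhaustions exist -/
theorem rowBOX : RowBOX := by
  choose T hT using fun n => (hist_bx n).exists_temp
  refine ⟨T, fun n v hv => ?_, fun v hv => ?_⟩
  · obtain ⟨f, hf, -, -, h3, -⟩ := (hT n).of_mem_V hv
    have := hf.2.2.1
    omega
  · filter_upwards [eventually_ge_atTop (v.1.natAbs + v.2.natAbs)] with n hn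
    refine (hT n).mem_V ?_
    unfold bx
    rw [Set.mem_ofPred_eq]
    dsimp only
    omega

open APX in
/-- approximations of the half-disc with a flat bottom -/
theorem rowAPX : RowAPX := by
  intro R δ a hR hG
  have hδ := hG.pos
  have hsm : ∀ ε : ℝ, 0 < ε → ∀ᶠ n in atTop, ‖a n‖ + 4 * δ n < ε := by
    intro ε hε
    have h1 := hG.orig.norm.add (hG.mesh.const_mul 4)
    rw [norm_zero, mul_zero, add_zero] at h1
    exact h1.eventually_lt_const hε
  have hex : ∀ n, ∃ T : Temp, ‖a n‖ + 4 * δ n ≤ R / 4 → Has T (cel R (2 * δ n) (a n)) := by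
    intro n
    by_cases hs : ‖a n‖ + 4 * δ n ≤ R / 4
    · have h0 : ((0, 0) : Pt) ∈ Win 0 := by simp [mem_Win]
      obtain ⟨T, hT⟩ := (hist_cel hR.le (by linarith [hδ n]) (hG.im n)
        ⟨_, win_cel (hδ n) hs (by simpa using hR.le) h0⟩).exists_temp
      exact ⟨T, fun _ => hT⟩
    · obtain ⟨T, -⟩ := (hist_bx 0).exists_temp
      exact ⟨T, fun h => absurd h hs⟩
  choose T hT0 using hex
  have hs : ∀ᶠ n in atTop, ‖a n‖ + 4 * δ n ≤ R / 4 :=
    (hsm (R / 4) (by linarith)).mono fun n hn => hn.le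
  have hT : ∀ᶠ n in atTop, Has (T n) (cel R (2 * δ n) (a n)) := hs.mono hT0
  have hsub : ∀ᶠ n in atTop, region (δ n) (a n) (T n).faceSet ⊆ cHD R :=
    hT.mono fun n hn => region_sub (hδ n) (hG.im n) hn
  have him : ∀ n, (a n).im ≤ ‖a n‖ := fun n => (le_abs_self _).trans (Complex.abs_im_le_norm _)
  have hcara : ∀ K ⊆ HD R, IsCompact K → ∀ᶠ n in atTop,
      K ⊆ interior (region (δ n) (a n) (T n).faceSet) := by
    intro K hKΩ hK
    obtain ⟨ε, hε, hεK⟩ := hK.exists_forall_le' (f := fun z : ℂ => min (R - ‖z‖) z.im)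
      (Continuous.continuousOn (by fun_prop)) (a := 0)
      (fun z hz => lt_min (sub_pos.2 (hKΩ hz).1) (hKΩ hz).2)
    filter_upwards [hT, hsm ε hε] with n hn hn'
    intro z hz
    obtain ⟨h1, h2⟩ := le_min_iff.1 (hεK z hz)
    have h3 := norm_nonneg (a n)
    have h4 := hδ n
    have h5 := him n
    exact mem_int (hδ n) hn (by linarith) (by linarith)
  refine ⟨T, ⟨hcara, ?_, ?_, ?_, ?_⟩, ?_⟩
  · intro U hU _ _ hf
    obtain ⟨n, hn, hn'⟩ := (hf.and_eventually hsub).exists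
    rw [← interior_cHD hR]
    exact interior_maximal (hn.trans hn') hU
  · intro ε hε
    filter_upwards [hT, hsub, hsm ε hε] with n hn hn' hε'
    intro z hz
    have hcl : IsClosed (region (δ n) (a n) (T n).faceSet) :=
      (KConn.isCompact_region (hδ n) (A1.faceSet_finite (T n))).isClosed
    have h3 := norm_nonneg (a n)
    have h4 := hδ n
    have h5 := him n
    obtain ⟨y, hy, hzy⟩ := near_frontier hR (hn' (hcl.frontier_subset hz))
      (η := ‖a n‖ + 4 * δ n) (by linarith) (by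
        by_contra hc
        push Not at hc
        exact hz.2 (mem_int (hδ n) hn (by linarith [hc.2]) (by linarith [hc.1])))
    exact Metric.mem_thickening_iff.2 ⟨y, hy, by linarith⟩
  · intro ε hε
    have hfc : IsCompact (frontier (HD R)) := by
      refine Metric.isCompact_of_isClosed_isBounded isClosed_frontier ?_
      rw [frontier_HD hR, cHD_eq]
      exact Metric.isBounded_closedBall.subset fun z hz => hz.1.1
    have hcov : frontier (HD R) ⊆ ⋃ y ∈ HD R, Metric.ball y (ε / 4) := by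
      intro x hx
      obtain ⟨y, hy, hxy⟩ := Metric.mem_closure_iff.1 (frontier_subset_closure hx) (ε / 4)
        (by linarith)
      exact Set.mem_iUnion₂.2 ⟨y, hy, hxy⟩
    obtain ⟨t, htΩ, htf, ht⟩ := hfc.elim_finite_subcover_image (fun y _ => Metric.isOpen_ball) hcov
    filter_upwards [hcara t htΩ htf.isCompact, hsub] with n hn hn'
    intro x hx
    obtain ⟨y, hy, hxy⟩ := Set.mem_iUnion₂.1 (ht hx)
    have hx' : x ∈ closure (cHD R)ᶜ := by
      rw [← frontier_cHD hR, ← frontier_compl] at hx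
      exact frontier_subset_closure hx
    obtain ⟨x', hx1, hx2⟩ := Metric.mem_closure_iff.1 hx' (ε / 4) (by linarith)
    have hxr : x' ∉ region (δ n) (a n) (T n).faceSet := fun h => hx1 (hn' h)
    have hyr : y ∈ region (δ n) (a n) (T n).faceSet := interior_subset (hn hy)
    obtain ⟨w, hw, hyw⟩ := exists_mem_frontier_infDist_compl_eq_dist hyr
      (fun h => hxr (h ▸ Set.mem_univ x'))
    refine Metric.mem_thickening_iff.2 ⟨w, hw, ?_⟩
    have h1 : dist y w ≤ dist y x' := by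
      rw [← hyw]
      exact Metric.infDist_le_dist_of_mem
        (show x' ∈ (region (δ n) (a n) (T n).faceSet)ᶜ from hxr)
    have h2 : dist x y < ε / 4 := hxy
    have h3 := dist_triangle x y w
    have h4 := dist_triangle_left y x' x
    linarith
  · intro ε hε
    filter_upwards [hsub] with n hn
    rw [← closure_HD hR] at hn
    exact hn.trans (Metric.closure_subset_thickening hε _)
  · filter_upwards [hT, hs] with n hn hn'
    refine ⟨fun v hv => pt_mem (hδ n) (hG.im n) hn hv, fun r hr => ⟨fun v hv => ?_, ?_⟩⟩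
    · obtain ⟨f, hf, -, -, h3, -⟩ := hn.of_mem_V hv
      have := hf.1
      omega
    · intro v hv
      exact hn.mem_V (win_cel (hδ n) hn' hr hv)

end Vale.Agent.Q155
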