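import Vale.Agent.Q155.Rows
import Mathlib.Analysis.Complex.Tietze
import Mathlib.Analysis.Complex.SqrtDeriv
import Mathlib.Analysis.Convex.Contractible
import Mathlib.AlgebraicTopology.FundamentalGroupoid.SimplyConnected
import Mathlib.Topology.UniformSpace.HeineCantor

/-!
# P155 in the upper half-plane: the conformal map of the half-disc onto the disc
-/

namespace Vale.Agent.Q155

open Complex Set Vale.Agent.P155

namespace CONF

/-- `1 + a z²` -/
noncomputable def uu (a : ℝ) (z : ℂ) : ℂ := 1 + a * z ^ 2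

/-- the conformal map -/
noncomputable def psi (a : ℝ) (z : ℂ) : ℂ := (z - I * uu a z) / (z + I * uu a z)

/-- the inverse of the Cayley map -/
noncomputable def ze (w : ℂ) : ℂ := I * (1 + w) / (1 - w)

/-- the inverse conformal map -/
noncomputable def gg (a : ℝ) (w : ℂ) : ℂ := 2 * ze w / (1 + sqrt (1 - 4 * a * ze w ^ 2))

theorem nsq_add (a : ℝ) (z : ℂ) : normSq (z + I * uu a z) =
    normSq z + normSq (uu a z) + 2 * (z.im * (1 - a * normSq z)) := by
  simp only [uu, normSq_apply, pow_two, add_re, add_im, mul_re, mul_im, I_re, I_im, one_re, one_im,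
    ofReal_re, ofReal_im]
  ring

theorem nsq_sub (a : ℝ) (z : ℂ) : normSq (z - I * uu a z) =
    normSq z + normSq (uu a z) - 2 * (z.im * (1 - a * normSq z)) := by
  simp only [uu, normSq_apply, pow_two, add_re, add_im, sub_re, sub_im, mul_re, mul_im, I_re, I_im,
    one_re, one_im, ofReal_re, ofReal_im]
  ring

theorem nsq_addI (z : ℂ) : normSq (z + I) = normSq z + 1 + 2 * z.im := by
  simp only [normSq_apply, add_re, add_im, I_re, I_im]
  ring

theorem sum_pos (a : ℝ) (z : ℂ) : 0 < normSq z + normSq (uu a z) := by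
  by_cases h : z = 0
  · subst h
    simp [uu]
  · exact add_pos_of_pos_of_nonneg (normSq_pos.2 h) (normSq_nonneg _)

theorem den_ne {a : ℝ} {z : ℂ} (h1 : a * normSq z ≤ 1) (h2 : 0 ≤ z.im) : z + I * uu a z ≠ 0 := by
  rw [← normSq_pos, nsq_add]
  have := sum_pos a z
  have := mul_nonneg h2 (sub_nonneg.2 h1)
  linarith

theorem norm_le_den {a : ℝ} {z : ℂ} (h1 : a * normSq z ≤ 1) (h2 : 0 ≤ z.im) :
    ‖z‖ ≤ ‖z + I * uu a z‖ := by
  refine le_of_pow_le_pow_left₀ two_ne_zero (norm_nonneg _) ?_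
  rw [← normSq_eq_norm_sq, ← normSq_eq_norm_sq, nsq_add]
  have := normSq_nonneg (uu a z)
  have := mul_nonneg h2 (sub_nonneg.2 h1)
  linarith

theorem addI_ne {z : ℂ} (h2 : 0 ≤ z.im) : z + I ≠ 0 := by
  rw [← normSq_pos, nsq_addI]
  have := normSq_nonneg z
  linarith

theorem norm_le_addI {z : ℂ} (h2 : 0 ≤ z.im) : ‖z‖ ≤ ‖z + I‖ := by
  refine le_of_pow_le_pow_left₀ two_ne_zero (norm_nonneg _) ?_
  rw [← normSq_eq_norm_sq, ← normSq_eq_norm_sq, nsq_addI]
  linarith

theorem psi_sub {a : ℝ} {z : ℂ} (h1 : a * normSq z ≤ 1) (h2 : 0 ≤ z.im) :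
    psi a z - cay z = -2 * I * a * z ^ 3 / ((z + I * uu a z) * (z + I)) := by
  rw [psi, cay, div_sub_div _ _ (den_ne h1 h2) (addI_ne h2)]
  congr 1
  simp only [uu]
  ring

theorem norm_psi_sub {a R : ℝ} (ha : 0 ≤ a) {z : ℂ} (h0 : ‖z‖ ≤ R) (h1 : a * normSq z ≤ 1)
    (h2 : 0 ≤ z.im) : ‖psi a z - cay z‖ ≤ 2 * a * R := by
  rw [psi_sub h1 h2, norm_div, div_le_iff₀ (norm_pos_iff.2 (mul_ne_zero (den_ne h1 h2)
    (addI_ne h2)))]
  have e1 : ‖-2 * I * (a : ℂ) * z ^ 3‖ = 2 * a * (‖z‖ * (‖z‖ * ‖z‖)) := by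
    simp only [norm_mul, norm_neg, norm_pow, norm_I, norm_real, Real.norm_eq_abs, abs_of_nonneg ha,
      Complex.norm_ofNat]
    ring
  rw [e1, norm_mul, mul_assoc (2 * a)]
  have hR : 0 ≤ R := (norm_nonneg z).trans h0
  have := norm_le_den h1 h2
  have := norm_le_addI h2
  gcongr

theorem psi_mem {a : ℝ} {z : ℂ} (h1 : a * normSq z < 1) (h2 : 0 < z.im) : ‖psi a z‖ < 1 := by
  rw [psi, norm_div, div_lt_one (norm_pos_iff.2 (den_ne h1.le h2.le))]
  refine lt_of_pow_lt_pow_left₀ 2 (norm_nonneg _) ?_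
  rw [← normSq_eq_norm_sq, ← normSq_eq_norm_sq, nsq_add, nsq_sub]
  have := mul_pos h2 (sub_pos.2 h1)
  linarith

theorem one_sub_ne {w : ℂ} (hw : ‖w‖ < 1) : 1 - w ≠ 0 := by
  intro h
  rw [sub_eq_zero] at h
  rw [← h, norm_one] at hw
  exact lt_irrefl _ hw

theorem ze_im {w : ℂ} (hw : ‖w‖ < 1) : 0 < (ze w).im := by
  have h1 : normSq w < 1 := by
    rw [normSq_eq_norm_sq]
    exact pow_lt_one₀ (norm_nonneg _) hw two_ne_zero
  have h2 : 0 < normSq (1 - w) := normSq_pos.2 (one_sub_ne hw)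
  have h3 : (ze w).im = (1 - normSq w) / normSq (1 - w) := by
    rw [ze, div_im, ← sub_div]
    congr 1
    simp only [normSq_apply, add_re, add_im, sub_re, sub_im, mul_re, mul_im, I_re, I_im,
      one_re, one_im]
    ring
  rw [h3]
  exact div_pos (sub_pos.2 h1) h2

theorem mem_slit {a : ℝ} (ha : 0 < a) {y : ℂ} (hy : 0 < y.im) :
    1 - 4 * (a : ℂ) * y ^ 2 ∈ slitPlane := by
  rw [mem_slitPlane_iff]
  have e1 : (1 - 4 * (a : ℂ) * y ^ 2).re = 1 - 4 * a * (y.re * y.re - y.im * y.im) := by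
    simp [pow_two]
  have e2 : (1 - 4 * (a : ℂ) * y ^ 2).im = -(8 * a * y.re * y.im) := by
    simp [pow_two]
    ring
  rw [e1, e2]
  by_cases h : y.re = 0
  · left
    rw [h]
    have := mul_pos ha (mul_pos hy hy)
    linarith
  · right
    exact neg_ne_zero.2 (mul_ne_zero (mul_ne_zero (by positivity) h) hy.ne')

theorem sqrt_sq' (p : ℂ) : sqrt p ^ 2 = p := cpow_ofNat_inv_pow p 2

theorem sqrt_re_pos {p : ℂ} (hp : p ∈ slitPlane) : 0 < (sqrt p).re := by
  rw [sqrt, cpow_inv_two_re, Real.sqrt_pos]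
  refine half_pos ?_
  rcases hp with h | h
  · exact add_pos_of_nonneg_of_pos (norm_nonneg _) h
  · have := abs_re_lt_norm.2 h
    have := neg_abs_le p.re
    linarith

theorem one_add_ne {s : ℂ} (hs : 0 < s.re) : 1 + s ≠ 0 := by
  intro h
  have := congrArg re h
  simp only [add_re, one_re, zero_re] at this
  linarith

/-- the root of the quadratic equation -/
theorem root {a : ℝ} (ha : 0 < a) {y s : ℂ} (hy : 0 < y.im) (hs : 0 < s.re)
    (h2 : s ^ 2 = 1 - 4 * a * y ^ 2) :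
    2 * y / (1 + s) = y * uu a (2 * y / (1 + s)) ∧ a * normSq (2 * y / (1 + s)) < 1 ∧
      0 < (2 * y / (1 + s)).im := by
  have h1 := one_add_ne hs
  set z := 2 * y / (1 + s) with hz
  have e0 : (a : ℂ) * z ^ 2 = (1 - s) / (1 + s) := by
    rw [hz]
    field_simp
    linear_combination h2
  have e1 : z = y * uu a z := by
    rw [uu, e0, hz]
    field_simp
    ring
  have e2 : a * normSq z < 1 := by
    have e3 : a * normSq z = ‖(1 - s) / (1 + s)‖ := by
      rw [← e0, norm_mul, norm_pow, norm_real, Real.norm_eq_abs, abs_of_pos ha, normSq_eq_norm_sq]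
    rw [e3, norm_div, div_lt_one (norm_pos_iff.2 h1)]
    refine lt_of_pow_lt_pow_left₀ 2 (norm_nonneg _) ?_
    rw [← normSq_eq_norm_sq, ← normSq_eq_norm_sq]
    simp only [normSq_apply, add_re, add_im, sub_re, sub_im, one_re, one_im]
    nlinarith
  refine ⟨e1, e2, ?_⟩
  have hy0 : y ≠ 0 := by
    rintro rfl
    simp at hy
  have hu : uu a z ≠ 0 := by
    intro h
    rw [h, mul_zero, hz] at e1
    exact div_ne_zero (mul_ne_zero two_ne_zero hy0) h1 e1
  have e4 : z.im * (1 - a * normSq z) = y.im * normSq (uu a z) := by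
    have e5 : (z * (starRingEnd ℂ) (uu a z)).im = z.im * (1 - a * normSq z) := by
      simp only [uu, normSq_apply, pow_two, add_re, add_im, mul_re, mul_im, one_re, one_im,
        ofReal_re, ofReal_im, conj_re, conj_im]
      ring
    rw [← e5]
    nth_rewrite 1 [e1]
    rw [mul_assoc, mul_conj]
    simp
  have e6 : 0 < z.im * (1 - a * normSq z) := by
    rw [e4]
    exact mul_pos hy (normSq_pos.2 hu)
  exact (pos_iff_pos_of_mul_pos e6).2 (sub_pos.2 e2)

theorem gg_spec {a : ℝ} (ha : 0 < a) {w : ℂ} (hw : ‖w‖ < 1) :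
    gg a w = ze w * uu a (gg a w) ∧ a * normSq (gg a w) < 1 ∧ 0 < (gg a w).im :=
  root ha (ze_im hw) (sqrt_re_pos (mem_slit ha (ze_im hw))) (sqrt_sq' _)

theorem uniq {a : ℝ} (ha : 0 < a) {y z z' : ℂ} (h : z = y * uu a z) (h' : z' = y * uu a z')
    (h1 : a * normSq z < 1) (h1' : a * normSq z' < 1) : z' = z := by
  have e1 : (z' - z) * (1 - a * z * z') = 0 := by
    simp only [uu] at h h'
    linear_combination (1 + a * z ^ 2) * h' - (1 + a * z' ^ 2) * h
  rcases mul_eq_zero.1 e1 with e | e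
  · exact sub_eq_zero.1 e
  · exfalso
    have e2 : ‖(a : ℂ) * z * z'‖ = 1 := by
      rw [← sub_eq_zero.1 e, norm_one]
    rw [norm_mul, norm_mul, norm_real, Real.norm_eq_abs, abs_of_pos ha] at e2
    rw [normSq_eq_norm_sq] at h1 h1'
    nlinarith [mul_nonneg ha.le (sq_nonneg (‖z‖ - ‖z'‖))]

theorem psi_gg {a : ℝ} (ha : 0 < a) {w : ℂ} (hw : ‖w‖ < 1) : psi a (gg a w) = w := by
  obtain ⟨h1, h2, h3⟩ := gg_spec ha hw
  have h4 := one_sub_ne hw
  rw [psi, div_eq_iff (den_ne h2.le h3.le)]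
  have h5 : gg a w * (1 - w) = I * (1 + w) * uu a (gg a w) := by
    nth_rewrite 1 [h1]
    rw [ze]
    field_simp
  linear_combination h5

theorem gg_psi {a : ℝ} (ha : 0 < a) {z : ℂ} (h1 : a * normSq z < 1) (h2 : 0 < z.im) :
    gg a (psi a z) = z := by
  have hw := psi_mem h1 h2
  obtain ⟨k1, k2, -⟩ := gg_spec ha hw
  refine uniq ha ?_ k1 h1 k2
  have h4 := one_sub_ne hw
  have h5 : psi a z * (z + I * uu a z) = z - I * uu a z := by
    rw [psi, div_mul_cancel₀ _ (den_ne h1.le h2.le)]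
  rw [ze, div_mul_eq_mul_div, eq_div_iff h4]
  linear_combination -h5

theorem diff_psi {a : ℝ} {z : ℂ} (h1 : a * normSq z ≤ 1) (h2 : 0 ≤ z.im) :
    DifferentiableAt ℂ (psi a) z := by
  have hu : Differentiable ℂ (uu a) := by
    unfold uu
    fun_prop
  exact DifferentiableAt.div (differentiableAt_id.sub ((hu z).const_mul I))
    (differentiableAt_id.add ((hu z).const_mul I)) (den_ne h1 h2)

theorem diff_gg {a : ℝ} (ha : 0 < a) {w : ℂ} (hw : ‖w‖ < 1) : DifferentiableAt ℂ (gg a) w := by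
  have hz : DifferentiableAt ℂ ze w := by
    have := one_sub_ne hw
    unfold ze
    fun_prop (disch := assumption)
  have h1 : DifferentiableAt ℂ (fun w => 1 - 4 * (a : ℂ) * ze w ^ 2) w := by fun_prop
  have h2 : DifferentiableAt ℂ (fun w => sqrt (1 - 4 * (a : ℂ) * ze w ^ 2)) w :=
    DifferentiableAt.comp (g := sqrt) w (differentiableAt_sqrt (mem_slit ha (ze_im hw))) h1
  exact DifferentiableAt.div (hz.const_mul 2) (h2.const_add 1)
    (one_add_ne (sqrt_re_pos (mem_slit ha (ze_im hw))))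

theorem lt_iff {R : ℝ} (hR : 0 < R) (z : ℂ) : (R ^ 2)⁻¹ * normSq z < 1 ↔ ‖z‖ < R := by
  rw [inv_mul_lt_iff₀ (by positivity), mul_one, normSq_eq_norm_sq,
    pow_lt_pow_iff_left₀ (norm_nonneg _) hR.le two_ne_zero]

theorem le_iff {R : ℝ} (hR : 0 < R) (z : ℂ) : (R ^ 2)⁻¹ * normSq z ≤ 1 ↔ ‖z‖ ≤ R := by
  rw [inv_mul_le_iff₀ (by positivity), mul_one, normSq_eq_norm_sq,
    pow_le_pow_iff_left₀ (norm_nonneg _) hR.le two_ne_zero]

theorem isOpen_HD (R : ℝ) : IsOpen (HD R) :=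
  (isOpen_lt continuous_norm continuous_const).inter (isOpen_lt continuous_const continuous_im)

theorem isClosed_cHD (R : ℝ) : IsClosed (cHD R) :=
  (isClosed_le continuous_norm continuous_const).inter (isClosed_le continuous_const continuous_im)

theorem convex_HD (R : ℝ) : Convex ℝ (HD R) := by
  have h1 : HD R = Metric.ball 0 R ∩ {z : ℂ | 0 < z.im} := by
    ext z
    simp [HD]
  rw [h1]
  exact (convex_ball 0 R).inter (convex_halfSpace_im_gt 0)

/-- a function which is continuous on a bounded closed set has a uniformly continuous extension -/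
theorem exists_ext {K : Set ℂ} (hK : IsClosed K) {R : ℝ} (hR : ∀ z ∈ K, ‖z‖ ≤ R) {p : ℂ → ℂ}
    (hp : ContinuousOn p K) : ∃ f : ℂ → ℂ, UniformContinuous f ∧ ∀ z ∈ K, f z = p z := by
  obtain ⟨F, hF⟩ := ContinuousMap.exists_restrict_eq hK ⟨K.domRestrict p, hp.domRestrict⟩
  refine ⟨fun z => ((max 0 (min 1 (R + 1 - ‖z‖)) : ℝ) : ℂ) * F z, ?_, fun z hz => ?_⟩
  · refine HasCompactSupport.uniformContinuous_of_continuous ?_ (by fun_prop)
    refine HasCompactSupport.intro (isCompact_closedBall (0 : ℂ) (R + 1)) fun z hz => ?_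
    rw [mem_closedBall_zero_iff, not_le] at hz
    rw [max_eq_left ((min_le_right _ _).trans (by linarith)), ofReal_zero, zero_mul]
  · have h1 := hR z hz
    have h2 : F z = p z := DFunLike.congr_fun hF ⟨z, hz⟩
    show ((max 0 (min 1 (R + 1 - ‖z‖)) : ℝ) : ℂ) * F z = p z
    rw [min_eq_left (by linarith), max_eq_right zero_le_one, ofReal_one, one_mul, h2]

end CONF

open CONF in
theorem rowCONF : RowCONF := by
  intro R hR
  have hne : (HD R).Nonempty := ⟨((R / 2 : ℝ) : ℂ) * I, by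
    constructor
    · rw [norm_mul, norm_I, norm_real, Real.norm_eq_abs, abs_of_pos (half_pos hR)]
      linarith
    · simpa using hR⟩
  have hb : Bornology.IsBounded (HD R) :=
    (Metric.isBounded_ball (x := (0 : ℂ)) (r := R)).subset fun z hz => mem_ball_zero_iff.2 hz.1
  have := (convex_HD R).contractibleSpace hne
  refine ⟨⟨isOpen_HD R, hb, hne, inferInstance⟩, ?_⟩
  have ha : 0 < (R ^ 2)⁻¹ := by positivity
  obtain ⟨f, hf1, hf2⟩ := exists_ext (isClosed_cHD R) (fun z hz => hz.1) (p := psi (R ^ 2)⁻¹)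
    fun z hz => (diff_psi ((le_iff hR z).2 hz.1) hz.2).continuousAt.continuousWithinAt
  have hf3 : ∀ z ∈ HD R, f z = psi (R ^ 2)⁻¹ z := fun z hz => hf2 z ⟨hz.1.le, hz.2.le⟩
  have hg : MapsTo (gg (R ^ 2)⁻¹) (Metric.ball 0 1) (HD R) := fun w hw =>
    ⟨(lt_iff hR _).1 (gg_spec ha (mem_ball_zero_iff.1 hw)).2.1,
      (gg_spec ha (mem_ball_zero_iff.1 hw)).2.2⟩
  refine ⟨f, gg (R ^ 2)⁻¹, ⟨isOpen_HD R, Metric.isOpen_ball, ?_, ?_, ?_, hg, ?_, ?_⟩, hf1, ?_⟩
  · exact DifferentiableOn.congr (fun z hz =>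
      (diff_psi ((le_iff hR z).2 hz.1.le) hz.2.le).differentiableWithinAt) hf3
  · exact fun w hw => (diff_gg ha (mem_ball_zero_iff.1 hw)).differentiableWithinAt
  · intro z hz
    rw [hf3 z hz]
    exact mem_ball_zero_iff.2 (psi_mem ((lt_iff hR z).2 hz.1) hz.2)
  · intro z hz
    rw [hf3 z hz]
    exact gg_psi ha ((lt_iff hR z).2 hz.1) hz.2
  · intro w hw
    rw [hf3 _ (hg hw)]
    exact psi_gg ha (mem_ball_zero_iff.1 hw)
  · intro z hz
    rw [hf2 z hz]
    refine (norm_psi_sub ha.le hz.1 ((le_iff hR z).2 hz.1) hz.2).trans (le_of_eq ?_)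
    field_simp

end Vale.Agent.Q155
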