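import Vale.Agent.Q155.Rows

/-!
# P155 in the upper half-plane: the dual branches determine the matching in a window
-/

namespace Vale.Agent.Q155

open Vale.Agent.P155

namespace DET

/-- the indicator of a point, modulo two -/
def ind (u v : Pt) : ZMod 2 := if v = u then 1 else 0

theorem ind_self (u : Pt) : ind u u = 1 := if_pos rfl

theorem ind_ne {u v : Pt} (h : v ≠ u) : ind u v = 0 := if_neg h

theorem two2 (a : ZMod 2) : a + a = 0 := by revert a; decide

/-- the fine point between the centres of two adjacent cells -/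
def mid (f g : Pt) : Pt := (f.1 + g.1 + 1, f.2 + g.2 + 1)

/-- the sum over the four neighbours of the centre of a cell -/
def bd (c : Pt → ZMod 2) (g : Pt) : ZMod 2 :=
  c (2 * g.1 + 2, 2 * g.2 + 1) + c (2 * g.1, 2 * g.2 + 1) + c (2 * g.1 + 1, 2 * g.2 + 2) +
    c (2 * g.1 + 1, 2 * g.2)

theorem bd_add (c d : Pt → ZMod 2) (g : Pt) : bd (fun v => c v + d v) g = bd c g + bd d g := by
  unfold bd
  ring

theorem bd_ind {f f' : Pt} (h : Adj f f') (g : Pt) :
    bd (ind (mid f f')) g = ind f g + ind f' g := by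
  obtain ⟨a, b⟩ := f
  obtain ⟨x, y⟩ := g
  rcases LatCycle.adj_cases h with rfl | rfl | rfl | rfl <;>
    simp only [bd, ind, mid, Prod.mk.injEq] <;>
    split_ifs <;> first | omega | rfl

/-- the chain of a dual branch -/
theorem exists_br {E : Finset Pt} {φ : Pt → Pt} (hadj : ∀ f ∈ E, Adj f (φ f))
    (hcl : ∀ f ∈ E, φ f ∈ E ∨ (φ f).2 < 0) :
    ∀ (n : ℕ) (f : Pt), (f ∈ E ∨ f.2 < 0) → (φ^[n] f).2 < 0 →
      ∃ c : Pt → ZMod 2, (∀ v, c v ≠ 0 → ∃ g ∈ E, v = mid g (φ g)) ∧
        ∀ g : Pt, 0 ≤ g.2 → bd c g = ind f g := by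
  have base : ∀ f : Pt, f.2 < 0 → ∃ c : Pt → ZMod 2,
      (∀ v, c v ≠ 0 → ∃ g ∈ E, v = mid g (φ g)) ∧ ∀ g : Pt, 0 ≤ g.2 → bd c g = ind f g := by
    intro f hf
    refine ⟨fun _ => 0, fun v hv => absurd rfl hv, fun g hg => ?_⟩
    rw [ind_ne (by rintro rfl; omega)]
    simp [bd]
  intro n
  induction n with
  | zero => exact fun f _ hf => base f hf
  | succ n ih =>
    intro f hf hn
    rcases hf with hf | hf
    · obtain ⟨c, h1, h2⟩ := ih (φ f) (hcl f hf) hn
      refine ⟨fun v => ind (mid f (φ f)) v + c v, fun v hv => ?_, fun g hg => ?_⟩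
      · by_cases hv' : v = mid f (φ f)
        · exact ⟨f, hf, hv'⟩
        · apply h1
          simpa only [ind_ne hv', zero_add] using hv
      · rw [bd_add, bd_ind (hadj f hf), h2 g hg, add_assoc, two2, add_zero]
    · exact base f hf

/-- the sum over the column above a point -/
def chi (M : ℕ) (c : Pt → ZMod 2) (p : Pt) : ZMod 2 :=
  ∑ k ∈ Finset.range M, c (p.1, p.2 + 1 + 2 * k)

theorem chi_vert (M : ℕ) (c : Pt → ZMod 2) (x y : ℤ) :
    chi M c (x, y) + chi M c (x, y + 2) = c (x, y + 1) + c (x, y + 1 + 2 * M) := by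
  unfold chi
  induction M with
  | zero => simp [two2]
  | succ M ih =>
    rw [Finset.sum_range_succ, Finset.sum_range_succ, add_add_add_comm, ih]
    have e : y + 2 + 1 + 2 * (M : ℤ) = y + 1 + 2 * ((M + 1 : ℕ) : ℤ) := by push_cast; ring
    simp only [e]
    rw [add_assoc, ← add_assoc (c (x, y + 1 + 2 * (M : ℤ))), two2, zero_add]

theorem chi_hor (M : ℕ) {c : Pt → ZMod 2} (hc : ∀ g : Pt, 0 ≤ g.2 → bd c g = 0) (a b : ℤ)
    (hb : 0 ≤ b) :
    chi M c (2 * a, 2 * b) + chi M c (2 * a + 2, 2 * b) =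
      c (2 * a + 1, 2 * b) + c (2 * a + 1, 2 * b + 2 * M) := by
  unfold chi
  induction M with
  | zero => simp [two2]
  | succ M ih =>
    rw [Finset.sum_range_succ, Finset.sum_range_succ, add_add_add_comm, ih]
    have h := hc (a, b + M) (by simp only; omega)
    unfold bd at h
    have e1 : 2 * (b + (M : ℤ)) + 1 = 2 * b + 1 + 2 * M := by ring
    have e2 : 2 * (b + (M : ℤ)) + 2 = 2 * b + 2 * ((M + 1 : ℕ) : ℤ) := by push_cast; ring
    have e3 : 2 * (b + (M : ℤ)) = 2 * b + 2 * M := by ring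
    simp only at h ⊢
    rw [e1, e2, e3] at h
    generalize c (2 * a + 2, 2 * b + 1 + 2 * (M : ℤ)) = s at h ⊢
    generalize c (2 * a, 2 * b + 1 + 2 * (M : ℤ)) = t at h ⊢
    generalize c (2 * a + 1, 2 * b + 2 * ((M + 1 : ℕ) : ℤ)) = u at h ⊢
    generalize c (2 * a + 1, 2 * b + 2 * (M : ℤ)) = v at h ⊢
    generalize c (2 * a + 1, 2 * b) = w
    revert s t u v w
    decide

/-- the potential jumps by `c` across a coarse edge -/
theorem chi_step {M : ℕ} {c : Pt → ZMod 2} (hc : ∀ g : Pt, 0 ≤ g.2 → bd c g = 0)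
    (hM : ∀ v : Pt, 2 * (M : ℤ) ≤ v.2 → c v = 0) {p u : Pt} (hp : B0 p) (hu : Adj p u)
    (h0 : 0 ≤ p.2) (h1 : 0 ≤ (u + (u - p)).2) :
    chi M c p + chi M c (u + (u - p)) = c u := by
  obtain ⟨x, y⟩ := p
  obtain ⟨⟨a, ha⟩, ⟨b, hb⟩⟩ := hp
  simp only at ha hb h0
  obtain rfl : x = 2 * a := by omega
  obtain rfl : y = 2 * b := by omega
  rcases LatCycle.adj_cases hu with rfl | rfl | rfl | rfl
  · have h := chi_hor M hc a b (by omega)
    rw [hM (2 * a + 1, 2 * b + 2 * M) (by simp only; omega), add_zero] at h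
    rw [← h]
    congr 2
    ext <;> simp only [Prod.fst_add, Prod.fst_sub, Prod.snd_add, Prod.snd_sub] <;> ring
  · have h := chi_hor M hc (a - 1) b (by omega)
    rw [hM (2 * (a - 1) + 1, 2 * b + 2 * M) (by simp only; omega), add_zero, add_comm] at h
    have e1 : 2 * (a - 1) + 2 = 2 * a := by ring
    have e2 : 2 * (a - 1) + 1 = 2 * a - 1 := by ring
    rw [e1, e2] at h
    rw [← h]
    congr 2
    ext <;> simp only [Prod.fst_add, Prod.fst_sub, Prod.snd_add, Prod.snd_sub] <;> ring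
  · have h := chi_vert M c (2 * a) (2 * b)
    rw [hM (2 * a, 2 * b + 1 + 2 * M) (by simp only; omega), add_zero] at h
    rw [← h]
    congr 2
    ext <;> simp only [Prod.fst_add, Prod.fst_sub, Prod.snd_add, Prod.snd_sub] <;> ring
  · simp only [Prod.snd_add, Prod.snd_sub] at h1
    have h := chi_vert M c (2 * a) (2 * b - 2)
    rw [hM (2 * a, 2 * b - 2 + 1 + 2 * M) (by simp only; omega), add_zero, add_comm] at h
    have e1 : 2 * b - 2 + 2 = 2 * b := by ring
    have e2 : 2 * b - 2 + 1 = 2 * b - 1 := by ring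
    rw [e1, e2] at h
    rw [← h]
    congr 2
    ext <;> simp only [Prod.fst_add, Prod.fst_sub, Prod.snd_add, Prod.snd_sub] <;> ring

theorem map_mem {V : Finset Pt} {m : Pt → Pt} (hm : IsPM V m) {v : Pt} (hv : v ∈ V) :
    m v ∈ V := by
  by_contra h
  have h1 := hm.off _ h
  rw [hm.invol] at h1
  exact h (h1 ▸ hv)

theorem v0_nonneg {T : Temp} (hT : ∀ v ∈ T.V, 0 ≤ v.2) : 0 ≤ T.v0.2 := by
  obtain ⟨f, hf, h1, h2, h3, h4⟩ := T.v0_mem
  have h : ((2 * f.1 + 1, 2 * f.2) : Pt) ∈ T.V := by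
    rw [Temp.mem_V]
    refine ⟨⟨f, hf, ?_, ?_, ?_, ?_⟩, ?_⟩
    · simp only; omega
    · simp only; omega
    · simp only; omega
    · simp only; omega
    · intro h
      obtain ⟨k, hk⟩ := (Temp.v0_B0 (T := T)).1
      rw [← h] at hk
      simp only at hk
      omega
  have := hT _ h
  simp only at this
  omega

theorem opp_B0 {p u : Pt} (hp : B0 p) (hu : Adj p u) : B0 (u + (u - p)) ∧ Adj u (u + (u - p)) := by
  obtain ⟨x, y⟩ := p
  obtain ⟨⟨a, ha⟩, ⟨b, hb⟩⟩ := hp
  simp only at ha hb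
  rcases LatCycle.adj_cases hu with rfl | rfl | rfl | rfl <;>
    simp only [B0, Adj, Prod.fst_add, Prod.fst_sub, Prod.snd_add, Prod.snd_sub, Int.even_iff]
  · refine ⟨⟨by omega, by omega⟩, ?_⟩
    rw [show x + 1 - (x + 1 + (x + 1 - x)) = -1 by ring, show y - (y + (y - y)) = 0 by ring]
    rfl
  · refine ⟨⟨by omega, by omega⟩, ?_⟩
    rw [show x - 1 - (x - 1 + (x - 1 - x)) = 1 by ring, show y - (y + (y - y)) = 0 by ring]
    rfl
  · refine ⟨⟨by omega, by omega⟩, ?_⟩
    rw [show y + 1 - (y + 1 + (y + 1 - y)) = -1 by ring, show x - (x + (x - x)) = 0 by ring]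
    rfl
  · refine ⟨⟨by omega, by omega⟩, ?_⟩
    rw [show y - 1 - (y - 1 + (y - 1 - y)) = 1 by ring, show x - (x + (x - x)) = 0 by ring]
    rfl

/-- one step of the primal branch stays in the graph or reaches the deleted vertex -/
theorem pri_mem {T : Temp} {m : Pt → Pt} (hm : IsPM T.V m) {p : Pt} (hp : p ∈ T.V) (h0 : B0 p) :
    B0 (pri m p) ∧ (pri m p ∈ T.V ∨ pri m p = T.v0) := by
  have h1 := opp_B0 h0 (hm.adj p hp)
  refine ⟨h1.1, ?_⟩
  have h2 : pri m p ∈ T.C := T.isCl.edge (m p) (Temp.V_subset (map_mem hm hp))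
    ((hm.adj p hp).white h0.black) _ h1.1 h1.2
  by_cases h3 : pri m p = T.v0
  · exact Or.inr h3
  · exact Or.inl (Temp.mem_V'.2 ⟨h2, h3⟩)

/-- the potential separates the start of a primal branch from its parent -/
theorem pot {T : Temp} {m : Pt → Pt} (hm : IsPM T.V m) (χ : Pt → ZMod 2) {p : Pt}
    (hp : p ∈ T.V) (h0 : B0 p) (hv : χ T.v0 = 0)
    (hs : ∀ x ∈ T.V, B0 x → χ x + χ (pri m x) = ind p x) (hn : ∃ n, (pri m)^[n] p = T.v0) :
    χ p = 1 ∧ χ (pri m p) = 0 := by
  classical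
  have key : ∀ (n : ℕ) (x : Pt), B0 x → (x ∈ T.V ∨ x = T.v0) → (pri m)^[n] x = T.v0 →
      (∀ k < n, (pri m)^[k] x ≠ p) → χ x = 0 := by
    intro n
    induction n with
    | zero =>
      intro x _ _ hx _
      rw [show x = T.v0 from hx, hv]
    | succ n ih =>
      intro x hx hxV hn hk
      rcases hxV with hxV | rfl
      · have h1 := pri_mem hm hxV hx
        have h2 := ih (pri m x) h1.1 h1.2 hn fun k hk' => hk (k + 1) (by omega)
        have h3 := hs x hxV hx
        rw [h2, add_zero, ind_ne (show x ≠ p from hk 0 (by omega))] at h3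
        exact h3
      · exact hv
  have hN := Nat.find_spec hn
  have hmin : ∀ k < Nat.find hn, (pri m)^[k] p ≠ T.v0 := fun k hk => Nat.find_min hn hk
  generalize Nat.find hn = N at hN hmin
  obtain _ | N := N
  · exact absurd hN (Temp.mem_V.1 hp).2
  have h1 := pri_mem hm hp h0
  have h2 : χ (pri m p) = 0 := by
    refine key N _ h1.1 h1.2 hN fun k hk he => ?_
    refine hmin (N - k) (by omega) ?_
    have he' : (pri m)^[k + 1] p = p := he
    rw [← hN, ← he', ← Function.iterate_add_apply, he']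
    congr 1
    omega
  have h3 := hs p hp h0
  rw [h2, add_zero, ind_self] at h3
  exact ⟨h3, h2⟩

theorem ctr_mem {R : ℕ} {f : Pt} (hf : f ∈ Win R) : ctr f ∈ Win (2 * R + 2) := by
  rw [mem_Win] at hf ⊢
  simp only [ctr]
  push_cast
  omega

theorem m_ctr (m : Pt → Pt) (f : Pt) : m (ctr f) = mid f (par m f) := by
  ext <;> simp only [ctr, mid, par, Prod.fst_add, Prod.fst_sub, Prod.snd_add, Prod.snd_sub] <;>
    ring

theorem adj_par {m : Pt → Pt} {f : Pt} (h : Adj (ctr f) (m (ctr f))) : Adj f (par m f) := by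
  unfold Adj at h ⊢
  rw [← h]
  simp only [par, Prod.fst_add, Prod.fst_sub, Prod.snd_add, Prod.snd_sub]
  congr 2 <;> ring

/-- the two cells next to a white point -/
theorem exists_cells {r : ℕ} {w : Pt} (hw : w ∈ Win (r + 1)) (h : White w) :
    ∃ f g : Pt, Adj f g ∧ w = mid f g ∧ (f ∈ Win (r + 2) ∨ f.2 < 0) ∧
      (g ∈ Win (r + 2) ∨ g.2 < 0) := by
  obtain ⟨x, y⟩ := w
  obtain ⟨k, hk⟩ := h
  simp only [mem_Win] at hw hk ⊢
  push_cast at hw ⊢
  rcases Int.emod_two_eq_zero_or_one x with hx | hx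
  · refine ⟨(x / 2, y / 2), (x / 2 - 1, y / 2), ?_, ?_, ?_, ?_⟩
    · simp [Adj]
    · ext <;> simp only [mid] <;> omega
    · simp only; omega
    · simp only; omega
  · refine ⟨(x / 2, y / 2), (x / 2, y / 2 - 1), ?_, ?_, ?_, ?_⟩
    · simp [Adj]
    · ext <;> simp only [mid] <;> omega
    · simp only; omega
    · simp only; omega

/-- a white point matched to an (odd,odd) point -/
theorem of_B1 {V : Finset Pt} {m m' : Pt → Pt} {V' : Finset Pt} (hV : ∀ v ∈ V, 0 ≤ v.2)
    (hm : IsPM V m) (hm' : IsPM V' m') {r : ℕ} (hpar : ∀ f ∈ Win (r + 2), par m f = par m' f)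
    {w : Pt} (hw : w ∈ Win (r + 1)) (hwV : w ∈ V) (h1 : B1 (m w)) : m w = m' w := by
  obtain ⟨⟨a, ha⟩, ⟨b, hb⟩⟩ := h1
  have e : m w = ctr (a, b) := Prod.ext ha hb
  have hadj := adj_abs (hm.adj w hwV)
  have h0 := hV _ (map_mem hm hwV)
  have hf : ((a, b) : Pt) ∈ Win (r + 2) := by
    rw [mem_Win] at hw ⊢
    rw [abs_le, abs_le] at hadj
    push_cast at hw ⊢
    omega
  have h2 : m' (ctr (a, b)) = w := by
    rw [m_ctr m', ← hpar _ hf, ← m_ctr m, ← e, hm.invol]
  rw [e, ← h2, hm'.invol]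

/-- the two (even,even) neighbours of a point -/
theorem two_B0 {w p q : Pt} (hp : B0 p) (hq : B0 q) (h1 : Adj w p) (h2 : Adj w q) :
    q = p ∨ q = w + (w - p) := by
  obtain ⟨x, y⟩ := w
  obtain ⟨⟨a, ha⟩, ⟨b, hb⟩⟩ := hp
  obtain ⟨⟨a', ha'⟩, ⟨b', hb'⟩⟩ := hq
  rcases LatCycle.adj_cases h1 with rfl | rfl | rfl | rfl <;>
    rcases LatCycle.adj_cases h2 with rfl | rfl | rfl | rfl <;>
    first
      | exact Or.inl rfl
      | (simp only [Prod.mk_add_mk, Prod.mk_sub_mk, Prod.mk.injEq] at ha hb ha' hb' ⊢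
         omega)

/-- the value of the potential at the partner of `w` -/
theorem side (h : RowAcP) {T : Temp} {R : ℕ} (hT : Fit T (2 * R + 2)) {m : Pt → Pt}
    (hm : IsPM T.V m) {w : Pt} (hw : w ∈ T.V) (h0 : B0 (m w)) {c : Pt → ZMod 2}
    (hc : ∀ g : Pt, 0 ≤ g.2 → bd c g = 0)
    (hb : ∀ v : Pt, c v ≠ 0 → |v.1| ≤ 2 * R + 2 ∧ v.2 ≤ 2 * R + 2)
    (hx : ∀ x ∈ T.V, B0 x → c (m x) = ind w (m x)) :
    chi (R + 2) c (m w) = 1 ∧ chi (R + 2) c (w + (w - m w)) = 0 := by
  have hv0 := v0_nonneg hT.1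
  have hp := map_mem hm hw
  have key := pot hm (chi (R + 2) c) hp h0 ?_ ?_ (h T m (mem_PM.2 hm) _ hp h0)
  · rw [pri, hm.invol] at key
    exact key
  · refine Finset.sum_eq_zero fun k _ => ?_
    by_contra hne
    have h1 := hb _ hne
    have h2 : T.v0 ∈ Win (2 * R + 2) := by
      rw [mem_Win]
      rw [abs_le] at h1
      simp only at h1
      push_cast
      omega
    exact (Temp.mem_V.1 (hT.2 h2)).2 rfl
  · intro x hxV hx0
    have h1 : 0 ≤ (pri m x).2 := by
      rcases (pri_mem hm hxV hx0).2 with h1 | h1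
      · exact hT.1 _ h1
      · rw [h1]; exact hv0
    rw [pri, chi_step hc ?_ hx0 (hm.adj x hxV) (hT.1 x hxV) h1, hx x hxV hx0]
    · by_cases h2 : x = m w
      · rw [h2, hm.invol, ind_self, ind_self]
      · rw [ind_ne h2, ind_ne]
        intro h3
        apply h2
        rw [← h3, hm.invol]
    · intro v hv
      by_contra hne
      have := (hb v hne).2
      push_cast at hv
      omega

end DET

open DET in
/-- the dual branches from a window determine the matching in the window -/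
theorem rowDET (h : RowAcP) : RowDET := by
  intro T T' R r hT hT' m hm m' hm' E hE hr hpar hcl hhit
  rw [mem_PM] at hm hm'
  have hrR : r + 2 ≤ R := by
    have h1 : (((r + 2 : ℕ) : ℤ), (0 : ℤ)) ∈ Win (r + 2) := by
      rw [mem_Win]; simp only; omega
    have h2 := mem_Win.1 (hE (hr h1))
    simp only at h2
    omega
  have hsub : Win (r + 1) ⊆ Win (2 * R + 2) := Win_mono (by omega)
  have hadj : ∀ f ∈ E, Adj f (par m f) := fun f hf =>
    adj_par (hm.adj _ (hT.2 (ctr_mem (hE hf))))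
  have white : ∀ w ∈ Win (r + 1), White w → m w = m' w := by
    intro w hw hwh
    have hwV := hT.2 (hsub hw)
    have hwV' := hT'.2 (hsub hw)
    rcases black_iff.1 ((hm.adj w hwV).black hwh) with h0 | h1
    swap
    · exact of_B1 hT.1 hm hm' (fun f hf => hpar f (hr hf)) hw hwV h1
    rcases black_iff.1 ((hm'.adj w hwV').black hwh) with h0' | h1
    swap
    · exact (of_B1 hT'.1 hm' hm (fun f hf => (hpar f (hr hf)).symm) hw hwV' h1).symm
    obtain ⟨f, g, hfg, e, hf, hg⟩ := exists_cells hw hwh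
    have br : ∀ f : Pt, (f ∈ Win (r + 2) ∨ f.2 < 0) → ∃ c : Pt → ZMod 2,
        (∀ v, c v ≠ 0 → ∃ g ∈ E, v = mid g (par m g)) ∧
          ∀ g : Pt, 0 ≤ g.2 → bd c g = ind f g := by
      intro f hf
      rcases hf with hf | hf
      · obtain ⟨n, hn⟩ := hhit f (hr hf)
        exact exists_br hadj hcl n f (Or.inl (hr hf)) hn
      · exact exists_br hadj hcl 0 f (Or.inr hf) hf
    obtain ⟨c₁, s₁, b₁⟩ := br f hf
    obtain ⟨c₂, s₂, b₂⟩ := br g hg
    have hs : ∀ v, c₁ v + c₂ v ≠ 0 → ∃ g ∈ E, v = mid g (par m g) := by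
      intro v hv
      by_cases h1 : c₁ v = 0
      · exact s₂ v (by rwa [h1, zero_add] at hv)
      · exact s₁ v h1
    have hc : ∀ k : Pt, 0 ≤ k.2 → bd (fun v => ind w v + (c₁ v + c₂ v)) k = 0 := by
      intro k hk
      rw [bd_add, bd_add, b₁ k hk, b₂ k hk, e, bd_ind hfg, two2]
    have hb : ∀ v : Pt, ind w v + (c₁ v + c₂ v) ≠ 0 →
        |v.1| ≤ 2 * R + 2 ∧ v.2 ≤ 2 * R + 2 := by
      intro v hv
      by_cases h1 : v = w
      · have h2 := mem_Win.1 (hsub hw)
        rw [h1, abs_le]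
        push_cast at h2
        omega
      · rw [ind_ne h1, zero_add] at hv
        obtain ⟨k, hk, rfl⟩ := hs v hv
        have h2 := mem_Win.1 (hE hk)
        have h3 := adj_abs (hadj k hk)
        rw [abs_le, abs_le] at h3
        rw [abs_le]
        simp only [mid]
        omega
    have hx : ∀ (n : Pt → Pt), (∀ v, n (n v) = v) → (∀ k ∈ E, par m k = par n k) → ∀ x, B0 x →
        ind w (n x) + (c₁ (n x) + c₂ (n x)) = ind w (n x) := by
      intro n hn hp x hx
      have h1 : c₁ (n x) + c₂ (n x) = 0 := by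
        by_contra hne
        obtain ⟨k, hk, e1⟩ := hs _ hne
        rw [hp k hk, ← m_ctr n] at e1
        have e2 : x = ctr k := by rw [← hn x, e1, hn]
        obtain ⟨a, ha⟩ := hx.1
        rw [e2] at ha
        simp only [ctr] at ha
        omega
      rw [h1, add_zero]
    have k1 := side h hT hm hwV h0 hc hb fun x _ hx0 => hx m hm.invol (fun _ _ => rfl) x hx0
    have k2 := side h hT' hm' hwV' h0' hc hb fun x _ hx0 => hx m' hm'.invol hpar x hx0
    rcases two_B0 h0 h0' (hm.adj w hwV) (hm'.adj w hwV') with h1 | h1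
    · exact h1.symm
    · rw [h1, k1.2] at k2
      exact absurd k2.1 (by decide)
  intro v hv
  have hv1 : v ∈ Win (r + 1) := Win_mono (by omega) hv
  by_cases hwh : White v
  · exact white v hv1 hwh
  · have hvV := hT.2 (hsub hv1)
    have hbl : Black v := by
      by_contra hb
      exact hwh (white_iff_not_black.2 hb)
    have h1 := adj_abs (hm.adj v hvV)
    have h2 := hT.1 _ (map_mem hm hvV)
    have h3 : m v ∈ Win (r + 1) := by
      rw [mem_Win] at hv ⊢
      rw [abs_le, abs_le] at h1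
      push_cast
      omega
    have h4 := white _ h3 ((hm.adj v hvV).white hbl)
    rw [hm.invol] at h4
    rw [← hm'.invol (m v), ← h4]

end Vale.Agent.Q155
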