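import Vale.Agent.P155.H878.Q1Stmt

/-!
# P155 in the upper half-plane: the definitions of the statement
-/

namespace Vale.Agent.Q155

open MeasureTheory Filter Topology Vale.Agent.P155 Vale.Agent.P155.Q1

/-- `m` is a perfect matching of the half-plane lattice `{v ∈ ℤ² | 0 ≤ v.2}`, given as the
involution exchanging partners and fixing all other points. -/
structure IsHPM (m : Pt → Pt) : Prop where
  invol : ∀ v, m (m v) = v
  off : ∀ v : Pt, v.2 < 0 → m v = v
  adj : ∀ v : Pt, 0 ≤ v.2 → Adj v (m v)

/-- The Temperleyan graphs `T n` lie in the half-plane lattice and exhaust it. -/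
structure Exh (T : ℕ → Temp) : Prop where
  sub : ∀ n, ∀ v ∈ (T n).V, 0 ≤ v.2
  ex : ∀ v : Pt, 0 ≤ v.2 → ∀ᶠ n in atTop, v ∈ (T n).V

/-- The cylinder set of the matchings which agree with `κ` on the finite set `W`. -/
def cyl (W : Finset Pt) (κ : Pt → Pt) : Set (Pt → Pt) := {m | ∀ v ∈ W, m v = κ v}

/-- The infinite-volume Temperleyan law on the half-plane lattice: the local limit of the uniform
perfect matchings of Temperleyan graphs exhausting the half-plane. -/
def IsHLaw (P : Measure (Pt → Pt)) : Prop :=
  IsProbabilityMeasure P ∧ ∀ T, Exh T → ∀ W κ,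
    Tendsto (fun n => Ex1 (T n).V ((cyl W κ).indicator 1)) atTop (𝓝 (P.real (cyl W κ)))

/-- The Cayley map from the upper half-plane onto the unit disc. -/
noncomputable def cay (z : ℂ) : ℂ := (z - Complex.I) / (z + Complex.I)

open Classical in
/-- The image of a loop under `f`. -/
noncomputable def mapL (f : ℂ → ℂ) (γ : PL) : PL :=
  if h : Continuous (f ∘ γ.c) then ⟨⟨f ∘ γ.c, h⟩⟩ else γ

open Classical in
/-- The Cayley image of the double-dimer loop `L`, drawn in the grid `a + δ ℤ²`. -/
noncomputable def cloop (δ : ℝ) (a : ℂ) (ω : Conf) (L : Set Pt) : Loop :=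
  if h : L.Nonempty then SeparationQuotient.mk (mapL cay (lcurve δ a ω h.some))
  else SeparationQuotient.mk ⟨ContinuousMap.const _ 0⟩

/-- The family `c i`, `i ∈ s`, has finitely many members of diameter `> ε`, for all `ε > 0`. -/
def LocFin {ι : Type*} (s : Set ι) (c : ι → Loop) : Prop :=
  ∀ ε : ℝ, 0 < ε → {i | i ∈ s ∧ ε < (c i).diam}.Finite

open Classical in
/-- The collection formed by a family of loops with `LocFin` (constant loops are dropped). -/
noncomputable def ofLoc {ι : Type*} (s : Set ι) (c : ι → Loop) : LoopColl where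
  mult γ := if LocFin s c ∧ 0 < γ.diam then Set.ncard {i | i ∈ s ∧ c i = γ} else 0
  nonconst := by
    intro γ h
    by_contra h0
    simp [h0] at h
  fin := by
    intro ε hε
    by_cases hs : LocFin s c
    · refine ((hs ε hε).image c).subset ?_
      rintro γ ⟨h1, h2⟩
      have hne : Set.ncard {i | i ∈ s ∧ c i = γ} ≠ 0 := by
        intro h0
        apply h1
        split_ifs <;> simp [h0]
      obtain ⟨i, hi⟩ := Set.nonempty_of_ncard_ne_zero hne
      exact ⟨i, ⟨hi.1, by rw [hi.2]; exact h2⟩, hi.2⟩
    · simp [hs]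

/-- The collection of the Cayley images of the double-dimer loops of `ω`, drawn in the grid
`a + δ ℤ²`. -/
noncomputable def LH (δ : ℝ) (a : ℂ) (ω : Conf) : LoopColl := ofLoc (Loops ω) (cloop δ a ω)

end Vale.Agent.Q155
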