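import Vale.Agent.Q155.Rows
import Vale.Agent.P155.G45.Basic

/-!
# P155 in the upper half-plane: counting spanning forests

The rows `RowPos`, `RowW1`, `RowW2`, `RowMono`.
-/

namespace Vale.Agent.Q155

open Vale.Agent.P155 Function

namespace FOR

/-! ## The relation `Hit` -/

theorem hit_of_mem {φ : Pt → Pt} {v : Pt} {A : Set Pt} (h : v ∈ A) : Hit φ v A := ⟨0, h⟩

theorem hit_step {φ : Pt → Pt} {v : Pt} {A : Set Pt} (h : Hit φ (φ v) A) : Hit φ v A := by
  obtain ⟨n, hn⟩ := h
  exact ⟨n + 1, by rwa [Function.iterate_succ_apply]⟩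

theorem hit_ind {φ : Pt → Pt} {A : Set Pt} {P : Pt → Prop} (h0 : ∀ v ∈ A, P v)
    (h1 : ∀ v, P (φ v) → P v) {v : Pt} (h : Hit φ v A) : P v := by
  obtain ⟨n, hn⟩ := h
  induction n generalizing v with
  | zero => exact h0 v hn
  | succ n ih =>
    rw [Function.iterate_succ_apply] at hn
    exact h1 v (ih hn)

theorem hit_fixed {φ : Pt → Pt} {v : Pt} {A : Set Pt} (hv : φ v = v) : Hit φ v A ↔ v ∈ A := by
  constructor
  · rintro ⟨n, hn⟩
    rwa [Function.iterate_fixed hv] at hn
  · exact hit_of_mem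

theorem esc_hit {S : Finset Pt} {φ : Pt → Pt} (h : IsFor S φ) (v : Pt) :
    Hit φ v {y | y ∉ S} := h.esc v

/-- two fixed points on the same branch are equal -/
theorem fixed_eq {φ : Pt → Pt} {z : Pt} {n m : ℕ} (hn : φ (φ^[n] z) = φ^[n] z)
    (hm : φ (φ^[m] z) = φ^[m] z) : φ^[n] z = φ^[m] z := by
  have h1 : φ^[m + n] z = φ^[n] z := by
    rw [Function.iterate_add_apply, Function.iterate_fixed hn]
  have h2 : φ^[n + m] z = φ^[m] z := by
    rw [Function.iterate_add_apply, Function.iterate_fixed hm]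
  rw [← h1, ← h2, add_comm]

/-- no cycles -/
theorem not_hit_self {S : Finset Pt} {φ : Pt → Pt} (h : IsFor S φ) {x : Pt} (hx : x ∈ S) :
    ¬ Hit φ (φ x) {x} := by
  rintro ⟨n, hn⟩
  have hper : Function.IsPeriodicPt φ (n + 1) x := by
    show φ^[n + 1] x = x
    rw [Function.iterate_succ_apply]
    exact hn
  obtain ⟨m, hm⟩ := h.esc x
  have h1 : φ^[(n + 1) * m] x = x := hper.mul_const m
  have h2 : (n + 1) * m = n * m + m := by ring
  rw [h2, Function.iterate_add_apply, Function.iterate_fixed (h.off _ hm)] at h1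
  exact hm (h1.symm ▸ hx)

/-! ## Removing one vertex -/

theorem isFor_cut {S F : Finset Pt} {φ : Pt → Pt} (h : IsFor S φ) : IsFor (S \ F) (cut F φ) := by
  classical
  refine ⟨fun v hv => ?_, fun v hv => ?_, fun v => ?_⟩
  · rw [Finset.mem_sdiff] at hv
    have : cut F φ v = φ v := by simp [cut, hv.2]
    rw [this]
    exact h.adj v hv.1
  · by_cases hF : v ∈ F
    · simp [cut, hF]
    · have hS : v ∉ S := fun hS => hv (Finset.mem_sdiff.2 ⟨hS, hF⟩)
      simp [cut, hF, h.off v hS]
  · refine hit_ind (P := fun v => Hit (cut F φ) v {y | y ∉ S \ F}) ?_ ?_ (esc_hit h v)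
    · intro v hv
      exact hit_of_mem fun h' => hv (Finset.mem_sdiff.1 h').1
    · intro v hv
      by_cases hF : v ∈ F
      · exact hit_of_mem fun h' => (Finset.mem_sdiff.1 h').2 hF
      · apply hit_step
        have : cut F φ v = φ v := by simp [cut, hF]
        rwa [this]

theorem update_eq_cut (φ : Pt → Pt) (x : Pt) : update φ x x = cut {x} φ := by
  funext v
  by_cases h : v = x
  · subst h
    simp [cut]
  · simp [cut, h]

theorem isFor_erase {S : Finset Pt} {φ : Pt → Pt} (h : IsFor S φ) (x : Pt) :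
    IsFor (S.erase x) (update φ x x) := by
  rw [update_eq_cut, ← Finset.sdiff_singleton_eq_erase]
  exact isFor_cut h

theorem hit_update_of {ψ : Pt → Pt} {x y : Pt} (hx : ψ x = x) {A : Set Pt} {z : Pt}
    (h : Hit ψ z A) : Hit (update ψ x y) z A := by
  refine hit_ind (P := fun z => Hit (update ψ x y) z A) (fun v hv => hit_of_mem hv) ?_ h
  intro v hv
  by_cases hvx : v = x
  · subst hvx
    rwa [hx] at hv
  · apply hit_step
    rwa [update_of_ne hvx]

theorem hit_update {ψ : Pt → Pt} {x y : Pt} (hx : ψ x = x) (hy : ¬ Hit ψ y {x}) {A : Set Pt}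
    {z : Pt} : Hit (update ψ x y) z A ↔ Hit ψ z A ∨ (Hit ψ z {x} ∧ Hit ψ y A) := by
  constructor
  · intro h
    refine hit_ind (P := fun z => Hit ψ z A ∨ (Hit ψ z {x} ∧ Hit ψ y A))
      (fun v hv => Or.inl (hit_of_mem hv)) ?_ h
    intro v hv
    by_cases hvx : v = x
    · subst hvx
      rw [update_self] at hv
      rcases hv with hv | hv
      · exact Or.inr ⟨hit_of_mem rfl, hv⟩
      · exact absurd hv.1 hy
    · rw [update_of_ne hvx] at hv
      rcases hv with hv | hv
      · exact Or.inl (hit_step hv)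
      · exact Or.inr ⟨hit_step hv.1, hv.2⟩
  · rintro (h | ⟨h1, h2⟩)
    · exact hit_update_of hx h
    · have h3 : Hit (update ψ x y) x A := by
        apply hit_step
        rw [update_self]
        exact hit_update_of hx h2
      refine hit_ind (P := fun z => Hit (update ψ x y) z A) ?_ ?_ h1
      · rintro v rfl
        exact h3
      · intro v hv
        by_cases hvx : v = x
        · subst hvx
          exact h3
        · apply hit_step
          rwa [update_of_ne hvx]

theorem hit_split {S : Finset Pt} {x : Pt} {ψ : Pt → Pt} (h : IsFor (S.erase x) ψ) (z : Pt) :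
    Hit ψ z {y | y ∉ S} ∨ Hit ψ z {x} := by
  obtain ⟨n, hn⟩ := h.esc z
  by_cases h1 : ψ^[n] z = x
  · exact Or.inr ⟨n, h1⟩
  · exact Or.inl ⟨n, fun h2 => hn (Finset.mem_erase.2 ⟨h1, h2⟩)⟩

theorem isFor_update {S : Finset Pt} {x y : Pt} {ψ : Pt → Pt} (hxS : x ∈ S)
    (h : IsFor (S.erase x) ψ) (hxy : Adj x y) (hy : ¬ Hit ψ y {x}) :
    IsFor S (update ψ x y) := by
  have hx : ψ x = x := h.off x (Finset.notMem_erase x S)
  refine ⟨fun v hv => ?_, fun v hv => ?_, fun v => ?_⟩
  · by_cases hvx : v = x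
    · subst hvx
      rwa [update_self]
    · rw [update_of_ne hvx]
      exact h.adj v (Finset.mem_erase.2 ⟨hvx, hv⟩)
  · have hvx : v ≠ x := fun e => hv (e ▸ hxS)
    rw [update_of_ne hvx]
    exact h.off v fun h' => hv (Finset.mem_of_mem_erase h')
  · have : Hit (update ψ x y) v {y | y ∉ S} := by
      rw [hit_update hx hy]
      rcases hit_split h v with h1 | h1
      · exact Or.inl h1
      · exact Or.inr ⟨h1, (hit_split h y).resolve_right hy⟩
    exact this

theorem not_hit_erase {S : Finset Pt} {φ : Pt → Pt} (h : IsFor S φ) {x : Pt} (hx : x ∈ S) :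
    ¬ Hit (update φ x x) (φ x) {x} := by
  intro h1
  apply not_hit_self h hx
  refine hit_ind (P := fun z => Hit φ z {x}) (fun v hv => hit_of_mem hv) ?_ h1
  intro v hv
  by_cases hvx : v = x
  · exact hit_of_mem hvx
  · rw [update_of_ne hvx] at hv
    exact hit_step hv

open Classical in
/-- the indicator of `Hit` -/
noncomputable def ind (φ : Pt → Pt) (v : Pt) (A : Set Pt) : ℝ := if Hit φ v A then 1 else 0

/-- the decomposition according to the parent of `x` -/
theorem sum_For {S : Finset Pt} {x : Pt} (hx : x ∈ S) (G : (Pt → Pt) → ℝ) :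
    ∑ φ ∈ For S, G φ =
      ∑ ψ ∈ For (S.erase x), ∑ y ∈ nbrs x, (1 - ind ψ y {x}) * G (update ψ x y) := by
  classical
  rw [← Finset.sum_product']
  have e : ∀ p ∈ For (S.erase x) ×ˢ nbrs x, (1 - ind p.1 p.2 {x}) * G (update p.1 x p.2) =
      if ¬ Hit p.1 p.2 {x} then G (update p.1 x p.2) else 0 := by
    intro p _
    unfold ind
    by_cases h : Hit p.1 p.2 {x} <;> simp [h]
  rw [Finset.sum_congr rfl e, ← Finset.sum_filter]
  refine Finset.sum_nbij' (fun φ => (update φ x x, φ x)) (fun p => update p.1 x p.2)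
    ?_ ?_ ?_ ?_ ?_
  · intro φ hφ
    have h := mem_For.1 hφ
    simp only [Finset.mem_filter, Finset.mem_product]
    exact ⟨⟨mem_For.2 (isFor_erase h x), mem_nbrs.2 (h.adj x hx)⟩, not_hit_erase h hx⟩
  · intro p hp
    simp only [Finset.mem_filter, Finset.mem_product] at hp
    exact mem_For.2 (isFor_update hx (mem_For.1 hp.1.1) (mem_nbrs.1 hp.1.2) hp.2)
  · intro φ _
    simp
  · intro p hp
    simp only [Finset.mem_filter, Finset.mem_product] at hp
    have h0 : p.1 x = x := (mem_For.1 hp.1.1).off x (Finset.notMem_erase x S)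
    refine Prod.ext ?_ (by simp)
    simp only [update_idem]
    rw [update_eq_self_iff]
    exact h0.symm
  · intro φ _
    simp

theorem sum_nbrs (x : Pt) (f : Pt → ℝ) : ∑ y ∈ nbrs x, f y =
    f (x.1 + 1, x.2) + f (x.1 - 1, x.2) + f (x.1, x.2 + 1) + f (x.1, x.2 - 1) := by
  unfold nbrs
  rw [Finset.sum_insert, Finset.sum_insert, Finset.sum_insert, Finset.sum_singleton]
  · ring
  all_goals simp only [Finset.mem_insert, Finset.mem_singleton, Prod.mk.injEq]; omega

theorem nh_eq (S : Finset Pt) (A : Set Pt) (v : Pt) :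
    (nh S A v : ℝ) = ∑ φ ∈ For S, ind φ v A := by
  classical
  unfold nh ind
  rw [Finset.card_filter]
  push_cast
  refine Finset.sum_congr rfl fun φ _ => ?_
  split_ifs <;> rfl

theorem tau_eq (S : Finset Pt) : (tau S : ℝ) = ∑ _φ ∈ For S, (1 : ℝ) := by
  simp [tau]

/-- the branch of `z` ends in at most one point -/
theorem ind_mul {S : Finset Pt} {x : Pt} {ψ : Pt → Pt} (hx : x ∈ S) (h : IsFor (S.erase x) ψ)
    {A : Set Pt} (hA : ∀ y ∈ A, y ∉ S) (z : Pt) : ind ψ z A * ind ψ z {x} = 0 := by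
  unfold ind
  by_cases h1 : Hit ψ z A
  · by_cases h2 : Hit ψ z {x}
    · exfalso
      obtain ⟨n, hn⟩ := h1
      obtain ⟨m, hm⟩ := h2
      have hm' : ψ^[m] z = x := hm
      have e1 : ψ (ψ^[n] z) = ψ^[n] z :=
        h.off _ fun h' => hA _ hn (Finset.mem_of_mem_erase h')
      have e2 : ψ (ψ^[m] z) = ψ^[m] z := by
        rw [hm']
        exact h.off x (Finset.notMem_erase x S)
      have e3 := fixed_eq e1 e2
      rw [e3, hm'] at hn
      exact hA x hn hx
    · simp [h2]
  · simp [h1]

theorem ind_update {S : Finset Pt} {x : Pt} {ψ : Pt → Pt} (hx : x ∈ S)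
    (h : IsFor (S.erase x) ψ) {A : Set Pt} (hA : ∀ y ∈ A, y ∉ S) (y z : Pt) :
    (1 - ind ψ y {x}) * ind (update ψ x y) z A =
      (1 - ind ψ y {x}) * (ind ψ z A + ind ψ z {x} * ind ψ y A) := by
  by_cases hy : Hit ψ y {x}
  · simp [ind, hy]
  · congr 1
    have h0 : ψ x = x := h.off x (Finset.notMem_erase x S)
    have h1 := ind_mul hx h hA z
    unfold ind at h1 ⊢
    rw [hit_update h0 hy]
    by_cases a1 : Hit ψ z A <;> by_cases a2 : Hit ψ z {x} <;> by_cases a3 : Hit ψ y A <;>
      simp_all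

theorem nh_off {S : Finset Pt} {A : Set Pt} {v : Pt} (hv : v ∉ S) (hA : v ∉ A) :
    (nh S A v : ℝ) = 0 := by
  rw [nh_eq]
  refine Finset.sum_eq_zero fun φ hφ => ?_
  unfold ind
  rw [if_neg]
  rwa [hit_fixed ((mem_For.1 hφ).off v hv)]

theorem nh_mem {S : Finset Pt} {A : Set Pt} {v : Pt} (hA : v ∈ A) :
    (nh S A v : ℝ) = tau S := by
  rw [nh_eq, tau_eq]
  refine Finset.sum_congr rfl fun φ _ => ?_
  unfold ind
  rw [if_pos (hit_of_mem hA)]

theorem tau_erase {S : Finset Pt} {x : Pt} (hx : x ∈ S) :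
    (tau S : ℝ) = ∑ y ∈ nbrs x, ((tau (S.erase x) : ℝ) - nh (S.erase x) {x} y) := by
  rw [tau_eq, sum_For hx, Finset.sum_comm]
  refine Finset.sum_congr rfl fun y _ => ?_
  rw [tau_eq, nh_eq, ← Finset.sum_sub_distrib]
  simp

end FOR

open FOR

theorem rowPos : RowPos := by
  classical
  intro S
  unfold tau
  rw [Finset.card_pos]
  obtain ⟨M, hM⟩ : ∃ M : ℤ, ∀ v ∈ S, v.1 < M := by
    obtain ⟨M, hM⟩ := (S.image Prod.fst).bddAbove
    refine ⟨M + 1, fun v hv => ?_⟩
    have := hM (Finset.mem_coe.2 (Finset.mem_image_of_mem Prod.fst hv))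
    omega
  refine ⟨fun v => if v ∈ S then (v.1 + 1, v.2) else v, mem_For.2 ⟨?_, ?_, ?_⟩⟩
  · intro v hv
    simp [hv, Adj]
  · intro v hv
    simp [hv]
  · have key : ∀ (k : ℕ) (v : Pt), M ≤ v.1 + k →
        Hit (fun v => if v ∈ S then (v.1 + 1, v.2) else v) v {y | y ∉ S} := by
      intro k
      induction k with
      | zero =>
        intro v hv
        refine hit_of_mem fun h => ?_
        have := hM v h
        omega
      | succ k ih =>
        intro v hv
        by_cases h : v ∈ S
        · apply hit_step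
          simp only [h, if_true]
          apply ih
          push_cast at hv
          simp only
          omega
        · exact hit_of_mem h
    intro v
    exact key (M - v.1).toNat v (by omega)

theorem rowW1 : RowW1 := by
  classical
  intro S F φ0 hFS hadj hin hesc
  refine ⟨fun φ hφ => isFor_cut hφ.1, ?_, ?_⟩
  · intro φ hφ φ' hφ' h
    funext v
    by_cases hv : v ∈ F
    · rw [hφ.2 v hv, hφ'.2 v hv]
    · have := congrFun h v
      simpa [cut, hv] using this
  · intro ψ hψ
    have hψ' : IsFor (S \ F) ψ := hψ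
    have k1 : ∀ v ∈ F, Hit (fun v => if v ∈ F then φ0 v else ψ v) v {y | y ∉ S} := by
      intro v hv
      have h0 : Hit φ0 v {y | y ∉ F} := hesc v hv
      refine hit_ind (P := fun v => v ∈ F →
        Hit (fun v => if v ∈ F then φ0 v else ψ v) v {y | y ∉ S}) ?_ ?_ h0 hv
      · intro w hw hw'
        exact absurd hw' hw
      · intro w hw hw'
        apply hit_step
        simp only [hw', if_true]
        rcases hin w hw' with h | h
        · exact hw h
        · exact hit_of_mem h
    refine ⟨fun v => if v ∈ F then φ0 v else ψ v, ⟨⟨?_, ?_, ?_⟩, ?_⟩, ?_⟩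
    · intro v hv
      by_cases h : v ∈ F
      · simpa [h] using hadj v h
      · simpa [h] using hψ'.adj v (Finset.mem_sdiff.2 ⟨hv, h⟩)
    · intro v hv
      have h : v ∉ F := fun h => hv (hFS h)
      simpa [h] using hψ'.off v fun h' => hv (Finset.mem_sdiff.1 h').1
    · intro v
      refine hit_ind (P := fun v => Hit (fun v => if v ∈ F then φ0 v else ψ v) v {y | y ∉ S})
        ?_ ?_ (esc_hit hψ' v)
      · intro w hw
        by_cases h : w ∈ F
        · exact k1 w h
        · exact hit_of_mem fun h' => hw (Finset.mem_sdiff.2 ⟨h', h⟩)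
      · intro w hw
        by_cases h : w ∈ F
        · exact k1 w h
        · apply hit_step
          simpa only [h, if_false] using hw
    · intro f hf
      simp [hf]
    · funext v
      by_cases h : v ∈ F
      · have : ψ v = v := hψ'.off v fun h' => (Finset.mem_sdiff.1 h').2 h
        simp [cut, h, this]
      · simp [cut, h]

theorem rowW2 : RowW2 := by
  intro S A hA x hx
  have e : ∀ z, (nh S A z : ℝ) = ∑ ψ ∈ For (S.erase x), ∑ y ∈ nbrs x,
      (1 - ind ψ y {x}) * (ind ψ z A + ind ψ z {x} * ind ψ y A) := by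
    intro z
    rw [nh_eq, sum_For hx]
    refine Finset.sum_congr rfl fun ψ hψ => Finset.sum_congr rfl fun y _ => ?_
    exact ind_update hx (mem_For.1 hψ) hA y z
  unfold lap
  simp only [e]
  rw [Finset.mul_sum, ← Finset.sum_add_distrib, ← Finset.sum_add_distrib,
    ← Finset.sum_add_distrib, ← Finset.sum_sub_distrib]
  refine Finset.sum_eq_zero fun ψ hψ => ?_
  have h := mem_For.1 hψ
  have hb : ind ψ x {x} = 1 := by
    unfold ind
    exact if_pos (hit_of_mem (Set.mem_singleton x))
  have ha : ind ψ x A = 0 := by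
    have := ind_mul hx h hA x
    rwa [hb, mul_one] at this
  have h1 := ind_mul hx h hA (x.1 + 1, x.2)
  have h2 := ind_mul hx h hA (x.1 - 1, x.2)
  have h3 := ind_mul hx h hA (x.1, x.2 + 1)
  have h4 := ind_mul hx h hA (x.1, x.2 - 1)
  simp only [FOR.sum_nbrs, ha, hb]
  linear_combination (4 - ind ψ (x.1 + 1, x.2) {x} - ind ψ (x.1 - 1, x.2) {x} -
    ind ψ (x.1, x.2 + 1) {x} - ind ψ (x.1, x.2 - 1) {x}) * (h1 + h2 + h3 + h4)

theorem FOR.mono_one {S S' : Finset Pt} {x : Pt} (hx : x ∈ S) (hS : S ⊆ S') :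
    tau S' * tau (S.erase x) ≤ tau (S'.erase x) * tau S := by
  have hA : ∀ T : Finset Pt, ∀ y ∈ ({x} : Set Pt), y ∉ T.erase x := by
    rintro T y rfl
    exact Finset.notMem_erase _ T
  have key := G45.comparison (O := (S.erase x : Set Pt)) (Finset.finite_toSet _)
    (u := fun v => (tau (S'.erase x) : ℝ) * nh (S.erase x) {x} v)
    (v := fun v => (tau (S.erase x) : ℝ) * nh (S'.erase x) {x} v) ?_ ?_
  · have : (tau S' : ℝ) * tau (S.erase x) ≤ tau (S'.erase x) * tau S := by
      rw [tau_erase hx, tau_erase (hS hx), Finset.sum_mul, Finset.mul_sum]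
      refine Finset.sum_le_sum fun y _ => ?_
      have := key y
      nlinarith
    exact_mod_cast this
  · intro y hy
    have hy' : y ∈ S.erase x := hy
    rw [G45.lap_smul, G45.lap_smul, rowW2 _ _ (hA S) y hy',
      rowW2 _ _ (hA S') y (Finset.erase_subset_erase x hS hy')]
    simp
  · intro y hy
    have hy' : y ∉ S.erase x := hy
    by_cases h : y = x
    · rw [nh_mem (A := {x}) h, nh_mem (A := {x}) h, mul_comm]
    · rw [nh_off (A := {x}) hy' h, mul_zero]
      positivity

theorem rowMono : RowMono := by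
  classical
  intro F
  induction F using Finset.induction_on with
  | empty =>
    intro S S' _ _
    simp [mul_comm]
  | insert x F hxF ih =>
    intro S S' hF hS
    have hx : x ∈ S \ F := Finset.mem_sdiff.2 ⟨hF (Finset.mem_insert_self x F), hxF⟩
    have h1 := FOR.mono_one hx (Finset.sdiff_subset_sdiff hS (Finset.Subset.refl F))
    have h2 := ih S S' ((Finset.subset_insert x F).trans hF) hS
    rw [Finset.sdiff_insert, Finset.sdiff_insert]
    have hp : 0 < tau (S \ F) * tau (S' \ F) := Nat.mul_pos (rowPos _) (rowPos _)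
    refine Nat.le_of_mul_le_mul_right ?_ hp
    have h3 := Nat.mul_le_mul h1 h2
    calc tau S' * tau ((S \ F).erase x) * (tau (S \ F) * tau (S' \ F))
        = tau (S' \ F) * tau ((S \ F).erase x) * (tau S' * tau (S \ F)) := by ring
      _ ≤ tau ((S' \ F).erase x) * tau (S \ F) * (tau (S' \ F) * tau S) := h3
      _ = tau ((S' \ F).erase x) * tau S * (tau (S \ F) * tau (S' \ F)) := by ring

end Vale.Agent.Q155
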