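import Vale.Agent.Q155.Rows
import Vale.Agent.P155.A.TempMain

/-!
# P155 in the upper half-plane: the infinite-volume law
-/

namespace Vale.Agent.Q155

open MeasureTheory Filter Topology Vale.Agent.P155 Vale.Agent.P155.Q1
open scoped ENNReal NNReal BoundedContinuousFunction

namespace LIM

theorem isOpen_cyl (W : Finset Pt) (κ : Pt → Pt) : IsOpen (cyl W κ) := by
  have : cyl W κ = ⋂ v ∈ W, (fun m : Pt → Pt => m v) ⁻¹' {κ v} := by
    ext m
    simp [cyl]
  rw [this]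
  exact isOpen_biInter_finset fun v _ => (isOpen_discrete _).preimage (continuous_apply v)

theorem dep_cont {α : Type*} [TopologicalSpace α] {W : Finset Pt} {g : (Pt → Pt) → α}
    (h : Dep W g) : Continuous g := by
  refine IsLocallyConstant.continuous ((IsLocallyConstant.iff_exists_open g).2 fun m => ?_)
  exact ⟨cyl W m, isOpen_cyl W m, fun _ _ => rfl, fun m' hm' => h m' m hm'⟩

theorem dep2_cont {α : Type*} [TopologicalSpace α] {W : Finset Pt} {G : Conf → α}
    (h : Dep2 W G) : Continuous G := by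
  refine IsLocallyConstant.continuous ((IsLocallyConstant.iff_exists_open G).2 fun ω => ?_)
  exact ⟨cyl W ω.1 ×ˢ cyl W ω.2, (isOpen_cyl W _).prod (isOpen_cyl W _),
    ⟨fun _ _ => rfl, fun _ _ => rfl⟩, fun ω' hω' => h ω' ω fun v hv => ⟨hω'.1 v hv, hω'.2 v hv⟩⟩

theorem dep_ind {W : Finset Pt} {A : Set (Pt → Pt)} (h : Dep W fun m => m ∈ A) :
    Dep W (A.indicator (1 : (Pt → Pt) → ℝ)) := by
  classical
  intro m m' hm
  have h1 : (m ∈ A) = (m' ∈ A) := h m m' hm
  simp only [Set.indicator_apply, h1, Pi.one_apply]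

theorem dep_cyl (W : Finset Pt) (κ : Pt → Pt) : Dep W fun m => m ∈ cyl W κ := by
  intro m m' hm
  exact propext ⟨fun h v hv => (hm v hv).symm.trans (h v hv), fun h v hv => (hm v hv).trans (h v hv)⟩

theorem ind01 (A : Set (Pt → Pt)) (m : Pt → Pt) :
    0 ≤ A.indicator (1 : (Pt → Pt) → ℝ) m ∧ A.indicator (1 : (Pt → Pt) → ℝ) m ≤ 1 := by
  classical
  rw [Set.indicator_apply]
  split_ifs <;> simp

theorem dep_meas {W : Finset Pt} {A : Set (Pt → Pt)} (h : Dep W fun m => m ∈ A) :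
    MeasurableSet A := by
  refine IsOpen.measurableSet (isOpen_iff_forall_mem_open.2 fun m hm => ?_)
  refine ⟨cyl W m, fun m' hm' => ?_, isOpen_cyl W m, fun _ _ => rfl⟩
  have h1 : (m' ∈ A) = (m ∈ A) := h m' m hm'
  rw [h1]
  exact hm

theorem fit_mono {T : Temp} {r s : ℕ} (h : r ≤ s) (hT : Fit T s) : Fit T r :=
  ⟨hT.1, (Win_mono h).trans hT.2⟩

theorem fit_ev {T : ℕ → Temp} (hT : Exh T) (s : ℕ) : ∀ᶠ n in atTop, Fit (T n) s := by
  have h1 : ∀ᶠ n in atTop, ∀ v ∈ Win s, v ∈ (T n).V :=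
    (eventually_all_finset (Win s)).2 fun v hv => hT.ex v (mem_Win.1 hv).2.2.1
  exact h1.mono fun n hn => ⟨hT.sub n, fun v hv => hn v hv⟩

theorem exists_win (W : Finset Pt) : ∃ r : ℕ, 1 ≤ r ∧ ∀ v ∈ W, 0 ≤ v.2 → v ∈ Win r := by
  refine ⟨W.sup (fun v => v.1.natAbs + v.2.natAbs) + 1, by omega, fun v hv h0 => ?_⟩
  have h1 := Finset.le_sup (f := fun v : Pt => v.1.natAbs + v.2.natAbs) hv
  rw [mem_Win]
  generalize W.sup (fun v => v.1.natAbs + v.2.natAbs) = N at h1
  push_cast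
  omega

/-- reset the lower half-plane -/
def fx (m : Pt → Pt) (v : Pt) : Pt := if v.2 < 0 then v else m v

theorem ex1_congr {V : Finset Pt} {g g' : (Pt → Pt) → ℝ} (h : ∀ m ∈ PM V, g m = g' m) :
    Ex1 V g = Ex1 V g' := by
  unfold Ex1
  rw [Finset.sum_congr rfl h]

theorem ex1_fx {T : Temp} {s : ℕ} (hT : Fit T s) (g : (Pt → Pt) → ℝ) :
    Ex1 T.V (fun m => g (fx m)) = Ex1 T.V g := by
  refine ex1_congr fun m hm => ?_
  congr 1
  funext v
  unfold fx
  split_ifs with hv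
  · exact ((mem_PM.1 hm).off v fun h' => absurd (hT.1 v h') (not_le.2 hv)).symm
  · rfl

theorem cauchy (h : RowLOC) {W : Finset Pt} {g : (Pt → Pt) → ℝ} (hg : Dep W g)
    (h01 : ∀ m, 0 ≤ g m ∧ g m ≤ 1) {ε : ℝ} (hε : 0 < ε) :
    ∃ s : ℕ, ∀ T T' : Temp, Fit T s → Fit T' s → |Ex1 T.V g - Ex1 T'.V g| ≤ ε := by
  obtain ⟨K, hK⟩ := h ε hε
  obtain ⟨r, hr, hW⟩ := exists_win W
  refine ⟨K * r, fun T T' h1 h2 => ?_⟩
  rw [← ex1_fx h1, ← ex1_fx h2]
  refine hK r hr T T' h1 h2 _ (fun m m' hm => hg _ _ fun v hv => ?_) fun m => h01 _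
  unfold fx
  split_ifs with h0
  · rfl
  · exact hm v (hW v hv (not_lt.1 h0))

/-- the uniform measure on the matchings -/
noncomputable def unif (V : Finset Pt) : Measure (Pt → Pt) :=
  ((Z V : ℝ≥0)⁻¹ : ℝ≥0) • ∑ m ∈ PM V, Measure.dirac m

theorem integral_unif (V : Finset Pt) (g : (Pt → Pt) → ℝ) : ∫ m, g m ∂(unif V) = Ex1 V g := by
  unfold unif Ex1
  rw [integral_smul_nnreal_measure, integral_finsetSum_measure fun m _ => integrable_dirac (by simp)]
  simp [NNReal.smul_def]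

theorem unif_prob (T : Temp) : IsProbabilityMeasure (unif T.V) := by
  constructor
  have h0 : (Z T.V : ℝ≥0∞) ≠ 0 := by exact_mod_cast (Temp.Z_V_pos T).ne'
  have h1 : (Z T.V : ℝ≥0) ≠ 0 := by exact_mod_cast (Temp.Z_V_pos T).ne'
  unfold unif
  rw [Measure.coe_nnreal_smul_apply, Measure.finsetSum_apply]
  simp only [measure_univ, Finset.sum_const, nsmul_eq_mul, mul_one]
  rw [ENNReal.coe_inv h1]
  exact ENNReal.inv_mul_cancel h0 (by simp)

/-- the carrier -/
def KK : Set (Pt → Pt) := Set.pi Set.univ fun v => (insert v (nbrs v) : Finset Pt)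

theorem KK_compact : IsCompact KK :=
  isCompact_univ_pi fun _ => (Finset.finite_toSet _).isCompact

theorem unif_KK (V : Finset Pt) : unif V KKᶜ = 0 := by
  unfold unif
  rw [Measure.coe_nnreal_smul_apply, Measure.finsetSum_apply, Finset.sum_eq_zero, mul_zero]
  intro m hm
  rw [Measure.dirac_apply, Set.indicator_of_notMem]
  rw [Set.mem_compl_iff, not_not]
  intro v _
  have h := mem_PM.1 hm
  by_cases hv : v ∈ V
  · exact Finset.mem_coe.2 (Finset.mem_insert_of_mem (mem_nbrs.2 (h.adj v hv)))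
  · rw [h.off v hv]
    exact Finset.mem_coe.2 (Finset.mem_insert_self _ _)

/-- the approximation property of a cluster point -/
def App (P : Measure (Pt → Pt)) : Prop :=
  ∀ (W : Finset Pt) (g : (Pt → Pt) → ℝ), Dep W g → (∀ m, 0 ≤ g m ∧ g m ≤ 1) → ∀ (ε : ℝ) (s : ℕ),
    (∀ T T' : Temp, Fit T s → Fit T' s → |Ex1 T.V g - Ex1 T'.V g| ≤ ε) →
    ∀ T : Temp, Fit T s → |Ex1 T.V g - ∫ m, g m ∂P| ≤ ε

theorem exists_app (hb : RowBOX) : ∃ P, IsProbabilityMeasure P ∧ App P := by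
  obtain ⟨T0, hT0⟩ := hb
  let μ : ℕ → ProbabilityMeasure (Pt → Pt) := fun n => ⟨unif (T0 n).V, unif_prob _⟩
  have hc := isCompact_setOfPred_probabilityMeasure_mass_eq_compl_isCompact_le
    (E := Pt → Pt) (u := fun _ => 0) (K := fun _ => KK) tendsto_const_nhds (fun _ => KK_compact)
    (Or.inr monotone_const)
  let U : Ultrafilter ℕ := Ultrafilter.of atTop
  have hU : (U : Filter ℕ) ≤ atTop := Ultrafilter.of_le _
  obtain ⟨P, -, hP⟩ := hc.ultrafilter_le_nhds' (U.map μ) (by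
    refine Ultrafilter.mem_map.2 (Filter.univ_mem' fun n k => ?_)
    have h1 : (μ n : Measure (Pt → Pt)) KKᶜ = 0 := unif_KK _
    exact le_of_eq ((ProbabilityMeasure.null_iff_toMeasure_null _ _).2 h1))
  have hP' : Tendsto μ U (𝓝 P) := hP
  refine ⟨P, inferInstance, fun W g hg h01 ε s hs T hT => ?_⟩
  let f : (Pt → Pt) →ᵇ ℝ := BoundedContinuousFunction.mkOfBound ⟨g, dep_cont hg⟩ 1 fun x y => by
    have h1 := h01 x
    have h2 := h01 y
    rw [Real.dist_eq, abs_le]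
    constructor <;> simp only [ContinuousMap.coe_mk] <;> linarith
  have h1 := ProbabilityMeasure.tendsto_iff_forall_integral_tendsto.1 hP' f
  have h2 : Tendsto (fun n => Ex1 (T0 n).V g) U (𝓝 (∫ m, g m ∂(P : Measure (Pt → Pt)))) := by
    refine Tendsto.congr (fun n => ?_) h1
    exact integral_unif _ g
  refine le_of_tendsto ((tendsto_const_nhds.sub h2).abs) ?_
  exact ((fit_ev hT0 s).filter_mono hU).mono fun n hn => hs T _ hT hn

theorem isHLaw_of (h : RowLOC) {P : Measure (Pt → Pt)} [hP : IsProbabilityMeasure P]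
    (ha : App P) : IsHLaw P := by
  refine ⟨hP, fun T hT W κ => ?_⟩
  rw [← integral_indicator_one (isOpen_cyl W κ).measurableSet, Metric.tendsto_nhds]
  intro ε hε
  obtain ⟨s, hs⟩ := cauchy h (dep_ind (dep_cyl W κ)) (ind01 _) (half_pos hε)
  refine (fit_ev hT s).mono fun n hn => ?_
  rw [Real.dist_eq]
  exact (ha W _ (dep_ind (dep_cyl W κ)) (ind01 _) _ s hs _ hn).trans_lt (half_lt_self hε)

theorem uniq (hb : RowBOX) {P Q : Measure (Pt → Pt)} (hP : IsHLaw P) (hQ : IsHLaw Q) : Q = P := by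
  classical
  obtain ⟨T, hT⟩ := hb
  have := hP.1
  have := hQ.1
  refine ext_of_generate_finite {A | ∃ W κ, A = cyl W κ} ?_ ?_ ?_ (by simp)
  · apply le_antisymm
    · refine iSup_le fun v => ?_
      rw [← measurable_iff_comap_le]
      refine @measurable_to_countable' _ _ _ _ (_) _ fun x => ?_
      refine MeasurableSpace.measurableSet_generateFrom ⟨{v}, fun _ => x, ?_⟩
      ext m
      simp [cyl]
    · refine MeasurableSpace.generateFrom_le ?_
      rintro A ⟨W, κ, rfl⟩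
      exact (isOpen_cyl W κ).measurableSet
  · rintro A ⟨W, κ, rfl⟩ B ⟨W', κ', rfl⟩ ⟨m, h1, h2⟩
    refine ⟨W ∪ W', m, ?_⟩
    ext m'
    simp only [cyl, Set.mem_inter_iff, Set.mem_ofPred_eq, Finset.mem_union]
    constructor
    · rintro ⟨h3, h4⟩ v (hv | hv)
      · rw [h3 v hv, h1 v hv]
      · rw [h4 v hv, h2 v hv]
    · intro h3
      exact ⟨fun v hv => (h3 v (Or.inl hv)).trans (h1 v hv),
        fun v hv => (h3 v (Or.inr hv)).trans (h2 v hv)⟩
  · rintro A ⟨W, κ, rfl⟩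
    have h1 := tendsto_nhds_unique (hQ.2 T hT W κ) (hP.2 T hT W κ)
    exact (ENNReal.toReal_eq_toReal_iff' (measure_ne_top _ _) (measure_ne_top _ _)).1 h1

theorem ae_hpm (hb : RowBOX) {P : Measure (Pt → Pt)} [IsProbabilityMeasure P] (ha : App P) :
    ∀ᵐ m ∂P, IsHPM m := by
  obtain ⟨T0, hT0⟩ := hb
  have key : ∀ v : Pt, ∀ᵐ m ∂P,
      (v.2 < 0 → m v = v) ∧ (0 ≤ v.2 → m v ∈ nbrs v ∧ m (m v) = v) := by
    intro v
    set A : Set (Pt → Pt) :=
      {m | ¬ ((v.2 < 0 → m v = v) ∧ (0 ≤ v.2 → m v ∈ nbrs v ∧ m (m v) = v))} with hA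
    have hd : Dep (insert v (nbrs v)) fun m => m ∈ A := by
      have aux : ∀ m m' : Pt → Pt, (∀ u ∈ insert v (nbrs v), m u = m' u) → m ∈ A → m' ∈ A := by
        intro m m' hm h1 h2
        apply h1
        have e := hm v (Finset.mem_insert_self _ _)
        refine ⟨fun h0 => e.trans (h2.1 h0), fun h0 => ?_⟩
        obtain ⟨h3, h4⟩ := h2.2 h0
        rw [e]
        exact ⟨h3, (hm _ (Finset.mem_insert_of_mem h3)).trans h4⟩
      intro m m' hm
      exact propext ⟨aux m m' hm, aux m' m fun u hu => (hm u hu).symm⟩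
    obtain ⟨s, -, hs⟩ := exists_win {v}
    have h0 : ∀ T : Temp, Fit T s → Ex1 T.V (A.indicator 1) = 0 := by
      intro T hT
      unfold Ex1
      rw [Finset.sum_eq_zero, mul_zero]
      intro m hm
      have h := mem_PM.1 hm
      refine Set.indicator_of_notMem (fun h1 : m ∈ A => h1 ⟨fun h2 => ?_, fun h2 => ?_⟩) _
      · exact h.off v fun h' => absurd (hT.1 v h') (not_le.2 h2)
      · exact ⟨mem_nbrs.2 (h.adj v (hT.2 (hs v (Finset.mem_singleton_self _) h2))), h.invol v⟩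
    obtain ⟨n, hn⟩ := (fit_ev hT0 s).exists
    have h1 := ha _ _ (dep_ind hd) (ind01 A) 0 s (fun T T' h1 h2 => by
      rw [h0 T h1, h0 T' h2]; simp) _ hn
    rw [h0 _ hn, integral_indicator_one (dep_meas hd), zero_sub, abs_neg, abs_nonpos_iff,
      measureReal_eq_zero_iff] at h1
    exact h1
  refine (ae_all_iff.2 key).mono fun m hm => ⟨fun v => ?_, fun v => (hm v).1, fun v hv => ?_⟩
  · rcases lt_or_ge v.2 0 with hv | hv
    · rw [(hm v).1 hv, (hm v).1 hv]
    · exact ((hm v).2 hv).2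
  · exact mem_nbrs.1 ((hm v).2 hv).1

theorem ex_eq (V : Finset Pt) (G : Conf → ℝ) :
    Ex V G = Ex1 V fun m => Ex1 V fun m' => G (m, m') := by
  unfold Ex Ex1 DD Z
  rw [Finset.card_product, Finset.sum_product, ← Finset.mul_sum, smul_eq_mul]
  push_cast
  rw [mul_inv, mul_assoc]

theorem ex1_close (T : Temp) {a b : (Pt → Pt) → ℝ} {ε : ℝ} (h : ∀ m, |a m - b m| ≤ ε) :
    |Ex1 T.V a - Ex1 T.V b| ≤ ε := by
  have h0 : (0 : ℝ) < Z T.V := by exact_mod_cast Temp.Z_V_pos T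
  unfold Ex1
  rw [← mul_sub, ← Finset.sum_sub_distrib, abs_mul, abs_of_pos (inv_pos.2 h0),
    inv_mul_le_iff₀ h0]
  refine (Finset.abs_sum_le_sum_abs _ _).trans ?_
  refine (Finset.sum_le_card_nsmul _ _ _ fun m _ => h m).trans (le_of_eq ?_)
  rw [nsmul_eq_mul]
  rfl

theorem near_of (h : RowLOC) {P : Measure (Pt → Pt)} [IsProbabilityMeasure P] (ha : App P) :
    Near P := by
  intro ε hε
  obtain ⟨K, hK⟩ := h (ε / 2) (half_pos hε)
  refine ⟨K, fun r hr T hT G hG h01 => ?_⟩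
  have one : ∀ g : (Pt → Pt) → ℝ, Dep (Win r) g → (∀ m, 0 ≤ g m ∧ g m ≤ 1) →
      |Ex1 T.V g - ∫ m, g m ∂P| ≤ ε / 2 := fun g hg hg01 =>
    ha _ g hg hg01 _ (K * r) (fun T1 T2 h1 h2 => hK r hr T1 T2 h1 h2 g hg hg01) T hT
  have : OpensMeasurableSpace Conf := Prod.opensMeasurableSpace
  have hint : Integrable G (P.prod P) :=
    Integrable.of_bound (dep2_cont hG).aestronglyMeasurable 1 (ae_of_all _ fun ω => by
      rw [Real.norm_eq_abs, abs_of_nonneg (h01 ω).1]
      exact (h01 ω).2)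
  rw [ex_eq, integral_prod G hint]
  have h1 : ∀ m, |(Ex1 T.V fun m' => G (m, m')) - ∫ m', G (m, m') ∂P| ≤ ε / 2 := fun m =>
    one _ (fun m1 m2 hm => hG _ _ fun v hv => ⟨rfl, hm v hv⟩) fun m' => h01 _
  have h2 := ex1_close T h1
  have h3 := one (fun m => ∫ m', G (m, m') ∂P) (fun m1 m2 hm => by
    have e : ∀ m', G (m1, m') = G (m2, m') := fun m' => hG _ _ fun v hv => ⟨hm v hv, rfl⟩
    simp only [e]) fun m => by
      refine ⟨integral_nonneg fun m' => (h01 _).1, ?_⟩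
      have h4 := norm_integral_le_of_norm_le_const (μ := P) (f := fun m' => G (m, m')) (C := 1)
        (ae_of_all _ fun m' => by
          rw [Real.norm_eq_abs, abs_of_nonneg (h01 _).1]
          exact (h01 _).2)
      rw [probReal_univ, mul_one, Real.norm_eq_abs] at h4
      exact (le_abs_self _).trans h4
  exact (abs_sub_le _ _ _).trans ((add_le_add h2 h3).trans (add_halves ε).le)

end LIM

/-- **the limit law** -/
theorem rowLIM (h : RowLOC) (hb : RowBOX) : RowLIM := by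
  obtain ⟨P, hP, ha⟩ := LIM.exists_app hb
  exact ⟨P, LIM.isHLaw_of h ha, fun Q hQ => LIM.uniq hb (LIM.isHLaw_of h ha) hQ,
    LIM.ae_hpm hb ha, LIM.near_of h ha⟩

end Vale.Agent.Q155
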