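import Vale.Agent.Q155.Rows

/-!
# P155 in the upper half-plane: scale-uniform locality from the discrete rows
-/

namespace Vale.Agent.Q155

open Finset Vale.Agent.P155

namespace LOC

/-- the lower half-plane -/
def Lo : Set Pt := {y | y.2 < 0}

open Classical in
/-- the explored set: the part in `B` of the branches from `W` -/
noncomputable def ex (B W : Finset Pt) (φ : Pt → Pt) : Finset Pt :=
  B.filter (fun x => ∃ f ∈ W, ∃ k, φ^[k] f = x)

open Classical in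
/-- the good forests of `B` -/
noncomputable def good (B W : Finset Pt) : Finset (Pt → Pt) :=
  (For B).filter (fun φ => ∀ f ∈ W, Hit φ f Lo)

theorem mem_ex {B W : Finset Pt} {φ : Pt → Pt} {x : Pt} :
    x ∈ ex B W φ ↔ x ∈ B ∧ ∃ f ∈ W, ∃ k, φ^[k] f = x := by
  classical
  unfold ex
  rw [mem_filter]

theorem mem_good {B W : Finset Pt} {φ : Pt → Pt} :
    φ ∈ good B W ↔ IsFor B φ ∧ ∀ f ∈ W, Hit φ f Lo := by
  classical
  unfold good
  rw [mem_filter, mem_For]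

theorem ex_sub {B W : Finset Pt} {φ : Pt → Pt} : ex B W φ ⊆ B := fun _ h => (mem_ex.1 h).1

theorem sub_ex {B W : Finset Pt} (h : W ⊆ B) {φ : Pt → Pt} : W ⊆ ex B W φ :=
  fun f hf => mem_ex.2 ⟨h hf, f, hf, 0, rfl⟩

theorem iter_fix {φ : Pt → Pt} {y : Pt} (h : φ y = y) (n : ℕ) : φ^[n] y = y :=
  Function.iterate_fixed h n

section

variable {B W : Finset Pt} (hB : ∀ y ∈ B, 0 ≤ y.2) {φ : Pt → Pt} (hφ : φ ∈ good B W)
include hB hφ

theorem ex_hit {x : Pt} (hx : x ∈ ex B W φ) : Hit φ x Lo := by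
  obtain ⟨h1, h2⟩ := mem_good.1 hφ
  obtain ⟨-, f, hf, k, rfl⟩ := mem_ex.1 hx
  obtain ⟨n, hn⟩ := h2 f hf
  refine ⟨n, ?_⟩
  have hfix : φ (φ^[n] f) = φ^[n] f := h1.off _ fun hb => absurd (hB _ hb) (not_le.2 hn)
  rw [← Function.iterate_add_apply, add_comm, Function.iterate_add_apply, iter_fix hfix]
  exact hn

theorem ex_step {x : Pt} (hx : x ∈ ex B W φ) : φ x ∈ ex B W φ ∨ (φ x).2 < 0 := by
  obtain ⟨h1, -⟩ := mem_good.1 hφ
  by_cases hb : φ x ∈ B
  · left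
    obtain ⟨-, f, hf, k, rfl⟩ := mem_ex.1 hx
    exact mem_ex.2 ⟨hb, f, hf, k + 1, Function.iterate_succ_apply' φ k f⟩
  · right
    obtain ⟨n, hn⟩ := ex_hit hB hφ hx
    cases n with
    | zero => exact absurd (hB _ (ex_sub hx)) (not_le.2 hn)
    | succ n =>
      rw [Function.iterate_succ_apply, iter_fix (h1.off _ hb)] at hn
      exact hn

theorem ex_esc {x : Pt} (hx : x ∈ ex B W φ) : ∃ n, φ^[n] x ∉ ex B W φ := by
  obtain ⟨n, hn⟩ := ex_hit hB hφ hx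
  exact ⟨n, fun h => absurd (hB _ (ex_sub h)) (not_le.2 hn)⟩

end

/-- two forests which agree with a common map on their explored sets explore the same set -/
theorem ex_sub_ex {B W : Finset Pt} {φ φ0 φ1 : Pt → Pt} (h0 : IsFor B φ0)
    (e0 : ∀ x ∈ ex B W φ0, φ x = φ0 x) (e1 : ∀ x ∈ ex B W φ1, φ x = φ1 x) :
    ex B W φ0 ⊆ ex B W φ1 := by
  have key : ∀ f ∈ W, ∀ k, φ0^[k] f ∈ B → φ1^[k] f = φ0^[k] f := by
    intro f hf k
    induction k with
    | zero => intro _; rfl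
    | succ k ih =>
      intro hk
      rw [Function.iterate_succ_apply'] at hk
      have hb : φ0^[k] f ∈ B := by
        by_contra hb
        rw [h0.off _ hb] at hk
        exact hb hk
      rw [Function.iterate_succ_apply', Function.iterate_succ_apply', ih hb,
        ← e0 _ (mem_ex.2 ⟨hb, f, hf, k, rfl⟩), e1 _ (mem_ex.2 ⟨hb, f, hf, k, ih hb⟩)]
  intro x hx
  obtain ⟨hb, f, hf, k, rfl⟩ := mem_ex.1 hx
  exact mem_ex.2 ⟨hb, f, hf, k, key f hf k hb⟩

/-- the number of forests with a prescribed explored part -/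
theorem ncard_class (h1 : RowW1) {B W S : Finset Pt} (hB : ∀ y ∈ B, 0 ≤ y.2) (hBS : B ⊆ S)
    (hS : ∀ y ∈ S, 0 ≤ y.2) {φ0 : Pt → Pt} (h0 : φ0 ∈ good B W) :
    Set.ncard {φ | IsFor S φ ∧ ∀ f ∈ ex B W φ0, φ f = φ0 f} = tau (S \ ex B W φ0) := by
  have hb := h1 S (ex B W φ0) φ0 (ex_sub.trans hBS)
    (fun f hf => (mem_good.1 h0).1.adj f (ex_sub hf))
    (fun f hf => (ex_step hB h0 hf).imp id fun h hs => absurd (hS _ hs) (not_le.2 h))
    (fun f hf => ex_esc hB h0 hf)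
  rw [← Set.InjOn.ncard_image hb.injOn, hb.image_eq, tau, ← Set.ncard_coe_finset]
  congr 1
  ext ψ
  simp [mem_For]

open Classical in
/-- the weights add up to at most one -/
theorem weight_le (h0 : RowPos) (h1 : RowW1) {B W : Finset Pt} (hB : ∀ y ∈ B, 0 ≤ y.2)
    (φ : Pt → Pt) :
    ∑ φ0 ∈ (good B W).filter (fun φ0 => ∀ x ∈ ex B W φ0, φ x = φ0 x),
      ((tau (B \ ex B W φ0) : ℝ))⁻¹ ≤ 1 := by
  set G := (good B W).filter (fun φ0 => ∀ x ∈ ex B W φ0, φ x = φ0 x) with hG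
  rcases G.eq_empty_or_nonempty with he | ⟨φ1, hφ1⟩
  · rw [he]; simp
  obtain ⟨g1, e1⟩ := mem_filter.1 hφ1
  have hex : ∀ φ0 ∈ G, ex B W φ0 = ex B W φ1 := by
    intro φ0 hφ0
    obtain ⟨g0, e0⟩ := mem_filter.1 hφ0
    exact Subset.antisymm (ex_sub_ex (mem_good.1 g0).1 e0 e1) (ex_sub_ex (mem_good.1 g1).1 e1 e0)
  rw [sum_congr rfl (fun φ0 h => by rw [hex φ0 h]), sum_const, nsmul_eq_mul]
  have hpos : (0 : ℝ) < tau (B \ ex B W φ1) := by exact_mod_cast h0 _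
  rw [← div_eq_mul_inv, div_le_one hpos, ← ncard_class h1 hB Subset.rfl hB g1,
    ← Set.ncard_coe_finset]
  have : (G : Set (Pt → Pt)) ⊆ {ψ | IsFor B ψ ∧ ∀ f ∈ ex B W φ1, ψ f = φ1 f} := by
    intro φ0 hφ0
    obtain ⟨g0, e0⟩ := mem_filter.1 hφ0
    refine ⟨(mem_good.1 g0).1, fun f hf => ?_⟩
    rw [← e1 f hf, e0 f (by rw [hex φ0 hφ0]; exact hf)]
  exact_mod_cast Set.ncard_le_ncard this ((finite_isFor B).subset fun _ h => h.1)

/-- the cells of `T` as a finite set -/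
noncomputable def cells (T : Temp) : Finset Pt := (Temp.cells_finite (T := T)).toFinset

theorem mem_cells {T : Temp} {f : Pt} : f ∈ cells T ↔ f ∈ T.cells := by simp [cells]

theorem ctr_mem {T : Temp} {f : Pt} : ctr f ∈ T.V ↔ f ∈ cells T := by
  rw [mem_cells, Temp.mem_V, Temp.mem_cells]
  unfold ctr
  rw [Temp.mem_B1]
  refine ⟨fun h => h.1, fun h => ⟨h, fun he => ?_⟩⟩
  have := congrArg Prod.fst he
  simp only [Temp.v0] at this
  omega

theorem cells_nonneg {T : Temp} {s : ℕ} (h : Fit T s) : ∀ y ∈ cells T, 0 ≤ y.2 := by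
  intro y hy
  have := h.1 _ (ctr_mem.2 hy)
  simp only [ctr] at this
  omega

theorem win_sub_cells {T : Temp} {R : ℕ} (h : Fit T (2 * R + 2)) : Win R ⊆ cells T := by
  intro f hf
  refine ctr_mem.1 (h.2 ?_)
  rw [mem_Win] at hf ⊢
  simp only [ctr]
  push_cast
  omega

theorem win_nonneg {R : ℕ} : ∀ y ∈ Win R, 0 ≤ y.2 := fun _ h => (mem_Win.1 h).2.2.1

theorem Z_eq (hTB : RowTB) (T : Temp) : Z T.V = tau (cells T) := by
  have hb := hTB T (cells T) (fun _ => mem_cells)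
  have e1 : (PM T.V : Set (Pt → Pt)) = {m | IsPM T.V m} := by ext; simp [mem_PM]
  have e2 : (For (cells T) : Set (Pt → Pt)) = {φ | IsFor (cells T) φ} := by ext; simp [mem_For]
  rw [Z, tau, ← Set.ncard_coe_finset, ← Set.ncard_coe_finset, e1, e2,
    ← Set.InjOn.ncard_image hb.injOn, hb.image_eq]

open Classical in
theorem card_class (hTB : RowTB) (h1 : RowW1) {T : Temp} {R : ℕ} (hT : Fit T (2 * R + 2))
    {W : Finset Pt} {φ0 : Pt → Pt} (h0 : φ0 ∈ good (Win R) W) :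
    ((PM T.V).filter (fun m => ∀ x ∈ ex (Win R) W φ0, par m x = φ0 x)).card =
      tau (cells T \ ex (Win R) W φ0) := by
  have hb := hTB T (cells T) (fun _ => mem_cells)
  rw [← ncard_class h1 win_nonneg (win_sub_cells hT) (cells_nonneg hT) h0, ← Set.ncard_coe_finset,
    ← Set.InjOn.ncard_image (f := par)
      (hb.injOn.mono fun m hm => mem_PM.1 (mem_filter.1 hm).1)]
  congr 1
  ext φ
  constructor
  · rintro ⟨m, hm, rfl⟩
    obtain ⟨k1, k2⟩ := mem_filter.1 hm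
    exact ⟨hb.mapsTo (mem_PM.1 k1), k2⟩
  · rintro ⟨k1, k2⟩
    obtain ⟨m, hm, rfl⟩ := hb.surjOn k1
    exact ⟨m, mem_filter.2 ⟨mem_PM.2 hm, k2⟩, rfl⟩

/-- the lower bound -/
theorem lower (hTB : RowTB) (h0 : RowPos) (h1 : RowW1) (hM : RowMono) {T : Temp} {R : ℕ}
    (hT : Fit T (2 * R + 2)) {W : Finset Pt} {G val : (Pt → Pt) → ℝ} (hG : ∀ m, 0 ≤ G m)
    (hv : ∀ φ, 0 ≤ val φ)
    (hval : ∀ φ0 ∈ good (Win R) W, ∀ m ∈ PM T.V, (∀ x ∈ ex (Win R) W φ0, par m x = φ0 x) →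
      G m = val φ0) :
    (tau (Win R) : ℝ)⁻¹ * ∑ φ0 ∈ good (Win R) W, val φ0 ≤ Ex1 T.V G := by
  classical
  set B := Win R with hB
  have hS : (0 : ℝ) < tau (cells T) := by exact_mod_cast h0 _
  have hBp : (0 : ℝ) < tau B := by exact_mod_cast h0 _
  have s1 : ∑ m ∈ PM T.V, ∑ φ0 ∈ good B W,
      (if ∀ x ∈ ex B W φ0, par m x = φ0 x then val φ0 * ((tau (B \ ex B W φ0) : ℝ))⁻¹ else 0) ≤
      ∑ m ∈ PM T.V, G m := by
    refine sum_le_sum fun m hm => ?_
    rw [← sum_filter]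
    have := weight_le h0 h1 (B := B) (W := W) win_nonneg (par m)
    calc _ = ∑ φ0 ∈ (good B W).filter (fun φ0 => ∀ x ∈ ex B W φ0, par m x = φ0 x),
          G m * ((tau (B \ ex B W φ0) : ℝ))⁻¹ := by
          refine sum_congr rfl fun φ0 h => ?_
          obtain ⟨k1, k2⟩ := mem_filter.1 h
          rw [hval φ0 k1 m hm k2]
      _ ≤ G m * 1 := by
          rw [← mul_sum]
          exact mul_le_mul_of_nonneg_left this (hG m)
      _ = G m := mul_one _
  rw [sum_comm] at s1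
  have s2 : ∀ φ0 ∈ good B W, (tau (cells T) : ℝ) * ((tau B : ℝ)⁻¹ * val φ0) ≤ ∑ m ∈ PM T.V,
      (if ∀ x ∈ ex B W φ0, par m x = φ0 x then val φ0 * ((tau (B \ ex B W φ0) : ℝ))⁻¹ else 0) := by
    intro φ0 g0
    rw [← sum_filter, sum_const, nsmul_eq_mul, card_class hTB h1 hT g0]
    have hm : (tau (cells T) : ℝ) * tau (B \ ex B W φ0) ≤ tau (cells T \ ex B W φ0) * tau B := by
      exact_mod_cast hM (ex B W φ0) B (cells T) ex_sub (win_sub_cells hT)
    have hE : (0 : ℝ) < tau (B \ ex B W φ0) := by exact_mod_cast h0 _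
    have hq : (tau (cells T) : ℝ) * (tau B : ℝ)⁻¹ ≤
        tau (cells T \ ex B W φ0) * ((tau (B \ ex B W φ0) : ℝ))⁻¹ := by
      rw [← div_eq_mul_inv, ← div_eq_mul_inv, div_le_div_iff₀ hBp hE]
      exact hm
    have := mul_le_mul_of_nonneg_right hq (hv φ0)
    linarith
  have s3 := (sum_le_sum s2).trans s1
  rw [← mul_sum, ← mul_sum] at s3
  unfold Ex1
  rw [Z_eq hTB, ← div_eq_inv_mul (∑ m ∈ PM T.V, G m), le_div_iff₀ hS]
  linarith

theorem Ex1_one_sub (hTB : RowTB) (h0 : RowPos) (T : Temp) (g : (Pt → Pt) → ℝ) :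
    Ex1 T.V (fun m => 1 - g m) = 1 - Ex1 T.V g := by
  have hS : (0 : ℝ) < Z T.V := by
    rw [Z_eq hTB]
    exact_mod_cast h0 _
  unfold Ex1
  rw [sum_sub_distrib, sum_const, nsmul_eq_mul, mul_one, mul_sub]
  congr 1
  exact inv_mul_cancel₀ hS.ne'

theorem card_le {B W : Finset Pt} {N : Finset (Pt → Pt)} {c : ℝ} (h : (N.card : ℝ) ≤ c)
    (hN : ∀ φ ∈ For B, (∃ f ∈ W, ¬ Hit φ f {y | y.2 < 0}) → φ ∈ N) :
    (tau B : ℝ) ≤ (good B W).card + c := by
  classical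
  have h1 : For B ⊆ good B W ∪ N := by
    intro φ hφ
    rw [mem_union]
    by_cases hg : ∀ f ∈ W, Hit φ f Lo
    · exact Or.inl (mem_good.2 ⟨mem_For.1 hφ, hg⟩)
    · push Not at hg
      exact Or.inr (hN φ hφ hg)
  have h2 : (tau B : ℝ) ≤ (good B W).card + N.card := by
    exact_mod_cast (card_le_card h1).trans (card_union_le _ _)
  linarith

end LOC

open LOC in
/-- **Scale-uniform locality.** -/
theorem rowLOC (hTB : RowTB) (hD : RowDET) (h0 : RowPos) (h1 : RowW1) (hM : RowMono)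
    (hN : RowNET) : RowLOC := by
  classical
  intro ε hε
  obtain ⟨K0, hK0⟩ := hN ε hε
  refine ⟨6 * (K0 + 1) + 2, fun r hr T T' hT hT' g hg h01 => ?_⟩
  set R := (K0 + 1) * (r + 2) with hR
  have hle : 2 * R + 2 ≤ (6 * (K0 + 1) + 2) * r := by
    rw [hR]; nlinarith
  have fT : Fit T (2 * R + 2) := ⟨hT.1, (Win_mono hle).trans hT.2⟩
  have fT' : Fit T' (2 * R + 2) := ⟨hT'.1, (Win_mono hle).trans hT'.2⟩
  have hWB : Win (r + 2) ⊆ Win R := Win_mono (by rw [hR]; nlinarith)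
  have hex : ∀ φ0 : Pt → Pt, ∃ m : Pt → Pt, φ0 ∈ good (Win R) (Win (r + 2)) →
      m ∈ PM T.V ∧ ∀ x ∈ ex (Win R) (Win (r + 2)) φ0, par m x = φ0 x := by
    intro φ0
    by_cases g0 : φ0 ∈ good (Win R) (Win (r + 2))
    · have hc := card_class hTB h1 fT g0
      have hp := h0 (cells T \ ex (Win R) (Win (r + 2)) φ0)
      rw [← hc] at hp
      obtain ⟨m, hm⟩ := card_pos.1 hp
      exact ⟨m, fun _ => mem_filter.1 hm⟩
    · exact ⟨id, fun h => absurd h g0⟩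
  choose m0 hm0 using hex
  have hdet : ∀ U : Temp, Fit U (2 * R + 2) → ∀ φ0 ∈ good (Win R) (Win (r + 2)), ∀ m ∈ PM U.V,
      (∀ x ∈ ex (Win R) (Win (r + 2)) φ0, par m x = φ0 x) → g m = g (m0 φ0) := by
    intro U fU φ0 g0 m hm he
    obtain ⟨k1, k2⟩ := hm0 φ0 g0
    refine hg _ _ (hD U T R r fU fT m hm (m0 φ0) k1 (ex (Win R) (Win (r + 2)) φ0) ex_sub
      (sub_ex hWB) (fun f hf => by rw [he f hf, k2 f hf]) (fun f hf => ?_) (fun f hf => ?_))
    · rw [he f hf]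
      exact ex_step win_nonneg g0 hf
    · obtain ⟨n, hn⟩ := ex_hit win_nonneg g0 hf
      induction n generalizing f with
      | zero => exact ⟨0, hn⟩
      | succ n ih =>
        rcases ex_step win_nonneg g0 hf with h | h
        · obtain ⟨k, hk⟩ := ih (φ0 f) h hn
          exact ⟨k + 1, by rw [Function.iterate_succ_apply, he f hf]; exact hk⟩
        · exact ⟨1, by rw [Function.iterate_one, he f hf]; exact h⟩
  have hBp : (0 : ℝ) < tau (Win R) := by exact_mod_cast h0 _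
  have hcard : (1 - ε) * tau (Win R) ≤ (good (Win R) (Win (r + 2))).card := by
    have k1 := hK0 (r + 2) R (by omega) (by rw [hR]; nlinarith)
    have k2 := card_le (N := _) (B := Win R) (W := Win (r + 2)) k1 (fun φ hφ h =>
      mem_filter.2 ⟨hφ, h⟩)
    linarith
  have both : ∀ U : Temp, Fit U (2 * R + 2) →
      (tau (Win R) : ℝ)⁻¹ * ∑ φ0 ∈ good (Win R) (Win (r + 2)), g (m0 φ0) ≤ Ex1 U.V g ∧
      Ex1 U.V g ≤ (tau (Win R) : ℝ)⁻¹ * ∑ φ0 ∈ good (Win R) (Win (r + 2)), g (m0 φ0) + ε := by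
    intro U fU
    refine ⟨lower hTB h0 h1 hM fU (fun m => (h01 m).1) (fun φ => (h01 _).1) (hdet U fU), ?_⟩
    have k := lower hTB h0 h1 hM fU (W := Win (r + 2)) (G := fun m => 1 - g m)
      (val := fun φ => 1 - g (m0 φ)) (fun m => sub_nonneg.2 (h01 m).2)
      (fun φ => sub_nonneg.2 (h01 _).2) (fun φ0 g0 m hm he => by rw [hdet U fU φ0 g0 m hm he])
    rw [Ex1_one_sub hTB h0, sum_sub_distrib, sum_const, nsmul_eq_mul, mul_one, mul_sub] at k
    have k2 : 1 - ε ≤ (tau (Win R) : ℝ)⁻¹ * (good (Win R) (Win (r + 2))).card := by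
      rw [← div_eq_inv_mul, le_div_iff₀ hBp]
      exact hcard
    linarith
  obtain ⟨a1, a2⟩ := both T fT
  obtain ⟨b1, b2⟩ := both T' fT'
  rw [abs_le]
  constructor <;> linarith

end Vale.Agent.Q155
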