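import Vale.Agent.Q155.Rows
import Vale.Agent.P155.G1.Decay

/-!
# P155 in the upper half-plane: the net argument (row NET)
-/

namespace Vale.Agent.Q155

open Vale.Agent.P155 Vale.Agent.P155.G45

namespace NET

/-- the lower half-plane -/
def Lo : Set Pt := {y | y.2 < 0}

/-- the exits which are not in the lower half-plane -/
def Up (S : Finset Pt) : Set Pt := {y | y ∉ S ∧ 0 ≤ y.2}

/-- an explored set all of whose branches end in the lower half-plane -/
structure Expl (S E : Finset Pt) (φ : Pt → Pt) : Prop where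
  sub : E ⊆ S
  adj : ∀ f ∈ E, Adj f (φ f)
  cl : ∀ f ∈ E, φ f ∈ E ∨ φ f ∈ Lo
  hit : ∀ f ∈ E, Hit φ f Lo

/-- the normalised number of forests in which the branch of `v` ends in `Up S` -/
noncomputable def pot (S E : Finset Pt) (v : Pt) : ℝ := (nh (S \ E) (Up S) v : ℝ) / tau (S \ E)

theorem iter_fix {φ : Pt → Pt} {v : Pt} (h : φ v = v) (n : ℕ) : φ^[n] v = v :=
  Function.iterate_fixed h n

theorem pot_nonneg (S E : Finset Pt) (v : Pt) : 0 ≤ pot S E v := by
  unfold pot; positivity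

theorem pot_le_one (h0 : RowPos) (S E : Finset Pt) (v : Pt) : pot S E v ≤ 1 := by
  classical
  unfold pot
  have hp : (0 : ℝ) < tau (S \ E) := by exact_mod_cast h0 _
  rw [div_le_one hp]
  have : nh (S \ E) (Up S) v ≤ tau (S \ E) := by
    unfold nh tau
    exact Finset.card_filter_le _ _
  exact_mod_cast this

theorem abs_pot (S E : Finset Pt) (v : Pt) : |pot S E v| = pot S E v :=
  abs_of_nonneg (pot_nonneg S E v)

theorem pot_zero {S E : Finset Pt} (hS : ∀ v ∈ S, 0 ≤ v.2) (hE : E ⊆ S) {v : Pt}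
    (hv : v ∈ E ∨ v ∈ Lo) : pot S E v = 0 := by
  classical
  have h1 : v ∉ S \ E := by
    rw [Finset.mem_sdiff]
    rintro ⟨h1, h2⟩
    rcases hv with h | h
    · exact h2 h
    · exact absurd (hS v h1) (not_le.2 h)
  have h2 : v ∉ Up S := by
    rintro ⟨h1, h2⟩
    rcases hv with h | h
    · exact h1 (hE h)
    · exact absurd h2 (not_le.2 h)
  have : nh (S \ E) (Up S) v = 0 := by
    unfold nh
    rw [Finset.card_eq_zero, Finset.filter_eq_empty_iff]
    rintro φ hφ ⟨n, hn⟩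
    rw [iter_fix ((mem_For.1 hφ).off v h1)] at hn
    exact h2 hn
  unfold pot
  rw [this]
  simp

theorem pot_lap (h2 : RowW2) {S E : Finset Pt} {x : Pt} (hx : x ∈ S \ E) :
    lap (pot S E) x = 0 := by
  have h := h2 (S \ E) (Up S) (fun y hy h => hy.1 (Finset.mem_sdiff.1 h).1) x hx
  have : pot S E = fun v => ((tau (S \ E) : ℝ))⁻¹ * (nh (S \ E) (Up S) v : ℝ) := by
    funext v
    unfold pot
    rw [div_eq_inv_mul]
  rw [this, lap_smul, h, mul_zero]

theorem dn_adj {u v : Pt} (h : Adj u v) : dn u v ≤ 1 := by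
  unfold Adj at h
  rw [dn_eq]
  rw [Int.abs_eq_natAbs, Int.abs_eq_natAbs] at h
  omega

/-- every square contour around a point meets the explored set or the lower half-plane -/
theorem contour {S E : Finset Pt} {φ : Pt → Pt} (h : Expl S E φ) (z : Pt) (r : ℕ) :
    ∀ (n : ℕ) (y : Pt), (y ∈ E ∨ y ∈ Lo) → φ^[n] y ∈ Lo → dn z y ≤ r →
      ∃ q, (q ∈ E ∨ q ∈ Lo) ∧ dn z q = r := by
  have base : ∀ y : Pt, y ∈ Lo → dn z y ≤ r → ∃ q, (q ∈ E ∨ q ∈ Lo) ∧ dn z q = r := by
    intro y hy hd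
    have hy' : y.2 < 0 := hy
    rw [dn_le_iff] at hd
    refine ⟨(y.1, z.2 - r), Or.inr ?_, ?_⟩
    · show z.2 - r < 0
      omega
    · rw [dn_eq]
      dsimp only
      omega
  intro n
  induction n with
  | zero => intro y _ hy hd; exact base y hy hd
  | succ n ih =>
    intro y hy hn hd
    rcases hy with hy | hy
    · rcases eq_or_lt_of_le hd with he | hlt
      · exact ⟨y, Or.inl hy, he⟩
      · refine ih (φ y) (h.cl y hy) (by rwa [Function.iterate_succ_apply] at hn) ?_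
        have h1 := dn_tri z y (φ y)
        have h2 := dn_adj (h.adj y hy)
        omega
    · exact base y hy hd

theorem contour' {S E : Finset Pt} {φ : Pt → Pt} (h : Expl S E φ) {z : Pt} (hz : z ∈ E ∨ z ∈ Lo)
    (r : ℕ) : ∃ q, (q ∈ E ∨ q ∈ Lo) ∧ dn z q = r := by
  have h0 : dn z z ≤ r := by rw [dn_self]; exact Nat.zero_le _
  rcases hz with hz | hz
  · obtain ⟨n, hn⟩ := h.hit z hz
    exact contour h z r n z (Or.inl hz) hn h0
  · exact contour h z r 0 z (Or.inr hz) hz h0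

theorem win_up {R : ℕ} : ∀ v ∈ Win R, (0 : ℤ) ≤ v.2 := fun _ hv => (mem_Win.1 hv).2.2.1

theorem mem_win_of {R : ℕ} {x : Pt} (h1 : dn (0, 0) x ≤ R) (h2 : x ∉ Lo) : x ∈ Win R := by
  have h3 : ¬ x.2 < 0 := h2
  rw [dn_le_iff] at h1
  rw [mem_Win]
  dsimp only at h1
  omega

/-- decay of the potential around a point of the explored set -/
theorem pot_decay (h2 : RowW2) {β : ℝ} (hd : SupDecay 2 β) {R : ℕ} {E : Finset Pt}
    {φ : Pt → Pt} (h : Expl (Win R) E φ) {z : Pt} (hz : z ∈ E ∨ z ∈ Lo) {L : ℕ} {M : ℝ}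
    (hL : ∀ y, dn z y < L → dn (0, 0) y ≤ R) (hM : ∀ y, dn z y ≤ L → pot (Win R) E y ≤ M)
    {x : Pt} (hx : dn z x ≤ L) :
    pot (Win R) E x ≤ 2 * (((dn z x : ℝ) + 1) / ((L : ℝ) + 1)) ^ β * M := by
  have := hd {y | ¬ (y ∈ E ∨ y ∈ Lo)} z L M (pot (Win R) E)
    (fun r _ => by
      obtain ⟨q, hq, hr⟩ := contour' h hz r
      exact ⟨q, fun h' => h' hq, hr⟩)
    (fun y hy => pot_zero win_up h.sub (by
      by_contra h'
      exact hy h'))
    (fun y hy hyL => pot_lap h2 (Finset.mem_sdiff.2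
      ⟨mem_win_of (hL y hyL) (fun h' => hy (Or.inr h')), fun h' => hy (Or.inl h')⟩))
    (fun y hy => by rw [abs_pot]; exact hM y hy) x hx
  rwa [abs_pot] at this

/-- the net of mesh `a` and radius `a c` -/
noncomputable def net (a c : ℕ) : Finset Pt := (Win c).image (fun w => ((a : ℤ) * w.1, (a : ℤ) * w.2))

theorem card_net (a c : ℕ) : (net a c).card ≤ (2 * c + 1) ^ 2 := by
  refine Finset.card_image_le.trans ?_
  rw [← card_box ((0, 0) : Pt) c]
  apply Finset.card_le_card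
  intro v hv
  rw [mem_Win] at hv
  rw [mem_box, dn_le_iff]
  dsimp only
  omega

theorem net_dn {a c : ℕ} {x : Pt} (hx : x ∈ net a c) : dn (0, 0) x ≤ a * c ∧ x ∉ Lo := by
  obtain ⟨w, hw, rfl⟩ := Finset.mem_image.1 hx
  rw [mem_Win] at hw
  obtain ⟨h1, h2, h3, h4⟩ := hw
  have ha : (0 : ℤ) ≤ a := Int.natCast_nonneg a
  have k1 := mul_le_mul_of_nonneg_left h1 ha
  have k2 := mul_le_mul_of_nonneg_left h2 ha
  have k3 := mul_nonneg ha h3
  have k4 := mul_le_mul_of_nonneg_left h4 ha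
  have k5 : (0 : ℤ) ≤ (a : ℤ) * c := by positivity
  refine ⟨?_, ?_⟩
  · rw [dn_le_iff]
    push_cast
    refine ⟨⟨?_, ?_⟩, ?_, ?_⟩ <;> linarith
  · show ¬ (a : ℤ) * w.2 < 0
    exact not_lt.2 k3

theorem net_near {a c t : ℕ} (ha : 1 ≤ a) (ht : t + a ≤ a * c) {x : Pt} (h1 : dn (0, 0) x ≤ t)
    (h2 : x ∉ Lo) : ∃ z ∈ net a c, dn z x ≤ a := by
  have h3 : 0 ≤ x.2 := not_lt.1 h2
  have ha' : (0 : ℤ) < a := by exact_mod_cast ha
  have ht' : (t : ℤ) + a ≤ a * c := by exact_mod_cast ht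
  rw [dn_le_iff] at h1
  dsimp only at h1
  obtain ⟨⟨k1, k2⟩, k3, k4⟩ := h1
  have e1 := Int.mul_ediv_add_emod x.1 a
  have e2 := Int.mul_ediv_add_emod x.2 a
  have f1 := Int.emod_nonneg x.1 ha'.ne'
  have f2 := Int.emod_nonneg x.2 ha'.ne'
  have g1 := Int.emod_lt_of_pos x.1 ha'
  have g2 := Int.emod_lt_of_pos x.2 ha'
  refine ⟨((a : ℤ) * (x.1 / a), (a : ℤ) * (x.2 / a)), Finset.mem_image.2 ⟨(x.1 / a, x.2 / a), ?_, rfl⟩,
    ?_⟩
  · rw [mem_Win]
    dsimp only
    refine ⟨?_, ?_, Int.ediv_nonneg h3 ha'.le, ?_⟩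
    · apply le_of_mul_le_mul_left _ ha'
      linarith
    · apply le_of_mul_le_mul_left _ ha'
      linarith
    · apply le_of_mul_le_mul_left _ ha'
      linarith
  · rw [dn_le_iff]
    dsimp only
    refine ⟨⟨?_, ?_⟩, ?_, ?_⟩ <;> linarith

/-- iterated halving of the potential inside a net -/
theorem pot_net (h0 : RowPos) (h2 : RowW2) {β : ℝ} (hβ : 0 < β) (hd : SupDecay 2 β) {K : ℕ}
    (hK3 : 3 ≤ K) (hK : 2 * ((3 : ℝ) / K) ^ β ≤ 1 / 2) {R a c : ℕ} (ha : 1 ≤ a) (hR : a * c ≤ R)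
    {E : Finset Pt} {φ : Pt → Pt} (h : Expl (Win R) E φ) (hN : net a c ⊆ E) (J : ℕ) :
    ∀ t : ℕ, t + J * ((K + 1) * a) ≤ a * c → ∀ x, dn (0, 0) x ≤ t →
      pot (Win R) E x ≤ (1 / 2) ^ J := by
  induction J with
  | zero => intro t _ x _; simpa using pot_le_one h0 _ _ x
  | succ J ih =>
    intro t ht x hx
    by_cases hlo : x ∈ Lo
    · rw [pot_zero win_up h.sub (Or.inr hlo)]
      positivity
    have e1 : (J + 1) * ((K + 1) * a) = J * ((K + 1) * a) + (K * a + a) := by ring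
    obtain ⟨z, hz, hzx⟩ := net_near (c := c) ha (by omega) hx hlo
    have hz0 : dn (0, 0) z ≤ t + a := by
      have := dn_tri (0, 0) x z
      rw [dn_comm x z] at this
      omega
    have e2 : (K + 1) * a = K * a + a := by ring
    have haK : a ≤ K * a := Nat.le_mul_of_pos_left a (by omega)
    have key := pot_decay h2 hd h (Or.inl (hN hz)) (L := K * a) (M := (1 / 2) ^ J)
      (fun y hy => by
        have := dn_tri (0, 0) z y
        omega)
      (fun y hy => ih (t + (K + 1) * a) (by omega) y (by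
        have := dn_tri (0, 0) z y
        omega)) (x := x) (hzx.trans haK)
    refine key.trans ?_
    rw [pow_succ, mul_comm ((1 / 2 : ℝ) ^ J)]
    apply mul_le_mul_of_nonneg_right _ (by positivity)
    refine le_trans ?_ hK
    apply mul_le_mul_of_nonneg_left _ (by norm_num)
    apply Real.rpow_le_rpow (by positivity) _ hβ.le
    have hKpos : (0 : ℝ) < K := by
      have : (3 : ℝ) ≤ K := by exact_mod_cast hK3
      linarith
    rw [div_le_div_iff₀ (by positivity) hKpos]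
    have hd2 : (dn z x : ℝ) ≤ a := by exact_mod_cast hzx
    have ha1 : (1 : ℝ) ≤ a := by exact_mod_cast ha
    push_cast
    nlinarith

/-! ## Conditioning on the explored set -/

theorem card_fib {α κ : Type*} (s : Finset α) (k : α → κ) (p : α → Prop) [DecidablePred p]
    [DecidableEq κ] (η : ℝ)
    (h : ∀ a ∈ s, (((s.filter p).filter (fun b => k b = k a)).card : ℝ) ≤
      η * (s.filter (fun b => k b = k a)).card) :
    ((s.filter p).card : ℝ) ≤ η * s.card := by
  rw [Finset.card_eq_sum_card_fiberwise (f := k) (s := s.filter p) (t := s.image k)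
      (fun a ha => Finset.mem_coe.2 (Finset.mem_image_of_mem k (Finset.mem_filter.1 ha).1)),
    Finset.card_eq_sum_card_fiberwise (f := k) (s := s) (t := s.image k)
      (fun a ha => Finset.mem_coe.2 (Finset.mem_image_of_mem k ha))]
  push_cast
  rw [Finset.mul_sum]
  apply Finset.sum_le_sum
  intro y hy
  obtain ⟨a, ha, rfl⟩ := Finset.mem_image.1 hy
  exact h a ha

open Classical in
/-- the points of `S` on the branches from `N` -/
noncomputable def ex (S N : Finset Pt) (φ : Pt → Pt) : Finset Pt :=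
  S.filter (fun v => ∃ f ∈ N, ∃ k, φ^[k] f = v)

theorem mem_ex {S N : Finset Pt} {φ : Pt → Pt} {v : Pt} :
    v ∈ ex S N φ ↔ v ∈ S ∧ ∃ f ∈ N, ∃ k, φ^[k] f = v := by
  classical
  unfold ex
  rw [Finset.mem_filter]

theorem sub_ex {S N : Finset Pt} (hN : N ⊆ S) (φ : Pt → Pt) : N ⊆ ex S N φ :=
  fun f hf => mem_ex.2 ⟨hN hf, f, hf, 0, rfl⟩

theorem hit_iter {S : Finset Pt} (hS : ∀ v ∈ S, 0 ≤ v.2) {φ : Pt → Pt} (hφ : IsFor S φ) {f : Pt}
    (h : Hit φ f Lo) (k : ℕ) : Hit φ (φ^[k] f) Lo := by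
  obtain ⟨n, hn⟩ := h
  refine ⟨n, ?_⟩
  have h1 : φ^[n] f ∉ S := fun h' => absurd (hS _ h') (not_le.2 hn)
  rw [← Function.iterate_add_apply, add_comm, Function.iterate_add_apply,
    iter_fix (hφ.off _ h1)]
  exact hn

theorem expl_ex {S N : Finset Pt} (hS : ∀ v ∈ S, 0 ≤ v.2) {φ : Pt → Pt} (hφ : IsFor S φ)
    (hg : ∀ f ∈ N, Hit φ f Lo) : Expl S (ex S N φ) φ where
  sub := fun v hv => (mem_ex.1 hv).1
  adj := fun v hv => hφ.adj v (mem_ex.1 hv).1
  cl := by
    intro v hv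
    obtain ⟨-, f, hf, k, rfl⟩ := mem_ex.1 hv
    rw [← Function.iterate_succ_apply' φ k f]
    by_cases h : φ^[k + 1] f ∈ S
    · exact Or.inl (mem_ex.2 ⟨h, f, hf, k + 1, rfl⟩)
    · obtain ⟨n, hn⟩ := hit_iter hS hφ (hg f hf) (k + 1)
      rw [iter_fix (hφ.off _ h)] at hn
      exact Or.inr hn
  hit := by
    intro v hv
    obtain ⟨-, f, hf, k, rfl⟩ := mem_ex.1 hv
    exact hit_iter hS hφ (hg f hf) k

/-- two forests which agree on an explored set have the same branches from it -/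
theorem iter_eq {S E : Finset Pt} (hS : ∀ v ∈ S, 0 ≤ v.2) {φ ψ : Pt → Pt} (hφ : IsFor S φ)
    (hψ : IsFor S ψ) (h : Expl S E φ) (he : ∀ f ∈ E, ψ f = φ f) {f : Pt} (hf : f ∈ E) (k : ℕ) :
    ψ^[k] f = φ^[k] f ∧ (φ^[k] f ∈ E ∨ φ^[k] f ∈ Lo) := by
  induction k with
  | zero => exact ⟨rfl, Or.inl hf⟩
  | succ k ih =>
    rw [Function.iterate_succ_apply', Function.iterate_succ_apply', ih.1]
    rcases ih.2 with h1 | h1
    · exact ⟨he _ h1, h.cl _ h1⟩
    · have h2 : φ^[k] f ∉ S := fun h' => absurd (hS _ h') (not_le.2 h1)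
      rw [hφ.off _ h2, hψ.off _ h2]
      exact ⟨rfl, Or.inr h1⟩

theorem hit_cut {S E : Finset Pt} (hS : ∀ v ∈ S, 0 ≤ v.2) {φ ψ : Pt → Pt} (hφ : IsFor S φ)
    (hψ : IsFor S ψ) (h : Expl S E φ) (he : ∀ f ∈ E, ψ f = φ f) {x : Pt} (hx : ¬ Hit ψ x Lo) :
    Hit (cut E ψ) x (Up S) := by
  classical
  have h1 : ∀ k, ψ^[k] x ∉ E := by
    intro k hk
    obtain ⟨n, hn⟩ := h.hit _ hk
    rw [← (iter_eq hS hφ hψ h he hk n).1, ← Function.iterate_add_apply] at hn
    exact hx ⟨_, hn⟩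
  have h2 : ∀ k, (cut E ψ)^[k] x = ψ^[k] x := by
    intro k
    induction k with
    | zero => rfl
    | succ k ih =>
      rw [Function.iterate_succ_apply', Function.iterate_succ_apply', ih]
      unfold cut
      rw [if_neg (h1 k)]
  obtain ⟨n, hn⟩ := hψ.esc x
  refine ⟨n, ?_⟩
  rw [h2]
  exact ⟨hn, not_lt.1 fun h' => hx ⟨n, h'⟩⟩

open Classical in
theorem cond (h0 : RowPos) (h1 : RowW1) {S N : Finset Pt} (hS : ∀ v ∈ S, 0 ≤ v.2) (hN : N ⊆ S)
    (x : Pt) {η : ℝ} (hη : 0 ≤ η)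
    (h : ∀ E φ, Expl S E φ → N ⊆ E → pot S E x ≤ η) :
    ((((For S).filter (fun φ => ∀ f ∈ N, Hit φ f Lo)).filter (fun φ => ¬ Hit φ x Lo)).card : ℝ) ≤
      η * tau S := by
  set G := (For S).filter (fun φ => ∀ f ∈ N, Hit φ f Lo) with hG
  have hGle : (G.card : ℝ) ≤ tau S := by
    have : G.card ≤ tau S := Finset.card_filter_le _ _
    exact_mod_cast this
  refine le_trans ?_ (mul_le_mul_of_nonneg_left hGle hη)
  apply card_fib G (fun φ => (ex S N φ, fun v => if v ∈ ex S N φ then φ v else v))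
  intro φ hφG
  obtain ⟨hφ, hg⟩ := Finset.mem_filter.1 hφG
  rw [mem_For] at hφ
  have hE := expl_ex hS hφ hg
  set E := ex S N φ with hEdef
  have hcl : ∀ ψ, ψ ∈ G.filter (fun b => (ex S N b, fun v => if v ∈ ex S N b then b v else v) =
      (E, fun v => if v ∈ E then φ v else v)) ↔ IsFor S ψ ∧ ∀ f ∈ E, ψ f = φ f := by
    intro ψ
    rw [Finset.mem_filter, hG, Finset.mem_filter, mem_For]
    constructor
    · rintro ⟨⟨hψ, -⟩, hk⟩
      refine ⟨hψ, fun f hf => ?_⟩
      have k1 : ex S N ψ = E := congrArg Prod.fst hk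
      have k2 := congrFun (congrArg Prod.snd hk) f
      dsimp only at k2
      rw [k1, if_pos hf, if_pos hf] at k2
      exact k2
    · rintro ⟨hψ, he⟩
      have hit : ∀ f ∈ N, ∀ k, ψ^[k] f = φ^[k] f := fun f hf k =>
        (iter_eq hS hφ hψ hE he (sub_ex hN φ hf) k).1
      have k1 : ex S N ψ = E := by
        ext v
        rw [hEdef, mem_ex, mem_ex]
        refine and_congr_right fun _ => exists_congr fun f => and_congr_right fun hf =>
          exists_congr fun k => ?_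
        rw [hit f hf k]
      refine ⟨⟨hψ, fun f hf => ?_⟩, ?_⟩
      · obtain ⟨n, hn⟩ := hg f hf
        exact ⟨n, by rw [hit f hf n]; exact hn⟩
      · rw [k1]
        congr 1
        funext v
        by_cases hv : v ∈ E
        · rw [if_pos hv, if_pos hv, he v hv]
        · rw [if_neg hv, if_neg hv]
  have hb := h1 S E φ hE.sub hE.adj
    (fun f hf => (hE.cl f hf).imp id fun h' h'' => absurd (hS _ h'') (not_le.2 h'))
    (fun f hf => by
      obtain ⟨n, hn⟩ := hE.hit f hf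
      exact ⟨n, fun h' => absurd (hS _ (hE.sub h')) (not_le.2 hn)⟩)
  have hc1 : (G.filter (fun b => (ex S N b, fun v => if v ∈ ex S N b then b v else v) =
      (E, fun v => if v ∈ E then φ v else v))).card = tau (S \ E) := by
    unfold tau
    apply Finset.card_bij (fun ψ _ => cut E ψ)
    · intro ψ hψ
      exact mem_For.2 (hb.mapsTo ((hcl ψ).1 hψ))
    · intro ψ hψ ψ' hψ' he
      exact hb.injOn ((hcl ψ).1 hψ) ((hcl ψ').1 hψ') he
    · intro χ hχ
      obtain ⟨ψ, hψ, he⟩ := hb.surjOn (mem_For.1 hχ)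
      exact ⟨ψ, (hcl ψ).2 hψ, he⟩
  have hc2 : ((G.filter (fun φ => ¬ Hit φ x Lo)).filter
      (fun b => (ex S N b, fun v => if v ∈ ex S N b then b v else v) =
      (E, fun v => if v ∈ E then φ v else v))).card ≤ nh (S \ E) (Up S) x := by
    unfold nh
    have hm : ∀ ψ ∈ (G.filter (fun φ => ¬ Hit φ x Lo)).filter
        (fun b => (ex S N b, fun v => if v ∈ ex S N b then b v else v) =
        (E, fun v => if v ∈ E then φ v else v)),
        (IsFor S ψ ∧ ∀ f ∈ E, ψ f = φ f) ∧ ¬ Hit ψ x Lo := by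
      intro ψ hψ
      obtain ⟨k1, k2⟩ := Finset.mem_filter.1 hψ
      obtain ⟨k3, k4⟩ := Finset.mem_filter.1 k1
      exact ⟨(hcl ψ).1 (Finset.mem_filter.2 ⟨k3, k2⟩), k4⟩
    apply Finset.card_le_card_of_injOn (cut E)
    · intro ψ hψ
      obtain ⟨k1, k2⟩ := hm ψ (Finset.mem_coe.1 hψ)
      exact Finset.mem_coe.2 (Finset.mem_filter.2
        ⟨mem_For.2 (hb.mapsTo k1), hit_cut hS hφ k1.1 hE k1.2 k2⟩)
    · intro ψ hψ ψ' hψ' he
      exact hb.injOn (hm ψ (Finset.mem_coe.1 hψ)).1 (hm ψ' (Finset.mem_coe.1 hψ')).1 he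
  have hp : (0 : ℝ) < tau (S \ E) := by exact_mod_cast h0 _
  have h3 := h E φ hE (sub_ex hN φ)
  unfold pot at h3
  rw [div_le_iff₀ hp] at h3
  rw [hc1]
  refine le_trans ?_ h3
  exact_mod_cast hc2

open Classical in
/-- the number of forests in which some branch from `N` does not end in the lower half-plane -/
noncomputable def bad (S N : Finset Pt) : ℝ :=
  (((For S).filter (fun φ => ∃ f ∈ N, ¬ Hit φ f Lo)).card : ℝ)

theorem bad_mono (S : Finset Pt) {N N' : Finset Pt} (h : N ⊆ N') : bad S N ≤ bad S N' := by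
  classical
  unfold bad
  norm_cast
  apply Finset.card_le_card
  intro φ hφ
  obtain ⟨k1, f, hf, k2⟩ := Finset.mem_filter.1 hφ
  exact Finset.mem_filter.2 ⟨k1, f, h hf, k2⟩

theorem bad_empty (S : Finset Pt) : bad S ∅ = 0 := by
  unfold bad
  simp

theorem bad_step (h0 : RowPos) (h1 : RowW1) {S N N' : Finset Pt} (hS : ∀ v ∈ S, 0 ≤ v.2)
    (hN : N ⊆ S) {η : ℝ} (hη : 0 ≤ η)
    (h : ∀ x ∈ N', ∀ E φ, Expl S E φ → N ⊆ E → pot S E x ≤ η) :
    bad S N' ≤ bad S N + N'.card * η * tau S := by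
  classical
  have hsub : (For S).filter (fun φ => ∃ f ∈ N', ¬ Hit φ f Lo) ⊆
      (For S).filter (fun φ => ∃ f ∈ N, ¬ Hit φ f Lo) ∪ N'.biUnion (fun x =>
        ((For S).filter (fun φ => ∀ f ∈ N, Hit φ f Lo)).filter (fun φ => ¬ Hit φ x Lo)) := by
    intro φ hφ
    obtain ⟨k1, x, hx, k2⟩ := Finset.mem_filter.1 hφ
    rw [Finset.mem_union]
    by_cases hb : ∃ f ∈ N, ¬ Hit φ f Lo
    · exact Or.inl (Finset.mem_filter.2 ⟨k1, hb⟩)
    · refine Or.inr (Finset.mem_biUnion.2 ⟨x, hx, Finset.mem_filter.2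
        ⟨Finset.mem_filter.2 ⟨k1, fun f hf => ?_⟩, k2⟩⟩)
      by_contra h'
      exact hb ⟨f, hf, h'⟩
  have h2 := (Finset.card_le_card hsub).trans
    ((Finset.card_union_le _ _).trans (Nat.add_le_add_left Finset.card_biUnion_le _))
  have h3 : ∑ x ∈ N', ((((For S).filter (fun φ => ∀ f ∈ N, Hit φ f Lo)).filter
      (fun φ => ¬ Hit φ x Lo)).card : ℝ) ≤ N'.card * η * tau S := by
    rw [mul_assoc, ← nsmul_eq_mul]
    apply Finset.sum_le_card_nsmul
    intro x hx
    convert cond h0 h1 hS hN x hη (h x hx)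
  unfold bad
  refine le_trans ?_ (add_le_add_right h3 _)
  have h4 := (Nat.cast_le (α := ℝ)).2 h2
  push_cast at h4
  convert h4

theorem exists_J0 (K : ℕ) {ε : ℝ} (hε : 0 < ε) :
    ∃ J : ℕ, 9 * (1 + 2 * ((K : ℝ) + 1) * (J + 9)) ^ 2 * (1 / 2) ^ J ≤ ε := by
  have h1 := (tendsto_pow_const_div_const_pow_of_one_lt 2 (r := (2 : ℝ)) (by norm_num)).const_mul
    (9 * (1 + 20 * ((K : ℝ) + 1)) ^ 2)
  rw [mul_zero] at h1
  obtain ⟨J, hJ1, hJ2⟩ := ((h1.eventually (gt_mem_nhds hε)).and (Filter.eventually_ge_atTop 1)).exists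
  refine ⟨J, le_trans ?_ hJ1.le⟩
  have hJ : (1 : ℝ) ≤ J := by exact_mod_cast hJ2
  have hK : (0 : ℝ) ≤ K := Nat.cast_nonneg K
  have h2 : 1 + 2 * ((K : ℝ) + 1) * (J + 9) ≤ (1 + 20 * ((K : ℝ) + 1)) * J := by nlinarith
  have h3 : (1 + 2 * ((K : ℝ) + 1) * (J + 9)) ^ 2 ≤ ((1 + 20 * ((K : ℝ) + 1)) * J) ^ 2 := by
    gcongr
  rw [one_div, inv_pow, div_eq_mul_inv, ← mul_assoc]
  apply mul_le_mul_of_nonneg_right _ (by positivity)
  rw [mul_pow] at h3
  linarith

/-- the radii of the nets, in units of the mesh -/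
def cc (K J i : ℕ) : ℕ := 2 ^ i + 2 * (K + 1) * (J + 3 * i + 6)

theorem cc_le (K J i : ℕ) : cc K J i ≤ (1 + 2 * (K + 1) * (J + 9)) * 2 ^ i := by
  unfold cc
  have h1 : i + 1 ≤ 2 ^ i := Nat.lt_two_pow_self
  have h2 : J + 3 * i + 6 ≤ (J + 9) * 2 ^ i := by nlinarith
  have h3 := Nat.mul_le_mul_left (2 * (K + 1)) h2
  nlinarith

theorem card_net_le (a K J i : ℕ) :
    ((net a (cc K J i)).card : ℝ) ≤ 9 * (1 + 2 * ((K : ℝ) + 1) * (J + 9)) ^ 2 * 4 ^ i := by
  have h1 := card_net a (cc K J i)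
  have h2 := cc_le K J i
  have h3 : 1 ≤ cc K J i := by
    unfold cc
    have : 1 ≤ 2 ^ i := Nat.one_le_two_pow
    omega
  have h4 : (2 * cc K J i + 1) ^ 2 ≤ (3 * ((1 + 2 * (K + 1) * (J + 9)) * 2 ^ i)) ^ 2 := by
    apply Nat.pow_le_pow_left
    omega
  have h5 := (Nat.cast_le (α := ℝ)).2 (h1.trans h4)
  push_cast at h5
  refine h5.trans (le_of_eq ?_)
  rw [show (4 : ℝ) ^ i = (2 ^ i) ^ 2 by rw [← pow_mul, mul_comm, pow_mul]; norm_num]
  ring

end NET

open NET in
theorem rowNET (h0 : RowPos) (h1 : RowW1) (h2 : RowW2) : RowNET := by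
  classical
  intro ε hε
  obtain ⟨β, hβ, hd, -⟩ := G1.decay
  obtain ⟨K, hK3, hK⟩ := exists_K hβ (C := 2) (by norm_num) (ε := 1 / 2) (by norm_num)
  obtain ⟨J, hJ⟩ := exists_J0 K (half_pos hε)
  set D : ℝ := 9 * (1 + 2 * ((K : ℝ) + 1) * (J + 9)) ^ 2 with hD
  have hD0 : 0 ≤ D := by positivity
  obtain ⟨K', hK'3, hK'⟩ := exists_K hβ (C := D * 2) (by positivity) (half_pos hε)
  refine ⟨K' * (2 * cc K J 0 + 2), fun r R hr hR => ?_⟩
  set L := Nat.log 2 r + 1 with hL
  have hL1 : r < 2 ^ L := Nat.lt_pow_succ_log_self (by norm_num) r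
  have hL2 : 2 ^ L ≤ 2 * r := by
    rw [hL, pow_succ']
    exact Nat.mul_le_mul_left 2 (Nat.pow_log_le_self 2 (by omega))
  have hτ : (0 : ℝ) ≤ tau (Win R) := Nat.cast_nonneg _
  have hρ : K' * (2 ^ L * cc K J 0 + 2) ≤ R := by
    refine le_trans ?_ hR
    rw [mul_assoc]
    apply Nat.mul_le_mul_left
    have := Nat.mul_le_mul_right (cc K J 0) hL2
    nlinarith
  have hρ' : 2 ^ L * cc K J 0 + 2 ≤ R :=
    le_trans (Nat.le_mul_of_pos_left _ (by omega)) hρ
  have main : ∀ i, i ≤ L → 2 ^ (L - i) * cc K J i ≤ R ∧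
      bad (Win R) (net (2 ^ (L - i)) (cc K J i)) ≤
        (ε / 2 + D * (1 / 2) ^ J * (1 - (1 / 2) ^ i)) * tau (Win R) := by
    intro i
    induction i with
    | zero =>
      intro _
      rw [Nat.sub_zero]
      refine ⟨by omega, ?_⟩
      have key := bad_step h0 h1 (S := Win R) (N := ∅) (N' := net (2 ^ L) (cc K J 0)) win_up
        (Finset.empty_subset _) (η := 2 * ((3 : ℝ) / K') ^ β) (by positivity) (by
          intro x hx E φ hE _
          have hx1 := (net_dn hx).1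
          have hx2 : dn (0, -1) x ≤ 2 ^ L * cc K J 0 + 1 := by
            have := dn_tri (0, -1) (0, 0) x
            have h' : dn ((0, -1) : Pt) (0, 0) = 1 := by rw [dn_eq]; rfl
            omega
          have k := pot_decay h2 hd hE (z := (0, -1)) (Or.inr (show (-1 : ℤ) < 0 by norm_num))
            (L := R) (M := 1)
            (fun y hy => by
              have := dn_tri (0, 0) (0, -1) y
              have h' : dn ((0, 0) : Pt) (0, -1) = 1 := by rw [dn_eq]; rfl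
              omega)
            (fun y _ => pot_le_one h0 _ _ y) (x := x) (by omega)
          refine k.trans ?_
          rw [mul_one]
          apply mul_le_mul_of_nonneg_left _ (by norm_num)
          apply Real.rpow_le_rpow (by positivity) _ hβ.le
          have hKpos : (0 : ℝ) < K' := by
            have : (3 : ℝ) ≤ K' := by exact_mod_cast hK'3
            linarith
          rw [div_le_div_iff₀ (by positivity) hKpos]
          have k1 : (dn (0, -1) x + 1) * K' ≤ 3 * (R + 1) := by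
            have := Nat.mul_le_mul_left K' (show dn (0, -1) x + 1 ≤ 2 ^ L * cc K J 0 + 2 by omega)
            rw [mul_comm]
            omega
          exact_mod_cast k1)
      rw [bad_empty, zero_add] at key
      refine key.trans (mul_le_mul_of_nonneg_right ?_ hτ)
      have k1 := card_net_le (2 ^ L) K J 0
      rw [pow_zero, mul_one, ← hD] at k1
      have k2 : (0 : ℝ) ≤ 2 * ((3 : ℝ) / K') ^ β := by positivity
      have k3 := mul_le_mul_of_nonneg_right k1 k2
      rw [pow_zero, sub_self, mul_zero, add_zero]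
      linarith
    | succ i ih =>
      intro hi
      obtain ⟨ih1, ih2⟩ := ih (by omega)
      have e1 : 2 ^ (L - i) = 2 * 2 ^ (L - (i + 1)) := by
        rw [← pow_succ']
        congr 1
        omega
      have e2 : 2 ^ (L - (i + 1)) * cc K J (i + 1) + (J + 3 * (i + 1)) * ((K + 1) * 2 ^ (L - i)) =
          2 ^ (L - i) * cc K J i := by
        rw [e1]
        unfold cc
        ring
      refine ⟨by omega, ?_⟩
      have hsub : net (2 ^ (L - i)) (cc K J i) ⊆ Win R := fun x hx =>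
        mem_win_of ((net_dn hx).1.trans ih1) (net_dn hx).2
      have key := bad_step h0 h1 (S := Win R) (N := net (2 ^ (L - i)) (cc K J i))
        (N' := net (2 ^ (L - (i + 1))) (cc K J (i + 1))) win_up hsub
        (η := (1 / 2) ^ (J + 3 * (i + 1))) (by positivity) (fun x hx E φ hE hNE =>
          pot_net h0 h2 hβ hd hK3 hK Nat.one_le_two_pow ih1 hE hNE _ _ e2.le x (net_dn hx).1)
      refine key.trans ?_
      have k1 := card_net_le (2 ^ (L - (i + 1))) K J (i + 1)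
      rw [← hD] at k1
      have k2 : ((net (2 ^ (L - (i + 1))) (cc K J (i + 1))).card : ℝ) * (1 / 2) ^ (J + 3 * (i + 1))
          ≤ D * (1 / 2) ^ J * (1 / 2) ^ (i + 1) := by
        refine (mul_le_mul_of_nonneg_right k1 (by positivity)).trans (le_of_eq ?_)
        have : (4 : ℝ) ^ (i + 1) * (1 / 2) ^ (3 * (i + 1)) = (1 / 2) ^ (i + 1) := by
          rw [pow_mul, ← mul_pow]
          norm_num
        rw [pow_add (1 / 2 : ℝ) J, ← this]
        ring
      have k3 := mul_le_mul_of_nonneg_right k2 hτ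
      have k4 : (ε / 2 + D * (1 / 2) ^ J * (1 - (1 / 2) ^ (i + 1))) * (tau (Win R) : ℝ) =
          (ε / 2 + D * (1 / 2) ^ J * (1 - (1 / 2) ^ i)) * tau (Win R) +
            D * (1 / 2) ^ J * (1 / 2) ^ (i + 1) * tau (Win R) := by
        rw [pow_succ]
        ring
      rw [k4]
      linarith
  obtain ⟨-, hm⟩ := main L le_rfl
  have hsub : Win r ⊆ net (2 ^ (L - L)) (cc K J L) := by
    intro v hv
    rw [Nat.sub_self, pow_zero]
    refine Finset.mem_image.2 ⟨v, Win_mono ?_ hv, by simp⟩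
    unfold cc
    omega
  have hfin := (bad_mono (Win R) hsub).trans hm
  have k1 : D * (1 / 2) ^ J * (1 - (1 / 2 : ℝ) ^ L) ≤ ε / 2 := by
    refine le_trans ?_ hJ
    have : (0 : ℝ) ≤ D * (1 / 2) ^ J * (1 / 2) ^ L := by positivity
    linarith
  have k2 : (ε / 2 + D * (1 / 2) ^ J * (1 - (1 / 2 : ℝ) ^ L)) * (tau (Win R) : ℝ) ≤
      ε * tau (Win R) := mul_le_mul_of_nonneg_right (by linarith) hτ
  have k3 := hfin.trans k2
  exact k3

end Vale.Agent.Q155
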