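import Vale.Agent.Q155.Rows

/-!
# P155 in the upper half-plane: images of loop collections and the events `Big`
-/

namespace Vale.Agent.Q155

open MeasureTheory Filter Topology Vale.Agent.P155 Vale.Agent.P155.Q1

namespace PUSH

/-- the image of a loop -/
noncomputable def img (f : ℂ → ℂ) (γ : Loop) : Loop := SeparationQuotient.mk (mapL f (rep γ))

theorem mapL_c {f : ℂ → ℂ} {γ : PL} (h : Continuous (f ∘ γ.c)) (t : S1) :
    (mapL f γ).c t = f (γ.c t) := by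
  unfold mapL
  rw [dif_pos h]
  rfl

theorem dist_le_of_forall {p q : PL} {η : ℝ} (hη : 0 ≤ η) (h : ∀ t, dist (p.c t) (q.c t) ≤ η) :
    dist p q ≤ η := by
  rw [dist_def]
  exact (ldist_le_dist p q).trans ((ContinuousMap.dist_le hη).2 h)

theorem exists_pt {p q : PL} {η : ℝ} (h : dist p q < η) :
    ∃ φ : S1 ≃ₜ S1, ∀ t, dist (p.c t) (q.c (φ t)) < η := by
  obtain ⟨φ, hφ⟩ := exists_lt (show ldist p q < η from h)
  refine ⟨φ, fun t => lt_of_le_of_lt ?_ hφ⟩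
  exact ContinuousMap.dist_apply_le_dist (f := p.c) (g := q.c.comp (φ : C(S1, S1))) t

theorem dist_map_le {f : ℂ → ℂ} {p p' q q' : PL} {K : Set ℂ} {η ε : ℝ} (hε : 0 ≤ ε)
    (hq : ∀ t, q.c t = f (p.c t)) (hq' : ∀ t, q'.c t = f (p'.c t))
    (hp : ∀ t, p.c t ∈ K) (hp' : ∀ t, p'.c t ∈ K)
    (hf : ∀ z ∈ K, ∀ w ∈ K, dist z w < η → dist (f z) (f w) ≤ ε) (h : dist p p' < η) :
    dist q q' ≤ ε := by
  obtain ⟨φ, hφ⟩ := exists_pt h
  rw [dist_def]
  refine (ldist_le q q' φ).trans ((ContinuousMap.dist_le hε).2 fun t => ?_)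
  show dist (q.c t) (q'.c (φ t)) ≤ ε
  rw [hq, hq']
  exact hf _ (hp t) _ (hp' _) (hφ t)

theorem mk_eq_iff {p q : PL} :
    (SeparationQuotient.mk p : Loop) = SeparationQuotient.mk q ↔ dist p q = 0 := by
  rw [SeparationQuotient.mk_eq_mk, Metric.inseparable_iff]

theorem mk_map_eq {f : ℂ → ℂ} {p p' q q' : PL} {U : Set ℂ} (hf : ContinuousOn f U)
    (hq : ∀ t, q.c t = f (p.c t)) (hq' : ∀ t, q'.c t = f (p'.c t))
    (hp : ∀ t, p.c t ∈ U) (hp' : ∀ t, p'.c t ∈ U)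
    (h : (SeparationQuotient.mk p : Loop) = SeparationQuotient.mk p') :
    (SeparationQuotient.mk q : Loop) = SeparationQuotient.mk q' := by
  rw [mk_eq_iff] at h ⊢
  have hK : IsCompact (Set.range p.c ∪ Set.range p'.c) := (isCompact_rng p).union (isCompact_rng p')
  have hKU : Set.range p.c ∪ Set.range p'.c ⊆ U := by
    rintro _ (⟨t, rfl⟩ | ⟨t, rfl⟩)
    exacts [hp t, hp' t]
  have hu := hK.uniformContinuousOn_of_continuous (hf.mono hKU)
  rw [Metric.uniformContinuousOn_iff] at hu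
  refine le_antisymm (le_of_forall_pos_le_add fun ε hε => ?_) dist_nonneg
  obtain ⟨η, hη, hu⟩ := hu ε hε
  rw [zero_add]
  exact dist_map_le hε.le hq hq' (fun t => Or.inl ⟨t, rfl⟩) (fun t => Or.inr ⟨t, rfl⟩)
    (fun z hz w hw hzw => (hu z hz w hw hzw).le) (by rw [h]; exact hη)

theorem diam_map_le {f : ℂ → ℂ} {p q : PL} {η ε : ℝ} (hε : 0 ≤ ε) (hq : ∀ t, q.c t = f (p.c t))
    (hf : ∀ z w, dist z w ≤ η → dist (f z) (f w) ≤ ε) (h : p.diam ≤ η) : q.diam ≤ ε := by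
  refine Metric.diam_le_of_forall_dist_le hε ?_
  rintro _ ⟨s, rfl⟩ _ ⟨t, rfl⟩
  rw [hq, hq]
  exact hf _ _ ((p.dist_le_diam s t).trans h)

theorem diam_rep (γ : Loop) : (rep γ).diam = γ.diam := by
  conv_rhs => rw [← mk_rep γ]
  rfl

theorem dist_rep (γ γ' : Loop) : dist (rep γ) (rep γ') = dist γ γ' := by
  conv_rhs => rw [← mk_rep γ, ← mk_rep γ']
  rw [SeparationQuotient.dist_mk]

theorem img_mk {f : ℂ → ℂ} (hf : Continuous f) {p q : PL} (hq : ∀ t, q.c t = f (p.c t)) :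
    img f (SeparationQuotient.mk p) = SeparationQuotient.mk q :=
  mk_map_eq (U := Set.univ) hf.continuousOn (mapL_c (hf.comp (rep _).c.continuous)) hq
    (fun _ => trivial) (fun _ => trivial) (mk_rep _)

theorem modulus {f : ℂ → ℂ} (hf : UniformContinuous f) {ε : ℝ} (hε : 0 < ε) :
    ∃ η : ℝ, 0 < η ∧ (∀ γ : Loop, γ.diam ≤ η → (img f γ).diam ≤ ε) ∧
      ∀ γ γ' : Loop, dist γ γ' ≤ η → dist (img f γ) (img f γ') ≤ ε := by
  obtain ⟨η, hη, hu⟩ := Metric.uniformContinuous_iff.1 hf ε hε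
  refine ⟨η / 2, by positivity, fun γ hγ => ?_, fun γ γ' hγ => ?_⟩
  · rw [← diam_rep] at hγ
    exact diam_map_le (f := f) hε.le (mapL_c (hf.continuous.comp (rep γ).c.continuous))
      (fun z w hzw => (hu (by linarith)).le) hγ
  · rw [← dist_rep] at hγ
    unfold img
    rw [SeparationQuotient.dist_mk]
    exact dist_map_le (f := f) (K := Set.univ) (η := η) hε.le
      (mapL_c (hf.continuous.comp (rep γ).c.continuous))
      (mapL_c (hf.continuous.comp (rep γ').c.continuous)) (fun _ => trivial) (fun _ => trivial)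
      (fun z _ w _ hzw => (hu hzw).le) (by linarith)

theorem mult_ne (Γ : LoopColl) (x : Γ.Inst) : Γ.mult x.1 ≠ 0 := by
  have := x.2.2
  omega

theorem finite_inst (Γ : LoopColl) {ε : ℝ} (hε : 0 < ε) : {x : Γ.Inst | ε < x.1.diam}.Finite := by
  refine ((Γ.fin ε hε).biUnion
    (t := fun γ => Set.range (fun i : Fin (Γ.mult γ) => (⟨γ, i⟩ : Γ.Inst)))
    fun γ _ => Set.finite_range _).subset ?_
  intro x hx
  simp only [Set.mem_iUnion]
  exact ⟨x.1, ⟨mult_ne Γ x, hx⟩, x.2, rfl⟩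

theorem ncard_inst (Γ : LoopColl) (γ : Loop) : Set.ncard {x : Γ.Inst | x.1 = γ} = Γ.mult γ := by
  have : {x : Γ.Inst | x.1 = γ} =
      (fun i : Fin (Γ.mult γ) => (⟨γ, i⟩ : Γ.Inst)) '' Set.univ := by
    ext x
    constructor
    · rintro rfl
      exact ⟨x.2, trivial, rfl⟩
    · rintro ⟨i, -, rfl⟩
      rfl
  have hinj : Function.Injective (fun i : Fin (Γ.mult γ) => (⟨γ, i⟩ : Γ.Inst)) :=
    sigma_mk_injective (β := fun γ => Fin (Γ.mult γ))
  rw [this, Set.ncard_image_of_injective _ hinj, Set.ncard_univ, Nat.card_fin]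

theorem locFin_push {f : ℂ → ℂ} (hf : UniformContinuous f) (Γ : LoopColl) :
    LocFin Set.univ (fun x : Γ.Inst => img f x.1) := by
  intro ε hε
  obtain ⟨η, hη, h1, -⟩ := modulus hf hε
  refine (finite_inst Γ hη).subset ?_
  rintro x ⟨-, hx⟩
  by_contra hc
  exact absurd (h1 x.1 (not_lt.1 hc)) (not_le.2 hx)

theorem push_eq (f : ℂ → ℂ) (Γ : LoopColl) :
    push f Γ = ofLoc Set.univ (fun x : Γ.Inst => img f x.1) := rfl

theorem unif {f : ℂ → ℂ} (hf : UniformContinuous f) : UniformContinuous (push f) := by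
  rw [hasBasis.uniformContinuous_iff hasBasis]
  intro ε hε
  obtain ⟨η, hη, h1, h2⟩ := modulus hf (half_pos hε)
  refine ⟨η, hη, fun Γ Γ' h => ?_⟩
  obtain ⟨R, k1, k2, k3, k4, k5⟩ := h
  have := close_ofLoc (half_pos hε).le (locFin_push hf Γ) (locFin_push hf Γ') R k1 k2
    (fun x _ hx => by
      obtain ⟨y, hy⟩ := k3 x (by
        by_contra hc
        exact absurd (h1 x.1 (not_lt.1 hc)) (not_le.2 hx))
      exact ⟨y, trivial, hy⟩)
    (fun y _ hy => by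
      obtain ⟨x, hx⟩ := k4 y (by
        by_contra hc
        exact absurd (h1 y.1 (not_lt.1 hc)) (not_le.2 hy))
      exact ⟨x, trivial, hx⟩)
    (fun x y hxy => h2 _ _ (k5 x y hxy))
  show close ε (push f Γ) (push f Γ')
  rw [push_eq, push_eq]
  exact close_mono (by linarith) this

theorem maps {f : ℂ → ℂ} (hf : UniformContinuous f) {Ω Ω' : Set ℂ} {g : ℂ → ℂ} {Γ Γ' : LoopColl}
    (hc : CI.Conf Ω Ω' f g) (hm : CI.MapsColl Ω Ω' f Γ Γ') : push f Γ = Γ' := by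
  classical
  have hin : ∀ γ : Loop, Γ.mult γ ≠ 0 → ∀ t, (rep γ).c t ∈ Ω := by
    intro γ hγ t
    exact hm.left (rep γ) (by rwa [mk_rep]) ⟨t, rfl⟩
  have hq : ∀ (γ : Loop) (t : S1), (mapL f (rep γ)).c t = f ((rep γ).c t) := fun γ =>
    mapL_c (hf.continuous.comp (rep γ).c.continuous)
  have hmu : ∀ γ : Loop, Γ.mult γ ≠ 0 → Γ'.mult (img f γ) = Γ.mult γ := by
    intro γ hγ
    have := hm.mult (rep γ) (mapL f (rep γ)) (by rintro _ ⟨t, rfl⟩; exact hin γ hγ t) (hq γ)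
    rwa [mk_rep] at this
  have hinj : ∀ γ₁ γ₂ : Loop, Γ.mult γ₁ ≠ 0 → Γ.mult γ₂ ≠ 0 → img f γ₁ = img f γ₂ → γ₁ = γ₂ := by
    intro γ₁ γ₂ h1 h2 h
    rw [← mk_rep γ₁, ← mk_rep γ₂]
    refine mk_map_eq (f := g) (U := Ω') hc.dg.continuousOn (fun t => ?_) (fun t => ?_)
      (fun t => ?_) (fun t => ?_) h
    · rw [hq, hc.gf _ (hin _ h1 t)]
    · rw [hq, hc.gf _ (hin _ h2 t)]
    · rw [hq]
      exact hc.mf (hin _ h1 t)
    · rw [hq]
      exact hc.mf (hin _ h2 t)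
  ext γ'
  by_cases hex : ∃ γ : Loop, Γ.mult γ ≠ 0 ∧ img f γ = γ'
  · obtain ⟨γ, hγ, rfl⟩ := hex
    have hpos : 0 < (img f γ).diam := Γ'.nonconst _ (by rw [hmu γ hγ]; exact hγ)
    rw [push_eq, mult_ofLoc (locFin_push hf Γ) hpos, hmu γ hγ, ← ncard_inst]
    congr 1
    ext x
    constructor
    · rintro ⟨-, hx⟩
      exact hinj _ _ (mult_ne Γ x) hγ hx
    · intro hx
      exact ⟨trivial, by rw [show x.1 = γ from hx]⟩
  · have hL : (push f Γ).mult γ' = 0 := by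
      by_contra h0
      have hpos := (push f Γ).nonconst _ h0
      rw [push_eq, mult_ofLoc (locFin_push hf Γ) hpos] at h0
      obtain ⟨x, -, hx⟩ := Set.nonempty_of_ncard_ne_zero h0
      exact hex ⟨x.1, mult_ne Γ x, hx⟩
    rw [hL]
    by_contra h0
    have hr : ∀ t, (rep γ').c t ∈ Ω' := fun t =>
      hm.right (rep γ') (by rw [mk_rep]; exact fun h => h0 h.symm) ⟨t, rfl⟩
    have hg : Continuous (g ∘ (rep γ').c) :=
      hc.dg.continuousOn.comp_continuous (rep γ').c.continuous hr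
    have hp : ∀ t, (rep γ').c t = f ((mapL g (rep γ')).c t) := by
      intro t
      rw [mapL_c hg, hc.fg _ (hr t)]
    have h1 := hm.mult (mapL g (rep γ')) (rep γ') (by
      rintro _ ⟨t, rfl⟩
      rw [mapL_c hg]
      exact hc.mg (hr t)) hp
    rw [mk_rep] at h1
    refine hex ⟨SeparationQuotient.mk (mapL g (rep γ')), ?_, ?_⟩
    · rw [← h1]
      exact fun h => h0 h.symm
    · rw [img_mk hf.continuous hp, mk_rep]

/-! ## Finite configurations -/

theorem locFin_of_finite {ι : Type*} {s : Set ι} (hs : s.Finite) (c : ι → Loop) : LocFin s c :=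
  fun _ _ => hs.subset fun _ hi => hi.1

theorem ofFamily_eq {ι : Type*} {s : Set ι} (hs : s.Finite) (c : ι → Loop) :
    ofFamily s hs c = ofLoc s c := by
  classical
  ext γ
  by_cases hγ : 0 < γ.diam
  · rw [mult_ofLoc (locFin_of_finite hs c) hγ]
    show (if 0 < γ.diam then _ else 0) = _
    rw [if_pos hγ]
  · have h1 : (ofFamily s hs c).mult γ = 0 := by
      by_contra h0
      exact hγ ((ofFamily s hs c).nonconst γ h0)
    have h2 : (ofLoc s c).mult γ = 0 := by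
      by_contra h0
      exact hγ ((ofLoc s c).nonconst γ h0)
    rw [h1, h2]

theorem loop_sub {V : Finset Pt} {ω : Conf} (hω : ω ∈ DD V) {L : Set Pt} (hL : L ∈ Loops ω) :
    L.Nonempty ∧ L ⊆ (V : Set Pt) := by
  obtain ⟨v, hv, rfl⟩ := hL
  rw [DD, Finset.mem_product, mem_PM, mem_PM] at hω
  refine ⟨⟨v, SW.same_refl ω v⟩, SW.comp_sub ?_ (fun u hu => SW.pm_mem hω.1 hu)
    (fun u hu => SW.pm_mem hω.2 hu)⟩
  by_contra hc
  exact hv ((hω.1.off v hc).trans (hω.2.off v hc).symm)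

theorem finite_loops {V : Finset Pt} {ω : Conf} (hω : ω ∈ DD V) : (Loops ω).Finite :=
  V.finite_toSet.finite_subsets.subset fun _ hL => (loop_sub hω hL).2

theorem convex_cHD (R : ℝ) : Convex ℝ (cHD R) := by
  have : cHD R = Metric.closedBall 0 R ∩ {z : ℂ | 0 ≤ z.im} := by
    ext z
    simp [cHD]
  rw [this]
  exact (convex_closedBall 0 R).inter (convex_halfSpace_im_ge 0)

theorem poly_mem {K : Set ℂ} (hK : Convex ℝ K) {x : ℤ → ℂ} (hx : ∀ j, x j ∈ K) (t : ℝ) :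
    poly x t ∈ K := by
  have h1 : 0 ≤ t - ⌊t⌋ := sub_nonneg.2 (Int.floor_le t)
  have h2 : t - ⌊t⌋ ≤ 1 := by linarith [Int.lt_floor_add_one t]
  have := hK.add_smul_sub_mem (hx ⌊t⌋) (hx (⌊t⌋ + 1)) ⟨h1, h2⟩
  rw [Complex.real_smul] at this
  exact this

theorem lcurve_mem {V : Finset Pt} {ω : Conf} (hω : ω ∈ DD V) {K : Set ℂ} (hK : Convex ℝ K)
    {δ : ℝ} {a : ℂ} (hV : ∀ v ∈ V, pt δ a v ∈ K) {u : Pt} (hu : u ∈ V) (t : S1) :
    (lcurve δ a ω u).c t ∈ K := by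
  rw [DD, Finset.mem_product, mem_PM, mem_PM] at hω
  obtain ⟨s, rfl⟩ := QuotientAddGroup.mk_surjective t
  show poly (cyc δ a ω u) (((comp ω u).ncard : ℕ) * s) ∈ K
  refine poly_mem hK (fun j => hV _ ?_) _
  exact SW.comp_sub (S := (V : Set Pt)) hu (fun w hw => SW.pm_mem hω.1 hw)
    (fun w hw => SW.pm_mem hω.2 hw) (SW.same_iter ω u _)

theorem continuousOn_cay (R : ℝ) : ContinuousOn cay (cHD R) := by
  unfold cay
  refine ContinuousOn.div (by fun_prop) (by fun_prop) fun z hz h => ?_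
  have h1 := congrArg Complex.im h
  have h2 := hz.2
  simp at h1
  linarith

theorem finite_close {f : ℂ → ℂ} (hf : UniformContinuous f) {V : Finset Pt} {R η δ : ℝ} {a : ℂ}
    (hη : 0 ≤ η) (hV : ∀ v ∈ V, pt δ a v ∈ cHD R) (hfc : ∀ z ∈ cHD R, ‖f z - cay z‖ ≤ η)
    {ω : Conf} (hω : ω ∈ DD V) : close (2 * η) (push f (LL δ a ω)) (LH δ a ω) := by
  have hfin := finite_loops hω
  have hLL : LL δ a ω = ofLoc (Loops ω) (loopOf δ a ω) := by
    unfold LL
    rw [dif_pos hfin, ofFamily_eq]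
  have key : ∀ L ∈ Loops ω, ∃ p q : PL, (∀ t, p.c t ∈ cHD R) ∧ (∀ t, q.c t = cay (p.c t)) ∧
      loopOf δ a ω L = SeparationQuotient.mk p ∧ cloop δ a ω L = SeparationQuotient.mk q := by
    intro L hL
    obtain ⟨hne, hsub⟩ := loop_sub hω hL
    have hp := lcurve_mem hω (convex_cHD R) hV (hsub hne.some_mem)
    refine ⟨lcurve δ a ω hne.some, mapL cay (lcurve δ a ω hne.some), hp,
      mapL_c ((continuousOn_cay R).comp_continuous (lcurve δ a ω hne.some).c.continuous hp),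
      ?_, ?_⟩
    · unfold loopOf
      rw [dif_pos hne]
    · unfold cloop
      rw [dif_pos hne]
  rw [hLL, push_eq]
  obtain ⟨e, he⟩ := inst_ofLoc (locFin_of_finite hfin (loopOf δ a ω))
  refine close_ofLoc hη (locFin_push hf _) (locFin_of_finite hfin _) (fun x L => (e x).1 = L)
    (fun x L L' h h' => h.symm.trans h')
    (fun x x' L h h' => e.injective (Subtype.ext (h.trans h'.symm)))
    (fun x _ _ => ⟨(e x).1, (e x).2.1, rfl⟩) (fun L hL hd => ?_) ?_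
  · obtain ⟨p, q, -, hq, h1, h2⟩ := key L hL
    have hpos : 0 < (loopOf δ a ω L).diam := by
      by_contra hc
      rw [h1, Loop.diam_mk] at hc
      rw [h2, Loop.diam_mk] at hd
      have := diam_map_le (f := cay) (η := 0) (ε := 0) le_rfl hq (fun z w hzw => by
        rw [dist_le_zero.1 hzw, dist_self]) (not_lt.1 hc)
      linarith
    exact ⟨e.symm ⟨L, hL, hpos⟩, trivial, by simp⟩
  · rintro x L rfl
    obtain ⟨p, q, hp, hq, h1, h2⟩ := key _ (e x).2.1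
    have hq' := mapL_c (γ := p) (hf.continuous.comp p.c.continuous)
    show dist (img f x.1) _ ≤ η
    rw [← he x, h1, h2, img_mk hf.continuous hq', SeparationQuotient.dist_mk]
    refine dist_le_of_forall hη fun t => ?_
    rw [hq', hq, dist_eq_norm]
    exact hfc _ (hp t)

/-! ## The events `Big` -/

theorem big_close {c η ε : ℝ} {Γ Γ' : LoopColl} (hε : 0 < ε) (hc : ε < c) (h : close ε Γ Γ')
    (hΓ : Γ ∈ Big c η) : Γ' ∈ Big (c - 2 * ε) (η + 2 * ε) := by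
  obtain ⟨R, -, -, k3, -, k5⟩ := h
  obtain ⟨γ, h1, h2, t, h3⟩ := hΓ
  obtain ⟨y, hy⟩ := k3 ⟨SeparationQuotient.mk γ, ⟨0, Nat.pos_of_ne_zero h1⟩⟩ (hc.trans_le h2)
  have hd : dist γ (rep y.1) ≤ ε := by
    have := k5 _ _ hy
    rwa [← mk_rep y.1, SeparationQuotient.dist_mk] at this
  obtain ⟨φ, hφ⟩ := exists_pt (show dist γ (rep y.1) < 2 * ε by linarith)
  refine ⟨rep y.1, by rw [mk_rep]; exact mult_ne Γ' y, ?_, φ t, ?_⟩
  · linarith [PL.diam_le γ (rep y.1)]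
  · have h4 := hφ t
    have h5 := dist_triangle ((rep y.1).c (φ t)) (γ.c t) 1
    rw [dist_comm] at h4
    rw [← dist_eq_norm] at h3 ⊢
    linarith

theorem not_big {c : ℝ} {Γ : LoopColl} (hc : 0 < c)
    (h : ∀ γ : PL, Γ.mult (SeparationQuotient.mk γ) ≠ 0 → Set.range γ.c ⊆ Metric.ball 0 1) :
    ∃ η : ℝ, 0 < η ∧ Γ ∉ Big c η := by
  have hK : IsCompact (⋃ γ ∈ {γ | Γ.mult γ ≠ 0 ∧ c / 2 < γ.diam}, Set.range (rep γ).c) :=
    (Γ.fin (c / 2) (half_pos hc)).isCompact_biUnion fun γ _ => isCompact_rng _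
  have h1 : (1 : ℂ) ∈ (⋃ γ ∈ {γ | Γ.mult γ ≠ 0 ∧ c / 2 < γ.diam}, Set.range (rep γ).c)ᶜ := by
    intro hmem
    simp only [Set.mem_iUnion] at hmem
    obtain ⟨γ, hγ, hm⟩ := hmem
    have := h (rep γ) (by rw [mk_rep]; exact hγ.1) hm
    simp at this
  obtain ⟨r, hr, hb⟩ := Metric.isOpen_iff.1 hK.isClosed.isOpen_compl 1 h1
  refine ⟨r / 2, half_pos hr, ?_⟩
  rintro ⟨γ, k1, k2, t, k3⟩
  have hd : dist γ (rep (SeparationQuotient.mk γ)) = 0 := mk_eq_iff.1 (mk_rep _).symm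
  obtain ⟨φ, hφ⟩ := exists_pt (show dist γ (rep (SeparationQuotient.mk γ)) < r / 2 by
    rw [hd]; exact half_pos hr)
  refine hb (a := (rep (SeparationQuotient.mk γ)).c (φ t)) ?_ ?_
  · have h4 := hφ t
    have h5 := dist_triangle ((rep (SeparationQuotient.mk γ)).c (φ t)) (γ.c t) 1
    rw [dist_comm] at h4
    rw [← dist_eq_norm] at k3
    rw [Metric.mem_ball]
    linarith
  · simp only [Set.mem_iUnion]
    refine ⟨SeparationQuotient.mk γ, ⟨k1, ?_⟩, φ t, rfl⟩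
    rw [Loop.diam_mk]
    linarith

end PUSH

theorem rowPUSH : RowPUSH := fun _ hf =>
  ⟨PUSH.unif hf, fun _ _ _ _ _ hc hm => PUSH.maps hf hc hm,
    fun _ _ _ _ _ hη _ hV hfc _ hω => PUSH.finite_close hf hη hV hfc hω⟩

theorem rowBIG : RowBIG :=
  ⟨fun _ _ _ _ _ hε hc h hΓ => PUSH.big_close hε hc h hΓ, fun _ _ hc h => PUSH.not_big hc h⟩

end Vale.Agent.Q155
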