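import Vale.Agent.Q155.Rows
import Vale.Agent.P155.A4.Main
import Vale.Agent.P155.A.TempMain

/-!
# P155 in the upper half-plane: Temperley's bijection, by linear algebra
-/

namespace Vale.Agent.Q155

open Finset Vale.Agent.P155

namespace TB

variable {T : Temp}

theorem mulVec_eq {V : Finset Pt} {m0 : Pt → Pt} (h0 : IsPM V m0) (y : Pt → Pt → ℝ)
    (u : Pt → ℝ) (hu : ∀ b, b ∉ V → u b = 0) (w : F.WV V) :
    (F.MR V m0 fun w b => y w b * K w b).mulVec (fun w' => u (m0 w')) w =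
      Kop (fun b => y w b * u b) w := by
  rw [← sum_K_eq (V.filter Black), ← F.sum_m0 h0]
  · unfold Matrix.mulVec dotProduct F.MR
    refine sum_congr rfl fun w' _ => ?_
    simp only [Matrix.of_apply]
    ring
  · intro b hb hb'
    rw [hu b fun h => hb' (mem_filter.2 ⟨h, (mem_nbrs.1 hb).black w.white⟩), mul_zero]

/-- a matching with positive weight makes the weighted operator injective -/
theorem ker {m : Pt → Pt} (hm : IsPM T.V m) (y : Pt → Pt → ℝ) (hy : ∀ w b, 0 ≤ y w b)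
    (hy' : ∀ w, 0 < y w (m w)) (u : Pt → ℝ) (hu : ∀ b, b ∉ T.V → u b = 0)
    (h : ∀ w ∈ T.V, White w → Kop (fun b => y w b * u b) w = 0) :
    ∀ b ∈ T.V, Black b → u b = 0 := by
  obtain ⟨c, hc, hd⟩ := A4.detR_weights A4.signLoop F.insideLoop (Temp.sub_self T) hm
  have hpos : 0 < ∑ m ∈ PM T.V, ∏ w ∈ T.V.filter White, y w (m w) :=
    sum_pos' (fun m _ => prod_nonneg fun w _ => hy _ _)
      ⟨m, mem_PM.2 hm, prod_pos fun w _ => hy' w⟩
  have hdet : (F.MR T.V m fun w b => y w b * K w b).det ≠ 0 := by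
    rw [← F.detR_def, hd y]
    refine mul_ne_zero ?_ hpos.ne'
    rintro rfl
    simp at hc
  have hz := Matrix.eq_zero_of_mulVec_eq_zero hdet (v := fun w' => u (m w'))
    (funext fun w => by rw [mulVec_eq hm y u hu, h w w.mem w.white]; rfl)
  intro b hb hbl
  obtain ⟨w, rfl⟩ := F.exists_white hm hb hbl
  exact congrFun hz w

/-- an injective weighted operator gives a matching with nonzero weight -/
theorem exi (y : Pt → Pt → ℝ) (h : ∀ u : Pt → ℝ, (∀ b, b ∉ T.V → u b = 0) →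
      (∀ w ∈ T.V, White w → Kop (fun b => y w b * u b) w = 0) → ∀ b ∈ T.V, Black b → u b = 0) :
    ∃ m, IsPM T.V m ∧ ∀ w ∈ T.V, White w → y w (m w) ≠ 0 := by
  classical
  obtain ⟨m0, h0⟩ := Temp.exists_pm T
  obtain ⟨c, -, hd⟩ := A4.detR_weights A4.signLoop F.insideLoop (Temp.sub_self T) h0
  have hdet : (F.MR T.V m0 fun w b => y w b * K w b).det ≠ 0 := by
    rw [Ne, ← Matrix.exists_mulVec_eq_zero_iff]
    rintro ⟨g, hg0, hg⟩
    apply hg0
    let u : Pt → ℝ := fun b => if hb : b ∈ T.V ∧ Black b then g ⟨m0 b, F.m0_mem h0 hb⟩ else 0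
    have hu : ∀ b, b ∉ T.V → u b = 0 := fun b hb => dif_neg fun h => hb h.1
    have hug : (fun w' : F.WV T.V => u (m0 w')) = g := by
      funext w
      have hb : m0 w ∈ T.V ∧ Black (m0 w) :=
        ⟨F.IsPM.mem h0 w.mem, F.IsPM.black h0 w.mem w.white⟩
      exact (dif_pos hb).trans (congrArg g (Subtype.ext (h0.invol _)))
    have hz := h u hu fun w hw hwh => by
      rw [← mulVec_eq h0 y u hu ⟨w, mem_filter.2 ⟨hw, hwh⟩⟩, hug, hg]
      rfl
    rw [← hug]
    funext w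
    exact hz _ (F.IsPM.mem h0 w.mem) (F.IsPM.black h0 w.mem w.white)
  rw [← F.detR_def, hd y] at hdet
  obtain ⟨m, hm, hne⟩ := exists_ne_zero_of_sum_ne_zero (right_ne_zero_of_mul hdet)
  exact ⟨m, mem_PM.1 hm, fun w hw hwh => prod_ne_zero_iff.1 hne w (mem_filter.2 ⟨hw, hwh⟩)⟩

theorem opp {w a : Pt} (h : Adj w a) (G : Pt → ℝ)
    (hG : ∀ b, b ≠ a → b ≠ w + (w - a) → G b = 0) (h1 : G a = G (w + (w - a))) : Kop G w = 0 := by
  obtain ⟨x, y⟩ := w
  unfold Kop
  rcases F.adj_cases h with rfl | rfl | rfl | rfl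
  · have e : ((x, y) + ((x, y) - (x + 1, y)) : Pt) = (x - 1, y) := by
      ext <;> simp; ring
    simp only at hG h1 ⊢
    rw [e] at hG h1
    rw [h1, hG (x, y + 1) (by simp) (by simp), hG (x, y - 1) (by simp) (by simp)]
    ring
  · have e : ((x, y) + ((x, y) - (x - 1, y)) : Pt) = (x + 1, y) := by
      ext <;> simp
    simp only at hG h1 ⊢
    rw [e] at hG h1
    rw [h1, hG (x, y + 1) (by simp) (by simp), hG (x, y - 1) (by simp) (by simp)]
    ring
  · have e : ((x, y) + ((x, y) - (x, y + 1)) : Pt) = (x, y - 1) := by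
      ext <;> simp; ring
    simp only at hG h1 ⊢
    rw [e] at hG h1
    rw [h1, hG (x + 1, y) (by simp) (by simp), hG (x - 1, y) (by simp) (by simp)]
    ring
  · have e : ((x, y) + ((x, y) - (x, y - 1)) : Pt) = (x, y + 1) := by
      ext <;> simp
    simp only at hG h1 ⊢
    rw [e] at hG h1
    rw [h1, hG (x + 1, y) (by simp) (by simp), hG (x - 1, y) (by simp) (by simp)]
    ring

/-- no nonempty set of black vertices is closed under the parent map -/
theorem no_closed {m : Pt → Pt} (hm : IsPM T.V m) (D : Set Pt)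
    (hD : ∀ b ∈ D, b ∈ T.V ∧ Black b) (hc : ∀ b ∈ D, pri m b ∈ D) (b : Pt) : b ∉ D := by
  classical
  intro hb
  have := ker hm (fun w b => if b = m w ∨ (m w ∈ D ∧ b = w + (w - m w)) then 1 else 0)
    (fun w b => by split_ifs <;> norm_num) (fun w => by simp)
    (fun b => if b ∈ D then 1 else 0) (fun b hb => if_neg fun h => hb (hD b h).1) ?_ b
    (hD b hb).1 (hD b hb).2
  · simp [hb] at this
  · intro w hw _
    refine opp (hm.adj w hw) _ (fun b h1 h2 => by simp [h1, h2]) ?_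
    by_cases h : m w ∈ D
    · have h2 := hc _ h
      rw [pri, hm.invol] at h2
      simp [h, h2]
    · have h2 : w + (w - m w) ≠ m w := by
        intro e
        have := hm.adj w hw
        rw [Prod.ext_iff] at e
        simp only [Prod.fst_add, Prod.fst_sub, Prod.snd_add, Prod.snd_sub] at e
        rcases F.adj_cases this with e' | e' | e' | e' <;> rw [e'] at e <;> simp at e <;> omega
      simp [h, h2]

theorem B0_iff {v : Pt} : B0 v ↔ v.1 % 2 = 0 ∧ v.2 % 2 = 0 := by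
  simp [B0, Int.even_iff]

theorem B1_iff {v : Pt} : B1 v ↔ v.1 % 2 = 1 ∧ v.2 % 2 = 1 := by
  simp [B1, Int.odd_iff]

theorem B1_ctr (f : Pt) : B1 (ctr f) := ⟨⟨f.1, rfl⟩, ⟨f.2, rfl⟩⟩

theorem exists_ctr {b : Pt} (h : B1 b) : ∃ f, b = ctr f := by
  obtain ⟨x, y, rfl⟩ := Temp.B1_cases h
  exact ⟨(x, y), rfl⟩

theorem ctr_inj {f g : Pt} (h : ctr f = ctr g) : f = g := by
  simp only [ctr, Prod.mk.injEq] at h
  ext <;> omega

theorem ctr_mem (f : Pt) : ctr f ∈ T.V ↔ f ∈ T.cells := by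
  rw [Temp.B1_mem_V (B1_ctr f), Temp.mem_C, ctr, Temp.mem_B1, Temp.mem_cells]

theorem pri_ctr (m : Pt → Pt) (f : Pt) : pri m (ctr f) = ctr (par m f) := by
  simp only [pri, par, ctr]
  ext <;> simp <;> ring

theorem adj_shift {p w : Pt} (h : Adj p w) (f : Pt) : Adj f (f + (w - p)) := by
  unfold Adj at h ⊢
  simp only [Prod.fst_add, Prod.fst_sub, Prod.snd_add, Prod.snd_sub]
  rw [← h]
  congr 2 <;> ring

theorem B0_mirror {p w : Pt} (h : B0 p) : B0 (w + (w - p)) := by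
  rw [B0_iff] at h ⊢
  simp only [Prod.fst_add, Prod.fst_sub, Prod.snd_add, Prod.snd_sub]
  omega

theorem eq_mirror {p q w : Pt} (hp : B0 p) (hq : B0 q) (h1 : Adj p w) (h2 : Adj w q)
    (hne : q ≠ p) : q = w + (w - p) := by
  rw [B0_iff] at hp hq
  obtain ⟨a, b⟩ := p
  obtain ⟨c, d⟩ := q
  rw [Ne, Prod.mk.injEq] at hne
  rcases F.adj_cases h1 with rfl | rfl | rfl | rfl <;>
    rcases F.adj_cases h2 with e | e | e | e <;>
    simp only [Prod.mk.injEq, Prod.mk_add_mk, Prod.mk_sub_mk] at e hp hq ⊢ <;> omega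

theorem acp {m : Pt → Pt} (hm : IsPM T.V m) {p : Pt} (hp : p ∈ T.V) (h0 : B0 p) :
    ∃ n, (pri m)^[n] p = T.v0 := by
  by_contra hn
  push Not at hn
  refine no_closed hm {b | b ∈ T.V ∧ B0 b ∧ ∀ n, (pri m)^[n] b ≠ T.v0}
    (fun b hb => ⟨hb.1, hb.2.1.black⟩) ?_ p ⟨hp, h0, hn⟩
  rintro b ⟨h1, h2, h3⟩
  refine ⟨Temp.mem_V'.2 ⟨?_, h3 1⟩, B0_mirror h2, fun n => h3 (n + 1)⟩
  exact (Temp.isCl T).edge _ (Temp.V_subset (F.IsPM.mem hm h1)) (F.IsPM.white hm h1 h2.black) _
    (B0_mirror h2) (adj_shift (hm.adj b h1) _)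

variable {S : Finset Pt} (hS : ∀ f, f ∈ S ↔ f ∈ T.cells)

include hS in
theorem par_off {m : Pt → Pt} (hm : IsPM T.V m) {f : Pt} (hf : f ∉ S) : par m f = f := by
  rw [par, hm.off _ fun h => hf ((hS f).2 ((ctr_mem f).1 h)), sub_self, add_zero]

include hS in
theorem maps {m : Pt → Pt} (hm : IsPM T.V m) : IsFor S (par m) := by
  refine ⟨fun f hf => adj_shift (hm.adj _ ((ctr_mem f).2 ((hS f).1 hf))) f,
    fun f hf => par_off hS hm hf, fun v => ?_⟩
  by_contra hn
  push Not at hn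
  refine no_closed hm {b | ∃ f, b = ctr f ∧ ∀ n, (par m)^[n] f ∈ S} ?_ ?_ (ctr v) ⟨v, rfl, hn⟩
  · rintro _ ⟨f, rfl, hf⟩
    exact ⟨(ctr_mem f).2 ((hS f).1 (hf 0)), (B1_ctr f).black⟩
  · rintro _ ⟨f, rfl, hf⟩
    exact ⟨par m f, pri_ctr m f, fun n => hf (n + 1)⟩

theorem inj {m m' : Pt → Pt} (hm : IsPM T.V m) (hm' : IsPM T.V m') (h : par m = par m') :
    m = m' := by
  have h1 : ∀ b, B1 b → m b = m' b := by
    intro b hb
    obtain ⟨f, rfl⟩ := exists_ctr hb
    exact sub_left_injective (add_left_cancel (congrFun h f))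
  have h2 := no_closed hm {p | p ∈ T.V ∧ B0 p ∧ m p ≠ m' p} (fun b hb => ⟨hb.1, hb.2.1.black⟩) (by
    rintro p ⟨hp, h0, hne⟩
    have hw := F.IsPM.mem hm hp
    have hwh := F.IsPM.white hm hp h0.black
    have hq : m' (m p) ≠ p := fun e => hne (by
      have := congrArg m' e
      rwa [hm'.invol] at this)
    have hq' : m (m' (m p)) ≠ m' (m' (m p)) := by
      rw [hm'.invol]
      exact fun e => hq (F.IsPM.inj hm e)
    have hb : B0 (m' (m p)) :=
      (black_iff.1 (F.IsPM.black hm' hw hwh)).resolve_right fun hb => hq' (h1 _ hb)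
    rw [pri, ← eq_mirror h0 hb (hm.adj p hp) (hm'.adj _ hw) hq]
    exact ⟨F.IsPM.mem hm' hw, hb, hq'⟩)
  have h3 : ∀ b ∈ T.V, Black b → m b = m' b := by
    intro b hb hbl
    rcases black_iff.1 hbl with h0 | h0
    · by_contra hne
      exact h2 b ⟨hb, h0, hne⟩
    · exact h1 b h0
  funext v
  by_cases hv : v ∈ T.V
  · by_cases hbl : Black v
    · exact h3 v hv hbl
    · have := h3 _ (F.IsPM.mem hm hv) (F.IsPM.black hm hv (white_iff_not_black.2 hbl))
      rw [hm.invol] at this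
      rw [this, hm'.invol, ← this]
  · rw [hm.off v hv, hm'.off v hv]

/-- the white vertex between a cell and its parent -/
def wd (φ : Pt → Pt) (f : Pt) : Pt := ctr f + (φ f - f)

theorem par_of_adj {φ : Pt → Pt} {f g : Pt} (h : Adj g (φ g)) (h' : Adj (ctr f) (wd φ g))
    (hne : g ≠ f) : φ g = f := by
  obtain ⟨a, b⟩ := f
  obtain ⟨c, d⟩ := g
  rw [Ne, Prod.mk.injEq] at hne
  unfold wd at h'
  rcases F.adj_cases h with e | e | e | e <;> rw [e] at h' ⊢ <;>
    rcases F.adj_cases h' with e' | e' | e' | e' <;>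
    simp only [ctr, Prod.mk.injEq, Prod.mk_add_mk, Prod.mk_sub_mk] at e' ⊢ <;> omega

open Classical in
theorem rank_lt {φ : Pt → Pt} (hφ : IsFor S φ) {f : Pt} (hf : f ∈ S) :
    Nat.find (hφ.esc (φ f)) < Nat.find (hφ.esc f) := by
  have h1 := Nat.find_spec (hφ.esc f)
  obtain h0 | ⟨n, hn⟩ := Nat.eq_zero_or_eq_succ_pred (Nat.find (hφ.esc f)) |>.imp id
    (fun h => (⟨_, h⟩ : ∃ n, Nat.find (hφ.esc f) = n + 1))
  · rw [h0] at h1
    exact absurd hf h1
  · rw [hn] at h1 ⊢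
    exact Nat.lt_succ_of_le (Nat.find_min' _ h1)

theorem wd_inj {φ : Pt → Pt} (hφ : IsFor S φ) {f g : Pt} (hf : f ∈ S) (hg : g ∈ S)
    (h : wd φ f = wd φ g) : f = g := by
  by_contra hne
  have e1 := par_of_adj (hφ.adj g hg) (h ▸ adj_shift (hφ.adj f hf) (ctr f)) (Ne.symm hne)
  have e2 := par_of_adj (hφ.adj f hf) (h ▸ adj_shift (hφ.adj g hg) (ctr g)) hne
  have l1 := rank_lt hφ hf
  have l2 := rank_lt hφ hg
  simp only [e1, e2] at l1 l2
  omega

theorem K_ne {w b : Pt} (h : Adj w b) : K w b ≠ 0 := by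
  intro e
  have := F.abs_K_eq h
  rw [e] at this
  simp at this

include hS in
theorem nbr_mem {f w : Pt} (hf : f ∈ S) (hw : Adj (ctr f) w) : w ∈ T.V ∧ White w :=
  have hwh := hw.white (B1_ctr f).black
  ⟨(Temp.white_mem_V hwh).2 ((Temp.isCl T).nbr_mem
    (Temp.V_subset ((ctr_mem f).2 ((hS f).1 hf))) (B1_ctr f) (mem_nbrs.2 hw)), hwh⟩

include hS in
theorem surj {φ : Pt → Pt} (hφ : IsFor S φ) : ∃ m, IsPM T.V m ∧ par m = φ := by
  classical
  obtain ⟨m, hm, hy⟩ := exi (T := T)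
      (fun w b => if ∃ f ∈ S, b = ctr f ∧ w ≠ wd φ f then 0 else 1) (by
    intro u hu h
    have hu1 : ∀ f, f ∉ S → u (ctr f) = 0 := fun f hf =>
      hu _ fun h => hf ((hS f).2 ((ctr_mem f).1 h))
    have hA : ∀ w ∈ T.V, White w → (∀ f ∈ S, w ≠ wd φ f) → Kop (r0 u) w = 0 := by
      intro w hw hwh hne
      rw [← h w hw hwh]
      refine Kop_congr fun b hb => ?_
      rcases black_iff.1 ((mem_nbrs.1 hb).black hwh) with h0 | h0
      · rw [r0_of h0, if_neg, one_mul]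
        rintro ⟨f, -, rfl, -⟩
        exact not_B0_of_B1 (B1_ctr f) h0
      · rw [r0_of_B1 h0]
        obtain ⟨f, rfl⟩ := exists_ctr h0
        by_cases hf : f ∈ S
        · rw [if_pos ⟨f, hf, rfl, hne f hf⟩, zero_mul]
        · rw [hu1 f hf, mul_zero]
    have hB : ∀ f ∈ S, Kop (r0 u) (wd φ f) = 0 := by
      by_contra hn
      push Not at hn
      obtain ⟨f0, hf0, hne0⟩ := hn
      obtain ⟨f, hf, hmax⟩ := exists_max_image (S.filter fun f => Kop (r0 u) (wd φ f) ≠ 0)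
        (fun f => Nat.find (hφ.esc f)) ⟨f0, mem_filter.2 ⟨hf0, hne0⟩⟩
      obtain ⟨hf, hne⟩ := mem_filter.1 hf
      have hadj : Adj (ctr f) (wd φ f) := adj_shift (hφ.adj f hf) _
      have h1 := KTop_Kop_r0 (f := u) (B1_ctr f)
      rw [← sum_nbrs_KT, sum_eq_single (wd φ f)] at h1
      · exact mul_ne_zero (K_ne (adj_comm.1 hadj)) hne h1
      · intro w hw hw'
        have hw := mem_nbrs.1 hw
        refine mul_eq_zero_of_right _ ?_
        by_cases hex : ∃ g ∈ S, w = wd φ g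
        · obtain ⟨g, hg, rfl⟩ := hex
          by_contra hg'
          have e := par_of_adj (hφ.adj g hg) hw fun e => hw' (by rw [e])
          have l1 := rank_lt hφ hg
          have l2 := hmax g (mem_filter.2 ⟨hg, hg'⟩)
          simp only [e] at l1
          omega
        · push Not at hex
          exact hA w (nbr_mem hS hf hw).1 (nbr_mem hS hf hw).2 hex
      · exact fun hw => absurd (mem_nbrs.2 hadj) hw
    have hC : ∀ b, B0 b → u b = 0 := by
      intro b hb
      rw [← r0_of (f := u) hb]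
      refine Temp.kernel (T := T) (fun b hb => ?_) (fun w hw hwh => ?_) b hb.black
      · unfold r0
        rw [hu b hb, ite_self]
      · by_cases hex : ∃ g ∈ S, w = wd φ g
        · obtain ⟨g, hg, rfl⟩ := hex
          exact hB g hg
        · push Not at hex
          exact hA w hw hwh hex
    intro b hb hbl
    rcases black_iff.1 hbl with h0 | h0
    · exact hC b h0
    obtain ⟨f, rfl⟩ := exists_ctr h0
    have hf : f ∈ S := (hS f).2 ((ctr_mem f).1 hb)
    have hadj : Adj (ctr f) (wd φ f) := adj_shift (hφ.adj f hf) _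
    obtain ⟨hw, hwh⟩ := nbr_mem hS hf hadj
    have h1 := h _ hw hwh
    rw [← sum_nbrs_K, sum_eq_single (ctr f), if_neg, one_mul] at h1
    · exact (mul_eq_zero.1 h1).resolve_left (K_ne (adj_comm.1 hadj))
    · rintro ⟨g, -, e, hne⟩
      exact hne (by rw [ctr_inj e])
    · intro b hb hb'
      refine mul_eq_zero_of_right _ ?_
      rcases black_iff.1 ((mem_nbrs.1 hb).black hwh) with h2 | h2
      · rw [hC b h2, mul_zero]
      · obtain ⟨g, rfl⟩ := exists_ctr h2
        by_cases hg : g ∈ S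
        · rw [if_pos ⟨g, hg, rfl, fun e => hb' (by rw [wd_inj hφ hf hg e])⟩, zero_mul]
        · rw [hu1 g hg, mul_zero]
    · exact fun hb => absurd (mem_nbrs.2 (adj_comm.1 hadj)) hb)
  refine ⟨m, hm, funext fun f => ?_⟩
  by_cases hf : f ∈ S
  · have hc : ctr f ∈ T.V := (ctr_mem f).2 ((hS f).1 hf)
    have h1 := hy _ (F.IsPM.mem hm hc) (F.IsPM.white hm hc (B1_ctr f).black)
    have h2 : m (ctr f) = wd φ f := by
      by_contra hne
      exact h1 (if_pos ⟨f, hf, hm.invol _, hne⟩)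
    rw [par, h2, wd]
    abel
  · rw [par_off hS hm hf, hφ.off f hf]

end TB

theorem rowAcP : RowAcP := fun _ _ hm _ hp h0 => TB.acp (mem_PM.1 hm) hp h0

theorem rowTB : RowTB := fun _ _ hS =>
  ⟨fun _ hm => TB.maps hS hm, fun _ hm _ hm' h => TB.inj hm hm' h, fun _ hφ => TB.surj hS hφ⟩

end Vale.Agent.Q155
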