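import Vale.Agent.Q155.GLUE
import Vale.Agent.Q155.TB
import Vale.Agent.Q155.DET
import Vale.Agent.Q155.FOR
import Vale.Agent.Q155.NET
import Vale.Agent.Q155.LOC
import Vale.Agent.Q155.LIM
import Vale.Agent.Q155.APX
import Vale.Agent.Q155.CONF
import Vale.Agent.Q155.PUSH

/-!
# P155 in the upper half-plane: the theorem, from the theorem in bounded domains
-/

namespace Vale.Agent.Q155

open MeasureTheory Filter Topology Vale.Agent.P155 Vale.Agent.P155.Q1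

theorem loc : RowLOC :=
  rowLOC rowTB (rowDET rowAcP) rowPos rowW1 rowMono (rowNET rowPos rowW1 rowW2)

/-- the definition of `LH` has no junk value for pairs of perfect matchings -/
theorem sane (δ : ℝ) (a : ℂ) (ω : Conf) (hδ : 0 < δ) (ha : 0 ≤ a.im) (h1 : IsHPM ω.1)
    (h2 : IsHPM ω.2) : (∀ v : Pt, 0 ≤ v.2 → Continuous (cay ∘ (lcurve δ a ω v).c)) ∧
    LocFin (Loops ω) (cloop δ a ω) :=
  have h := rowWIN2 δ a ω hδ ha h1.preM h2.preM (supp_of_HPM h1 h2)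
  ⟨h.1, h.2.1⟩

/-- **The half-plane theorem.** -/
theorem half {μ : Measure LoopColl} (h : BD μ) :
    ∃ P, IsHLaw P ∧ (∀ Q, IsHLaw Q → Q = P) ∧ (∀ᵐ m ∂P, IsHPM m) ∧
      (∀ᵐ ω ∂(P.prod P), ∀ v, (comp ω v).Finite) ∧
      ∀ (δ : ℕ → ℝ) (a : ℕ → ℂ), (∀ n, 0 < δ n) → Tendsto δ atTop (𝓝 0) →
        (∀ n, 0 ≤ (a n).im) → Tendsto a atTop (𝓝 0) →
        (∀ n, AEMeasurable (LH (δ n) (a n)) (P.prod P)) ∧
        ∀ F : LoopColl → ℝ, Continuous F → (∃ C, ∀ Γ, |F Γ| ≤ C) →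
          Tendsto (fun n => ∫ ω, F (LH (δ n) (a n) ω) ∂(P.prod P)) atTop (𝓝 (∫ Γ, F Γ ∂μ)) := by
  obtain ⟨P, h1, h2, h3, h4⟩ := rowLIM loc rowBOX
  have := h1.1
  refine ⟨P, h1, h2, h3, GLUE.fin_comp rowAPX rowCONF rowPUSH rowBIG rowDEP rowWIN2 h h3 h4,
    fun δ a k1 k2 k3 k4 => ⟨fun n => GLUE.aemeas_LH rowDEP rowWIN2 h3 (k1 n) (k3 n), ?_⟩⟩
  intro F hF hb
  exact GLUE.conv rowAPX rowCONF rowPUSH rowBIG rowDEP rowWIN2 h h3 h4 ⟨k1, k2, k3, k4⟩ hF hb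

end Vale.Agent.Q155
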