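import Vale.Agent.P155SG.Final
import Vale.Agent.Q155.Half

/-!
# P155: the assembled theorem
-/

namespace Vale.Agent.Q155

open MeasureTheory Filter Topology Vale.Agent.P155 Vale.Agent.P155.Q1 Vale.Agent.P155.Tree
  Vale.Agent.P155.BL Vale.Agent.P155.Soup

theorem fin_all :
    ((∃ W, IsWiener W) ∧ ∀ W, IsWiener W → ∀ Ω, Dom Ω →
      ∃ (Θ : Type) (_ : MeasurableSpace Θ) (P : Measure Θ) (L : ℕ → Θ → C(S1, ℂ)),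
        IsPoisson P (intensity W Ω) L) ∧
    ∃ μ : Set ℂ → Measure LoopColl, IsSoupCLE μ ∧
      (∀ ν, IsSoupCLE ν → ∀ Ω, Dom Ω → ν Ω = μ Ω) ∧
      (∀ (Ω Ω' : Set ℂ) (f g : ℂ → ℂ), Dom Ω → Dom Ω' → CI.Conf Ω Ω' f g →
        ∃ (Θ : Type) (_ : MeasurableSpace Θ) (Q : Measure Θ) (Γ Γ' : Θ → LoopColl),
          IsProbabilityMeasure Q ∧ AEMeasurable Γ Q ∧ AEMeasurable Γ' Q ∧ Q.map Γ = μ Ω ∧
          Q.map Γ' = μ Ω' ∧ ∀ᵐ x ∂Q, CI.MapsColl Ω Ω' f (Γ x) (Γ' x)) ∧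
      (∀ Ω, Dom Ω → (∃ S : Approx Ω, S.Outer) ∧
        ∀ S : Approx Ω, ((∀ F : LoopColl → ℝ, Continuous F → (∃ C, ∀ Γ, |F Γ| ≤ C) →
          Tendsto (fun n => Ex (S.T n).V (fun ω => F (LL (S.δ n) (S.a n) ω))) atTop
            (𝓝 (∫ Γ, F Γ ∂(μ Ω)))) ↔ S.Outer) ∧ (IsConnected (closure Ω)ᶜ → S.Outer)) ∧
      (∃ T, Exh T) ∧
      (∀ (δ : ℝ) (a : ℂ) (ω : Conf), 0 < δ → 0 ≤ a.im → IsHPM ω.1 → IsHPM ω.2 →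
        (∀ v : Pt, 0 ≤ v.2 → Continuous (cay ∘ (lcurve δ a ω v).c)) ∧
        LocFin (Loops ω) (cloop δ a ω)) ∧
      ∃ P, IsHLaw P ∧ (∀ Q, IsHLaw Q → Q = P) ∧ (∀ᵐ m ∂P, IsHPM m) ∧
        (∀ᵐ ω ∂(P.prod P), ∀ v, (comp ω v).Finite) ∧
        ∀ (δ : ℕ → ℝ) (a : ℕ → ℂ), (∀ n, 0 < δ n) → Tendsto δ atTop (𝓝 0) →
          (∀ n, 0 ≤ (a n).im) → Tendsto a atTop (𝓝 0) →
          (∀ n, AEMeasurable (LH (δ n) (a n)) (P.prod P)) ∧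
          ∀ F : LoopColl → ℝ, Continuous F → (∃ C, ∀ Γ, |F Γ| ≤ C) →
            Tendsto (fun n => ∫ ω, F (LH (δ n) (a n) ω) ∂(P.prod P)) atTop
              (𝓝 (∫ Γ, F Γ ∂(μ (Metric.ball 0 1)))) := by
  obtain ⟨h1, μ, h2, h3, h4⟩ := final_c SG.mgec
  obtain ⟨e1, e2⟩ := QQ.exact_of NT613.vbp2
  have hn : ∀ Ω, Dom Ω → IsNestedCLE4 Ω (μ Ω) := by
    intro Ω hΩ
    obtain ⟨⟨S, hS⟩, ν, hp, hν, -, hc⟩ := e1 Ω hΩ.1 hΩ.2.1 hΩ.2.2.1 hΩ.2.2.2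
    have := h2.prob Ω hΩ
    have e : μ Ω = ν := EX211.measure_ext fun F hF hb =>
      tendsto_nhds_unique (((h4 Ω hΩ).2 S).1.2 hS F hF hb) ((hc S).1.2 hS F hF hb)
    rw [e]
    exact hν
  have hci : ∀ (Ω Ω' : Set ℂ) (f g : ℂ → ℂ), Dom Ω → Dom Ω' → CI.Conf Ω Ω' f g →
      ∃ (Θ : Type) (_ : MeasurableSpace Θ) (Q : Measure Θ) (Γ Γ' : Θ → LoopColl),
        IsProbabilityMeasure Q ∧ AEMeasurable Γ Q ∧ AEMeasurable Γ' Q ∧ Q.map Γ = μ Ω ∧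
        Q.map Γ' = μ Ω' ∧ ∀ᵐ x ∂Q, CI.MapsColl Ω Ω' f (Γ x) (Γ' x) :=
    fun Ω Ω' f g hΩ hΩ' hc =>
      e2 Ω Ω' f g hΩ.2.1 hΩ'.2.1 hΩ.2.2.1 hΩ'.2.2.2 hc _ _ (hn Ω hΩ) (hn Ω' hΩ')
  have hD : Dom (Metric.ball (0 : ℂ) 1) := by
    refine ⟨Metric.isOpen_ball, Metric.isBounded_ball, Metric.nonempty_ball.2 one_pos, ?_⟩
    have := (convex_ball (0 : ℂ) 1).contractibleSpace (Metric.nonempty_ball.2 one_pos)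
    infer_instance
  refine ⟨h1, μ, h2, h3, hci, h4, rowBOX, sane, half ?_⟩
  intro R f g hR hc
  have hH : Dom (HD R) := (rowCONF R hR).1
  obtain ⟨Θ, _, Q, Γ, Γ', k1, k2, k3, k4, k5, k6⟩ := hci _ _ f g hH hD hc
  refine ⟨Θ, _, Q, Γ, Γ', k1, k2, k3, k5, k6, fun T δ a hg hT => ?_⟩
  rw [k4]
  exact ((h4 _ hH).2 ⟨T, δ, a, hg.pos, hg.mesh, hT.cara₁, hT.cara₂, hT.haus₁, hT.haus₂⟩).1.2
    hT.outer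

end Vale.Agent.Q155
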