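import Vale.Agent.Q155.WIN
import Vale.Agent.P155.EX211.Metr
import Vale.Agent.P155.A.TempMain

/-!
# P155 in the upper half-plane: from half-discs to the half-plane
-/

namespace Vale.Agent.Q155

open MeasureTheory Filter Topology Vale.Agent.P155 Vale.Agent.P155.Q1

/-- The input from bounded domains: convergence in half-discs, and conformal invariance. -/
def BD (μ : Measure LoopColl) : Prop := ∀ (R : ℝ) (f g : ℂ → ℂ), 0 < R →
  CI.Conf (HD R) (Metric.ball 0 1) f g →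
  ∃ (Θ : Type) (_ : MeasurableSpace Θ) (Q : Measure Θ) (Γ Γ' : Θ → LoopColl),
    IsProbabilityMeasure Q ∧ AEMeasurable Γ Q ∧ AEMeasurable Γ' Q ∧ Q.map Γ' = μ ∧
    (∀ᵐ x ∂Q, CI.MapsColl (HD R) (Metric.ball 0 1) f (Γ x) (Γ' x)) ∧
    ∀ (T : ℕ → Temp) (δ : ℕ → ℝ) (a : ℕ → ℂ), Grid δ a → Conv (HD R) T δ a →
      ∀ F : LoopColl → ℝ, Continuous F → (∃ C, ∀ Γ, |F Γ| ≤ C) →
      Tendsto (fun n => Ex (T n).V (fun ω => F (LL (δ n) (a n) ω))) atTop
        (𝓝 (∫ Γ, F Γ ∂(Q.map Γ)))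

namespace GLUE

/-! ### averages over pairs of matchings -/

theorem Ex_eq (V : Finset Pt) (g : Conf → ℝ) :
    Ex V g = ((DD V).card : ℝ)⁻¹ * ∑ ω ∈ DD V, g ω := rfl

theorem Ex_mono {V : Finset Pt} {g g' : Conf → ℝ} (h : ∀ ω ∈ DD V, g ω ≤ g' ω) :
    Ex V g ≤ Ex V g' := by
  rw [Ex_eq, Ex_eq]
  exact mul_le_mul_of_nonneg_left (Finset.sum_le_sum h) (by positivity)

theorem Ex_add (V : Finset Pt) (g g' : Conf → ℝ) :
    Ex V (fun ω => g ω + g' ω) = Ex V g + Ex V g' := by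
  rw [Ex_eq, Ex_eq, Ex_eq, Finset.sum_add_distrib, mul_add]

theorem Ex_const (T : Temp) (c : ℝ) : Ex T.V (fun _ => c) = c := by
  have h : (0 : ℝ) < (DD T.V).card := by
    have := Temp.Z_V_pos T
    unfold DD
    rw [Finset.card_product]
    exact_mod_cast Nat.mul_pos this this
  rw [Ex_eq, Finset.sum_const, nsmul_eq_mul, ← mul_assoc, inv_mul_cancel₀ h.ne', one_mul]

theorem Ex_abs (T : Temp) {g g' h : Conf → ℝ} {ε : ℝ}
    (hh : ∀ ω ∈ DD T.V, |g ω - g' ω| ≤ ε + h ω) : |Ex T.V g - Ex T.V g'| ≤ ε + Ex T.V h := by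
  have k1 : Ex T.V g ≤ Ex T.V (fun ω => g' ω + (ε + h ω)) :=
    Ex_mono fun ω hω => by linarith [(abs_le.1 (hh ω hω)).2]
  have k2 : Ex T.V g' ≤ Ex T.V (fun ω => g ω + (ε + h ω)) :=
    Ex_mono fun ω hω => by linarith [(abs_le.1 (hh ω hω)).1]
  rw [Ex_add, Ex_add, Ex_const] at k1 k2
  rw [abs_le]
  constructor <;> linarith

theorem mem_DD {V : Finset Pt} {ω : Conf} : ω ∈ DD V ↔ IsPM V ω.1 ∧ IsPM V ω.2 := by
  unfold DD
  rw [Finset.mem_product, mem_PM, mem_PM]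

theorem comp_finite {V : Finset Pt} {ω : Conf} (hω : ω ∈ DD V) (v : Pt) : (comp ω v).Finite := by
  obtain ⟨h1, h2⟩ := mem_DD.1 hω
  have key : ∀ {m : Pt → Pt}, IsPM V m → ∀ u, m u = u ∨ m u ∈ V := by
    intro m hm u
    by_cases h : m u ∈ V
    · exact Or.inr h
    · left
      have := hm.off _ h
      rw [hm.invol] at this
      exact this.symm
  refine (V.finite_toSet.insert v).subset fun u hu => ?_
  induction hu with
  | refl => exact Set.mem_insert _ _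
  | tail _ hs ih =>
    rcases hs with rfl | rfl
    · rcases key h1 _ with e | e
      · rw [e]; exact ih
      · exact Or.inr e
    · rcases key h2 _ with e | e
      · rw [e]; exact ih
      · exact Or.inr e

theorem comp_finite_of_eq {ω : Conf} (h1 : ∀ v, ω.1 (ω.1 v) = v) (h2 : ∀ v, ω.2 (ω.2 v) = v)
    {v : Pt} (h : ω.1 v = ω.2 v) : (comp ω v).Finite := by
  refine (Set.toFinite {v, ω.1 v}).subset fun u hu => ?_
  induction hu with
  | refl => exact Or.inl rfl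
  | tail _ hs ih =>
    rcases ih with rfl | e
    · rcases hs with rfl | rfl
      · exact Or.inr rfl
      · exact Or.inr h.symm
    · rw [Set.mem_singleton_iff] at e
      subst e
      rcases hs with rfl | rfl
      · exact Or.inl (h1 v)
      · left
        rw [h, h2]

/-! ### measurability -/

theorem meas_of_dep {α : Type*} [MeasurableSpace α] {W : Finset Pt} {g : Conf → α}
    (h : Dep2 W g) : Measurable g := by
  classical
  let res : Conf → (W → Pt) × (W → Pt) := fun ω => (fun v => ω.1 v, fun v => ω.2 v)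
  let ext : (W → Pt) × (W → Pt) → Conf := fun x =>
    (fun v => if hv : v ∈ W then x.1 ⟨v, hv⟩ else v, fun v => if hv : v ∈ W then x.2 ⟨v, hv⟩ else v)
  have e : g = (g ∘ ext) ∘ res := by
    funext ω
    refine h _ _ fun v hv => ?_
    simp [ext, res, hv]
  rw [e]
  refine (measurable_of_countable _).comp ?_
  refine Measurable.prodMk ?_ ?_
  · exact measurable_pi_lambda _ fun v => (measurable_pi_apply _).comp measurable_fst
  · exact measurable_pi_lambda _ fun v => (measurable_pi_apply _).comp measurable_snd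

open Classical in
/-- the indicator of `Cross` -/
noncomputable def cr (s r : ℕ) (ω : Conf) : ℝ := if Cross s r ω then 1 else 0

theorem cr_mem (s r : ℕ) (ω : Conf) : 0 ≤ cr s r ω ∧ cr s r ω ≤ 1 := by
  unfold cr
  split_ifs <;> norm_num

theorem cr_dep (hD : RowDEP) {s r : ℕ} (h : s ≤ r) : Dep2 (Win r) (cr s r) := by
  intro ω ω' e
  unfold cr
  rw [(hD 1 0 s r).2 h ω ω' e]

theorem ae_pre {P : Measure (Pt → Pt)} [IsProbabilityMeasure P] (h : ∀ᵐ m ∂P, IsHPM m) :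
    ∀ᵐ ω ∂(P.prod P), PreM ω.1 ∧ PreM ω.2 ∧ ∀ v, ω.1 v = v ↔ ω.2 v = v := by
  have h1 : ∀ᵐ ω ∂(P.prod P), IsHPM ω.1 := Measure.quasiMeasurePreserving_fst.ae h
  have h2 : ∀ᵐ ω ∂(P.prod P), IsHPM ω.2 := Measure.quasiMeasurePreserving_snd.ae h
  filter_upwards [h1, h2] with ω a b using ⟨a.preM, b.preM, supp_of_HPM a b⟩

theorem aemeas_LH (hD : RowDEP) (hW : RowWIN2) {P : Measure (Pt → Pt)} [IsProbabilityMeasure P]
    (h : ∀ᵐ m ∂P, IsHPM m) {δ : ℝ} {a : ℂ} (hδ : 0 < δ) (ha : 0 ≤ a.im) :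
    AEMeasurable (LH δ a) (P.prod P) := by
  refine aemeasurable_of_tendsto_metrizable_ae' (f := fun r => LW δ a r)
    (fun r => (meas_of_dep (hD δ a r r).1).aemeasurable) ?_
  filter_upwards [ae_pre h] with ω hω using (hW δ a ω hδ ha hω.1 hω.2.1 hω.2.2).2.2.1

/-! ### the events `Big` have small probability -/

theorem Big_mono {c c' η η' : ℝ} (hc : c' ≤ c) (hη : η ≤ η') : Big c η ⊆ Big c' η' := by
  rintro Γ ⟨γ, h1, h2, t, h3⟩
  exact ⟨γ, h1, hc.trans h2, t, h3.trans hη⟩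

theorem mem_closure_iff' {A : Set LoopColl} {Γ : LoopColl} (h : Γ ∈ closure A) {ε : ℝ}
    (hε : 0 < ε) : ∃ Γ' ∈ A, close ε Γ' Γ := by
  have hb : (𝓝 Γ).HasBasis (fun ε : ℝ => 0 < ε) (fun ε => {Γ' | close ε Γ Γ'}) :=
    nhds_basis_uniformity' hasBasis
  obtain ⟨Γ', h1, h2⟩ := (mem_closure_iff_nhds_basis hb).1 h ε hε
  exact ⟨Γ', h1, close_symm h2⟩

theorem big_small (hB : RowBIG) {μ : Measure LoopColl} [IsProbabilityMeasure μ]
    (hμ : ∀ A : Set LoopColl, MeasurableSet A → (∀ Γ ∈ A, ¬ ∀ γ : PL,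
      Γ.mult (SeparationQuotient.mk γ) ≠ 0 → Set.range γ.c ⊆ Metric.ball 0 1) → μ A = 0)
    {c ε : ℝ} (hc : 0 < c) (hε : 0 < ε) :
    ∃ η : ℝ, 0 < η ∧ ∃ F : LoopColl → ℝ, Continuous F ∧ (∀ Γ, 0 ≤ F Γ ∧ F Γ ≤ 1) ∧
      (∀ Γ ∈ Big c η, F Γ = 1) ∧ ∫ Γ, F Γ ∂μ < ε := by
  let C : ℕ → Set LoopColl := fun k => closure (Big c (1 / ((k : ℝ) + 1)))
  have hanti : Antitone C := fun k l hkl => closure_mono (Big_mono le_rfl
    (Nat.one_div_le_one_div hkl))
  have h0 : μ (⋂ k, C k) = 0 := by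
    refine hμ _ (MeasurableSet.iInter fun k => isClosed_closure.measurableSet) ?_
    intro Γ hΓ hin
    obtain ⟨η, hη, hn⟩ := hB.2 (c / 2) Γ (by positivity) hin
    obtain ⟨k, hk⟩ := exists_nat_one_div_lt (show 0 < η / 2 by positivity)
    obtain ⟨Γ', h1, h2⟩ := mem_closure_iff' (Set.mem_iInter.1 hΓ k)
      (show 0 < min (c / 4) (η / 4) by positivity)
    have m1 := min_le_left (c / 4) (η / 4)
    have m2 := min_le_right (c / 4) (η / 4)
    exact hn (Big_mono (by linarith) (by linarith)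
      (hB.1 _ _ _ _ _ (by positivity) (by linarith) h2 h1))
  have h1 := tendsto_measure_iInter_atTop (μ := μ)
    (fun k => (isClosed_closure.measurableSet : MeasurableSet (C k)).nullMeasurableSet) hanti
    ⟨0, measure_ne_top _ _⟩
  rw [h0] at h1
  have hε' : (0 : ENNReal) < ENNReal.ofReal ε := ENNReal.ofReal_pos.2 hε
  obtain ⟨k, hk⟩ := (h1.eventually (gt_mem_nhds hε')).exists
  have hcl : IsClosed (C k) := isClosed_closure
  have h2 := HasOuterApproxClosed.tendsto_lintegral_apprSeq hcl μ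
  obtain ⟨j, hj⟩ := (h2.eventually (gt_mem_nhds hk)).exists
  refine ⟨1 / ((k : ℝ) + 1), by positivity, fun Γ => (hcl.apprSeq j Γ : ℝ), ?_, ?_, ?_, ?_⟩
  · exact NNReal.continuous_coe.comp (hcl.apprSeq j).continuous
  · intro Γ
    exact ⟨NNReal.coe_nonneg _, by exact_mod_cast HasOuterApproxClosed.apprSeq_apply_le_one hcl j Γ⟩
  · intro Γ hΓ
    show ((hcl.apprSeq j Γ : NNReal) : ℝ) = 1
    rw [HasOuterApproxClosed.apprSeq_apply_eq_one hcl j (subset_closure hΓ)]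
    rfl
  · rw [← BoundedContinuousFunction.toReal_lintegral_coe_eq_integral]
    exact ENNReal.toReal_lt_of_lt_ofReal hj

theorem bd_prob (hC : RowCONF) {μ : Measure LoopColl} (h : BD μ) : IsProbabilityMeasure μ := by
  obtain ⟨-, f, g, hfg, -⟩ := hC 1 one_pos
  obtain ⟨Θ, _, Q, Γ, Γ', hQ, -, h2, rfl, -⟩ := h 1 f g one_pos hfg
  exact Measure.isProbabilityMeasure_map h2

theorem bd_in (hC : RowCONF) {μ : Measure LoopColl} (h : BD μ) (A : Set LoopColl)
    (hA : MeasurableSet A) (hn : ∀ Γ ∈ A, ¬ ∀ γ : PL,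
      Γ.mult (SeparationQuotient.mk γ) ≠ 0 → Set.range γ.c ⊆ Metric.ball 0 1) : μ A = 0 := by
  obtain ⟨-, f, g, hfg, -⟩ := hC 1 one_pos
  obtain ⟨Θ, _, Q, Γ, Γ', hQ, -, h2, rfl, h3, -⟩ := h 1 f g one_pos hfg
  rw [Measure.map_apply_of_aemeasurable h2 hA]
  refine measure_mono_null ?_ (ae_iff.1 h3)
  intro x hx hm
  exact hn _ hx hm.right

/-! ### the half-disc approximants -/

theorem stepA (hA : RowAPX) (hC : RowCONF) (hP : RowPUSH) {μ : Measure LoopColl} (h : BD μ)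
    {δ : ℕ → ℝ} {a : ℕ → ℂ} (hg : Grid δ a) {R : ℝ} (hR : 0 < R) :
    ∃ (T : ℕ → Temp) (X : ℕ → Conf → LoopColl),
      (∀ F : LoopColl → ℝ, Continuous F → (∃ C, ∀ Γ, |F Γ| ≤ C) →
        Tendsto (fun n => Ex (T n).V (fun ω => F (X n ω))) atTop (𝓝 (∫ Γ, F Γ ∂μ))) ∧
      ∀ᶠ n in atTop, (∀ ω ∈ DD (T n).V, close (4 / R) (X n ω) (LH (δ n) (a n) ω)) ∧
        ∀ r : ℕ, 2 * (δ n * r) ≤ R → Fit (T n) r := by
  obtain ⟨T, hT, hT2⟩ := hA R δ a hR hg
  obtain ⟨-, f, g, hfg, hf, hcl⟩ := hC R hR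
  obtain ⟨p1, p2, p3⟩ := hP f hf
  obtain ⟨Θ, _, Q, Γ, Γ', hQ, h1, h2, rfl, h3, h4⟩ := h R f g hR hfg
  refine ⟨T, fun n ω => push f (LL (δ n) (a n) ω), ?_, ?_⟩
  · intro F hF hb
    have hc : Continuous (fun Γ => F (push f Γ)) := hF.comp p1.continuous
    have k := h4 T δ a hg hT (fun Γ => F (push f Γ)) hc (hb.imp fun C hC Γ => hC _)
    rw [integral_map h1 hc.aestronglyMeasurable] at k
    rw [integral_map h2 hF.aestronglyMeasurable]
    convert k using 2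
    refine integral_congr_ae ?_
    filter_upwards [h3] with x hx
    rw [p2 _ _ g _ _ hfg hx]
  · filter_upwards [hT2] with n hn
    refine ⟨fun ω hω => ?_, hn.2⟩
    have := p3 (T n).V R (2 / R) (δ n) (a n) (by positivity) (hg.pos n) hn.1 hcl ω hω
    rwa [show 2 * (2 / R) = 4 / R by ring] at this

theorem ceil_bd {δ x : ℝ} (hδ : 0 < δ) (hδ1 : δ ≤ 1) (hx : 0 < x) :
    x ≤ δ * (⌈x / δ⌉₊ : ℕ) ∧ δ * (⌈x / δ⌉₊ : ℕ) ≤ x + 1 := by
  have h1 := Nat.le_ceil (x / δ)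
  have h2 := (Nat.ceil_lt_add_one (show 0 ≤ x / δ by positivity)).le
  rw [div_le_iff₀ hδ] at h1
  have h3 : δ * (⌈x / δ⌉₊ : ℕ) ≤ δ * (x / δ + 1) := mul_le_mul_of_nonneg_left h2 hδ.le
  rw [mul_add, mul_div_cancel₀ _ hδ.ne'] at h3
  constructor <;> linarith

/-- the main approximation lemma -/
theorem stepB (hA : RowAPX) (hC : RowCONF) (hP : RowPUSH) (hB : RowBIG) (hW : RowWIN2)
    {μ : Measure LoopColl} (h : BD μ) {δ : ℕ → ℝ} {a : ℕ → ℂ} (hg : Grid δ a)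
    (K : ℕ) {ε σ η : ℝ} (hε : 0 < ε) (hσ : 0 < σ) (hη : 0 < η) :
    ∃ (T : ℕ → Temp) (X : ℕ → Conf → LoopColl) (s r : ℕ → ℕ),
      (∀ F : LoopColl → ℝ, Continuous F → (∃ C, ∀ Γ, |F Γ| ≤ C) →
        Tendsto (fun n => Ex (T n).V (fun ω => F (X n ω))) atTop (𝓝 (∫ Γ, F Γ ∂μ))) ∧
      ∀ᶠ n in atTop, (∀ ω ∈ DD (T n).V, close η (X n ω) (LH (δ n) (a n) ω)) ∧
        Fit (T n) (K * r n) ∧ 1 ≤ r n ∧ s n ≤ r n ∧ σ + ‖a n‖ ≤ δ n * s n ∧
        Ex (T n).V (cr (s n) (r n)) ≤ ε := by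
  have := bd_prob hC h
  set u : ℝ := 2 * σ + 6 with hu
  have hu0 : 0 < u := by positivity
  obtain ⟨θ, hθ, F, hF, hF01, hF1, hFε⟩ := big_small hB (bd_in hC h)
    (c := 1 / (2 * u)) (by positivity) hε
  set t : ℝ := 2 * u + 4 / θ with ht
  have ht0 : 0 < t := by positivity
  have htu : 2 * u ≤ t := by
    have : 0 < 4 / θ := by positivity
    linarith
  have ht1 : 2 / t ≤ θ / 2 := by
    rw [div_le_div_iff₀ ht0 two_pos]
    have : θ * (4 / θ) = 4 := by field_simp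
    nlinarith
  have ht2 : 2 / t ≤ 1 / u := by
    rw [div_le_div_iff₀ ht0 hu0]
    linarith
  set R : ℝ := 2 * (K * (t + 2)) + 16 * u + 16 / θ + 4 / η with hR
  have hK0 : (0 : ℝ) ≤ 2 * (K * (t + 2)) := by positivity
  have q1 : 0 < 16 / θ := by positivity
  have q2 : 0 < 4 / η := by positivity
  have hR0 : 0 < R := by positivity
  have r1 : 4 / R ≤ η := by
    rw [div_le_iff₀ hR0]
    have : η * (4 / η) = 4 := by field_simp
    nlinarith
  have r2 : 4 / R ≤ θ / 4 := by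
    rw [div_le_div_iff₀ hR0 four_pos]
    have : θ * (16 / θ) = 16 := by field_simp
    nlinarith
  have r3 : 4 / R ≤ 1 / (4 * u) := by
    rw [div_le_div_iff₀ hR0 (by positivity)]
    linarith
  have r4 : 1 / u = 4 * (1 / (4 * u)) := by field_simp
  have r5 : 1 / (2 * u) = 2 * (1 / (4 * u)) := by field_simp; norm_num
  have r6 : 2 / u = 2 * (1 / u) := by ring
  have r7 : 0 < 1 / (4 * u) := by positivity
  obtain ⟨T, X, k1, k2⟩ := stepA hA hC hP h hg hR0
  refine ⟨T, X, fun n => ⌈(σ + 1) / δ n⌉₊, fun n => ⌈(t + 1) / δ n⌉₊, k1, ?_⟩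
  have e1 := (k1 F hF ⟨1, fun Γ => abs_le.2 ⟨by linarith [(hF01 Γ).1], (hF01 Γ).2⟩⟩).eventually
    (gt_mem_nhds hFε)
  have e2 : ∀ᶠ n in atTop, δ n < 1 := hg.mesh.eventually (gt_mem_nhds one_pos)
  have e3 : ∀ᶠ n in atTop, ‖a n‖ < 1 := by
    have := hg.orig.norm
    rw [norm_zero] at this
    exact this.eventually (gt_mem_nhds one_pos)
  filter_upwards [k2, e1, e2, e3] with n hn h1 h2 h3
  have hδ := hg.pos n
  obtain ⟨s1, s2⟩ := ceil_bd hδ h2.le (show 0 < σ + 1 by positivity)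
  obtain ⟨t1, t2⟩ := ceil_bd hδ h2.le (show 0 < t + 1 by positivity)
  have hfit : Fit (T n) (K * ⌈(t + 1) / δ n⌉₊) := by
    refine hn.2 _ ?_
    push_cast
    have : (K : ℝ) * (δ n * (⌈(t + 1) / δ n⌉₊ : ℕ)) ≤ K * (t + 2) :=
      mul_le_mul_of_nonneg_left (by linarith) (Nat.cast_nonneg K)
    nlinarith
  refine ⟨fun ω hω => close_mono r1 (hn.1 ω hω), hfit, ?_, ?_, by linarith, ?_⟩
  · exact Nat.ceil_pos.2 (by positivity)
  · refine Nat.ceil_mono (div_le_div_of_nonneg_right (by linarith) hδ.le)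
  · refine le_trans (Ex_mono fun ω hω => ?_) h1.le
    unfold cr
    split_ifs with hc
    · obtain ⟨m1, m2⟩ := mem_DD.1 hω
      have b1 := (hW (δ n) (a n) ω hδ (hg.im n) (preM_of_isPM hfit.1 m1)
        (preM_of_isPM hfit.1 m2) (supp_of_DD hω)).2.2.2.2 _ _ t u hu0 (by linarith) (by linarith)
        (by linarith) (comp_finite hω) hc
      have b2 := hB.1 _ _ (4 / R) _ _ (by positivity) (by linarith) (close_symm (hn.1 ω hω)) b1
      exact (hF1 _ (Big_mono (by linarith) (by linarith) b2)).ge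
    · exact (hF01 _).1

variable (hA : RowAPX) (hC : RowCONF) (hP : RowPUSH) (hB : RowBIG) (hD : RowDEP) (hW : RowWIN2)
  {μ : Measure LoopColl} (h : BD μ) {P : Measure (Pt → Pt)} [IsProbabilityMeasure P]
  (hH : ∀ᵐ m ∂P, IsHPM m) (hN : Near P)
include hA hC hP hB hD hW h hH hN

/-- all components are finite -/
theorem fin_comp : ∀ᵐ ω ∂(P.prod P), ∀ v, (comp ω v).Finite := by
  rw [ae_all_iff]
  intro v
  have hg : Grid (fun n => 1 / ((n : ℝ) + 1)) (fun _ => 0) :=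
    ⟨fun n => by positivity, tendsto_one_div_add_atTop_nhds_zero_nat, fun _ => le_rfl,
      tendsto_const_nhds⟩
  have key : (P.prod P) {ω | 0 ≤ v.2 ∧ ω.1 v ≠ ω.2 v ∧ ¬ (comp ω v).Finite} = 0 := by
    refine le_antisymm (ENNReal.le_of_forall_pos_le_add fun ε hε _ => ?_) zero_le
    have hε' : (0 : ℝ) < ε / 2 := by positivity
    obtain ⟨K, hK⟩ := hN (ε / 2) hε'
    obtain ⟨T, X, s, r, -, k⟩ := stepB hA hC hP hB hW h hg K hε' one_pos one_pos
    obtain ⟨n, ⟨-, k1, k2, k3, k4, k5⟩, hn⟩ :=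
      (k.and (eventually_ge_atTop (v.1.natAbs + v.2.natAbs))).exists
    have hs : n + 1 ≤ s n := by
      rw [norm_zero, add_zero, one_div, ← div_eq_inv_mul, le_div_iff₀ (by positivity), one_mul]
        at k4
      exact_mod_cast k4
    have k6 := (abs_le.1 (hK (r n) k2 (T n) k1 _ (cr_dep hD k3) (cr_mem _ _))).1
    have hm : MeasurableSet {ω | Cross (s n) (r n) ω} :=
      (meas_of_dep ((hD 1 0 (s n) (r n)).2 k3)).setOf
    have k7 : ∫ ω, cr (s n) (r n) ω ∂(P.prod P) = (P.prod P).real {ω | Cross (s n) (r n) ω} := by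
      rw [← integral_indicator_one hm]
      refine integral_congr_ae (Eventually.of_forall fun ω => ?_)
      unfold cr
      by_cases hc : Cross (s n) (r n) ω
      · rw [if_pos hc, Set.indicator_of_mem (by exact hc)]
        rfl
      · rw [if_neg hc, Set.indicator_of_notMem (by exact hc)]
    calc _ ≤ (P.prod P) {ω | Cross (s n) (r n) ω} := by
          refine measure_mono ?_
          rintro ω ⟨a1, a2, a3⟩
          refine ⟨v, mem_Win.2 (by omega), a2, fun hsub => a3 ?_⟩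
          exact (Win (r n)).finite_toSet.subset hsub
      _ = ENNReal.ofReal ((P.prod P).real {ω | Cross (s n) (r n) ω}) :=
          (ofReal_measureReal (measure_ne_top _ _)).symm
      _ ≤ ENNReal.ofReal ε := ENNReal.ofReal_le_ofReal (by linarith)
      _ = 0 + ε := by simp
  filter_upwards [ae_pre hH, measure_eq_zero_iff_ae_notMem.1 key] with ω h1 h2
  by_cases he : ω.1 v = ω.2 v
  · exact comp_finite_of_eq h1.1.invol h1.2.1.invol he
  · by_contra hf
    refine h2 ⟨?_, he, hf⟩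
    by_contra hv
    exact he (by rw [h1.1.off v (not_le.1 hv), h1.2.1.off v (not_le.1 hv)])

theorem conv01 {δ : ℕ → ℝ} {a : ℕ → ℂ} (hg : Grid δ a) {F : LoopColl → ℝ}
    (hF : UniformContinuous F) (h01 : ∀ Γ, 0 ≤ F Γ ∧ F Γ ≤ 1) :
    Tendsto (fun n => ∫ ω, F (LH (δ n) (a n) ω) ∂(P.prod P)) atTop (𝓝 (∫ Γ, F Γ ∂μ)) := by
  rw [Metric.tendsto_nhds]
  intro ε0 hε0
  set ε := ε0 / 9 with hε9
  have hε : 0 < ε := by positivity
  obtain ⟨η, hη, hηF⟩ := (hasBasis.uniformContinuous_iff Metric.uniformity_basis_dist_le).1 hF ε hε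
  have hcl : ∀ Γ Γ', close η Γ Γ' → |F Γ - F Γ'| ≤ ε := fun Γ Γ' k => hηF Γ Γ' k
  have h1 : ∀ Γ Γ', |F Γ - F Γ'| ≤ 1 := fun Γ Γ' => abs_le.2
    ⟨by linarith [(h01 Γ).1, (h01 Γ').2], by linarith [(h01 Γ).2, (h01 Γ').1]⟩
  obtain ⟨K, hK⟩ := hN ε hε
  obtain ⟨T, X, s, r, k0, k⟩ := stepB hA hC hP hB hW h hg K hε (show 0 < 8 / η by positivity) hη
  have e1 := Metric.tendsto_nhds.1 (k0 F hF.continuous
    ⟨1, fun Γ => abs_le.2 ⟨by linarith [(h01 Γ).1], (h01 Γ).2⟩⟩) ε hε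
  filter_upwards [k, e1] with n ⟨k0', k1, k2, k3, k4, k5⟩ k6
  have hδ := hg.pos n
  have pw : ∀ ω : Conf, PreM ω.1 → PreM ω.2 → (∀ v, ω.1 v = v ↔ ω.2 v = v) →
      |F (LH (δ n) (a n) ω) - F (LW (δ n) (a n) (r n) ω)| ≤ ε + cr (s n) (r n) ω := by
    intro ω m1 m2 m3
    unfold cr
    split_ifs with hc
    · linarith [h1 (LH (δ n) (a n) ω) (LW (δ n) (a n) (r n) ω)]
    · have := (hW (δ n) (a n) ω hδ (hg.im n) m1 m2 m3).2.2.2.1 (s n) (r n) (8 / η) (by positivity)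
        k4 hc
      rw [show 8 / (8 / η) = η by field_simp] at this
      linarith [hcl _ _ this]
  have dW : Dep2 (Win (r n)) (fun ω => F (LW (δ n) (a n) (r n) ω)) := fun ω ω' e => by
    show F _ = F _
    rw [(hD (δ n) (a n) (r n) (r n)).1 ω ω' e]
  have a1 := abs_le.1 (hK (r n) k2 (T n) k1 _ (cr_dep hD k3) (cr_mem _ _))
  have a2 := abs_le.1 (hK (r n) k2 (T n) k1 _ dW (fun ω => h01 _))
  have a3 := abs_le.1 (Ex_abs (T n) (fun ω hω => pw ω (preM_of_isPM k1.1 (mem_DD.1 hω).1)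
    (preM_of_isPM k1.1 (mem_DD.1 hω).2) (supp_of_DD hω)))
  have a4 := abs_le.1 (Ex_abs (T n) (h := fun _ => 0) (ε := ε)
    (fun ω hω => by rw [add_zero]; exact hcl _ _ (k0' ω hω)))
  rw [Ex_const] at a4
  have bdd : ∀ {G : Conf → ℝ}, AEMeasurable G (P.prod P) → (∀ ω, 0 ≤ G ω ∧ G ω ≤ 1) →
      Integrable G (P.prod P) := fun hG hb => Integrable.of_bound hG.aestronglyMeasurable 1
    (Eventually.of_forall fun ω => by
      rw [Real.norm_eq_abs]
      exact abs_le.2 ⟨by linarith [(hb ω).1], (hb ω).2⟩)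
  have i1 : Integrable (fun ω => F (LH (δ n) (a n) ω)) (P.prod P) :=
    bdd (hF.continuous.measurable.comp_aemeasurable (aemeas_LH hD hW hH hδ (hg.im n)))
      fun ω => h01 _
  have i2 : Integrable (fun ω => F (LW (δ n) (a n) (r n) ω)) (P.prod P) :=
    bdd (meas_of_dep dW).aemeasurable fun ω => h01 _
  have i3 : Integrable (cr (s n) (r n)) (P.prod P) :=
    bdd (meas_of_dep (cr_dep hD k3)).aemeasurable (cr_mem _ _)
  have a5 : |∫ ω, F (LH (δ n) (a n) ω) ∂(P.prod P) - ∫ ω, F (LW (δ n) (a n) (r n) ω) ∂(P.prod P)|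
      ≤ ε + ∫ ω, cr (s n) (r n) ω ∂(P.prod P) := by
    rw [← integral_sub i1 i2]
    refine abs_integral_le_integral_abs.trans ?_
    refine (integral_mono_ae (i1.sub i2).abs ((integrable_const ε).add i3) ?_).trans (le_of_eq ?_)
    · filter_upwards [ae_pre hH] with ω hω using pw ω hω.1 hω.2.1 hω.2.2
    · have := integral_add (integrable_const (μ := P.prod P) ε) i3
      simp only [integral_const, probReal_univ, smul_eq_mul, one_mul] at this
      exact this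
  rw [Real.dist_eq] at k6 ⊢
  have a6 := abs_lt.1 k6
  have a7 := abs_le.1 a5
  rw [abs_lt]
  constructor <;> linarith [a1.1, a1.2, a2.1, a2.2, a3.1, a3.2, a4.1, a4.2, a6.1, a6.2, a7.1, a7.2]

theorem convU {δ : ℕ → ℝ} {a : ℕ → ℂ} (hg : Grid δ a) {F : LoopColl → ℝ}
    (hF : UniformContinuous F) {C : ℝ} (hb : ∀ Γ Γ', dist (F Γ) (F Γ') ≤ C) :
    Tendsto (fun n => ∫ ω, F (LH (δ n) (a n) ω) ∂(P.prod P)) atTop (𝓝 (∫ Γ, F Γ ∂μ)) := by
  have := bd_prob hC h
  let Γ0 : LoopColl := LH 1 0 (id, id)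
  have hC0 : 0 ≤ C := dist_nonneg.trans (hb Γ0 Γ0)
  set D := 2 * C + 1 with hDdef
  have hD0 : 0 < D := by positivity
  set c := F Γ0 - C with hc
  have hb' : ∀ Γ, 0 ≤ F Γ - c ∧ F Γ - c ≤ D := fun Γ => by
    have := abs_le.1 (Real.dist_eq _ _ ▸ hb Γ Γ0)
    constructor <;> linarith [this.1, this.2]
  let G : LoopColl → ℝ := fun Γ => D⁻¹ * (F Γ - c)
  have hG : UniformContinuous G := (hF.sub uniformContinuous_const).const_mul' _
  have hG01 : ∀ Γ, 0 ≤ G Γ ∧ G Γ ≤ 1 := fun Γ =>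
    ⟨mul_nonneg (inv_nonneg.2 hD0.le) (hb' Γ).1, by
      show D⁻¹ * (F Γ - c) ≤ 1
      rw [← div_eq_inv_mul, div_le_one hD0]
      exact (hb' Γ).2⟩
  have e : ∀ Γ, F Γ = D * G Γ + c := fun Γ => by
    show F Γ = D * (D⁻¹ * (F Γ - c)) + c
    field_simp
    ring
  have aff : ∀ {α : Type} [MeasurableSpace α] (ν : Measure α) [IsProbabilityMeasure ν]
      (Y : α → LoopColl), AEMeasurable Y ν →
      ∫ x, F (Y x) ∂ν = D * ∫ x, G (Y x) ∂ν + c := by
    intro α _ ν _ Y hY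
    have i : Integrable (fun x => G (Y x)) ν := Integrable.of_bound
      (hG.continuous.measurable.comp_aemeasurable hY).aestronglyMeasurable 1
      (Eventually.of_forall fun ω => by
        rw [Real.norm_eq_abs]
        exact abs_le.2 ⟨by linarith [(hG01 (Y ω)).1], (hG01 (Y ω)).2⟩)
    simp_rw [e]
    rw [integral_add (i.const_mul D) (integrable_const c), integral_const_mul]
    simp
  have k := ((conv01 hA hC hP hB hD hW h hH hN hg hG hG01).const_mul D).add_const c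
  rw [aff μ (fun Γ => Γ) aemeasurable_id']
  refine k.congr fun n => ?_
  rw [aff (P.prod P) _ (aemeas_LH hD hW hH (hg.pos n) (hg.im n))]

/-- **Convergence in law.** -/
theorem conv {δ : ℕ → ℝ} {a : ℕ → ℂ} (hg : Grid δ a) {F : LoopColl → ℝ}
    (hF : Continuous F) (hb : ∃ C, ∀ Γ, |F Γ| ≤ C) :
    Tendsto (fun n => ∫ ω, F (LH (δ n) (a n) ω) ∂(P.prod P)) atTop (𝓝 (∫ Γ, F Γ ∂μ)) := by
  have hμ := bd_prob hC h
  have hm := fun n => aemeas_LH hD hW hH (hg.pos n) (hg.im n)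
  have : (uniformity LoopColl).IsCountablyGenerated := EX211.basis_nat'.isCountablyGenerated
  let ν : ℕ → ProbabilityMeasure LoopColl := fun n =>
    ⟨(P.prod P).map (LH (δ n) (a n)), Measure.isProbabilityMeasure_map (hm n)⟩
  let ν0 : ProbabilityMeasure LoopColl := ⟨μ, hμ⟩
  have hw : Tendsto ν atTop (𝓝 ν0) := by
    let _ : PseudoMetricSpace LoopColl := UniformSpace.pseudoMetricSpace LoopColl
    refine tendsto_iff_forall_lipschitz_integral_tendsto.2 ?_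
    rintro f ⟨C, hfC⟩ ⟨L, hL⟩
    refine (convU hA hC hP hB hD hW h hH hN hg hL.uniformContinuous hfC).congr fun n => ?_
    exact (integral_map (hm n) hL.continuous.aestronglyMeasurable).symm
  obtain ⟨C, hC'⟩ := hb
  let f : BoundedContinuousFunction LoopColl ℝ := BoundedContinuousFunction.ofNormedAddCommGroup F hF C
    (fun Γ => by rw [Real.norm_eq_abs]; exact hC' Γ)
  refine (ProbabilityMeasure.tendsto_iff_forall_integral_tendsto.1 hw f).congr fun n => ?_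
  exact integral_map (hm n) hF.aestronglyMeasurable

end GLUE

end Vale.Agent.Q155
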