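import Vale.Agent.Q155.Defs
import Vale.Agent.P155.A.TempGeo
import Vale.Agent.P155.CI.Defs

/-!
# P155 in the upper half-plane: auxiliary definitions and the statements of the rows

Nothing here is assumed: every `Row…` is proved in another file of this folder.
-/

namespace Vale.Agent.Q155

open MeasureTheory Filter Topology Vale.Agent.P155 Vale.Agent.P155.Q1

/-! ## Windows -/

/-- The lattice window `[-r, r] × [0, r]`. -/
noncomputable def Win (r : ℕ) : Finset Pt := Finset.Icc (-(r : ℤ)) r ×ˢ Finset.Icc (0 : ℤ) r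

theorem mem_Win {r : ℕ} {v : Pt} : v ∈ Win r ↔ -(r : ℤ) ≤ v.1 ∧ v.1 ≤ r ∧ 0 ≤ v.2 ∧ v.2 ≤ r := by
  simp only [Win, Finset.mem_product, Finset.mem_Icc]
  tauto

theorem Win_mono {r s : ℕ} (h : r ≤ s) : Win r ⊆ Win s := by
  intro v hv
  rw [mem_Win] at hv ⊢
  omega

/-- `g` depends only on the values on `W`. -/
def Dep {α : Type*} (W : Finset Pt) (g : (Pt → Pt) → α) : Prop :=
  ∀ m m', (∀ v ∈ W, m v = m' v) → g m = g m'

/-- `g` depends only on the values of both matchings on `W`. -/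
def Dep2 {α : Type*} (W : Finset Pt) (g : Conf → α) : Prop :=
  ∀ ω ω' : Conf, (∀ v ∈ W, ω.1 v = ω'.1 v ∧ ω.2 v = ω'.2 v) → g ω = g ω'

/-- The graph lies in the half-plane and contains the window of size `r`. -/
def Fit (T : Temp) (r : ℕ) : Prop := (∀ v ∈ T.V, 0 ≤ v.2) ∧ Win r ⊆ T.V

/-! ## Forests -/

/-- `φ` is the parent map of a spanning forest of `S` rooted outside of `S`. -/
structure IsFor (S : Finset Pt) (φ : Pt → Pt) : Prop where
  adj : ∀ v ∈ S, Adj v (φ v)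
  off : ∀ v, v ∉ S → φ v = v
  esc : ∀ v, ∃ n, φ^[n] v ∉ S

theorem finite_isFor (S : Finset Pt) : {φ | IsFor S φ}.Finite := by
  classical
  have hinj : Set.InjOn (fun (m : Pt → Pt) (v : S) => m v) {φ | IsFor S φ} := by
    intro m hm m' hm' h
    funext v
    by_cases hv : v ∈ S
    · exact congrFun h ⟨v, hv⟩
    · rw [hm.off v hv, hm'.off v hv]
  apply Set.Finite.of_finite_image _ hinj
  refine (Set.Finite.pi' (fun v : S => (nbrs v).finite_toSet)).subset ?_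
  rintro f ⟨m, hm, rfl⟩ v
  exact_mod_cast mem_nbrs.2 (hm.adj v v.2)

/-- The finite set of forests. -/
noncomputable def For (S : Finset Pt) : Finset (Pt → Pt) := (finite_isFor S).toFinset

theorem mem_For {S : Finset Pt} {φ : Pt → Pt} : φ ∈ For S ↔ IsFor S φ := by simp [For]

/-- The number of forests. -/
noncomputable def tau (S : Finset Pt) : ℕ := (For S).card

/-- The branch of `v` meets `A`. -/
def Hit (φ : Pt → Pt) (v : Pt) (A : Set Pt) : Prop := ∃ n, φ^[n] v ∈ A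

open Classical in
/-- The number of forests in which the branch of `v` meets `A`. -/
noncomputable def nh (S : Finset Pt) (A : Set Pt) (v : Pt) : ℕ :=
  ((For S).filter (fun φ => Hit φ v A)).card

open Classical in
/-- Forget the parents of the points of `F`. -/
noncomputable def cut (F : Finset Pt) (φ : Pt → Pt) (v : Pt) : Pt := if v ∈ F then v else φ v

/-- there are forests -/
def RowPos : Prop := ∀ S : Finset Pt, 0 < tau S

/-- Markov property: the forests which agree with `φ0` on an explored set `F`. -/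
def RowW1 : Prop := ∀ (S F : Finset Pt) (φ0 : Pt → Pt), F ⊆ S → (∀ f ∈ F, Adj f (φ0 f)) →
  (∀ f ∈ F, φ0 f ∈ F ∨ φ0 f ∉ S) → (∀ f ∈ F, ∃ n, φ0^[n] f ∉ F) →
  Set.BijOn (cut F) {φ | IsFor S φ ∧ ∀ f ∈ F, φ f = φ0 f} {ψ | IsFor (S \ F) ψ}

/-- the law of the root is harmonic -/
def RowW2 : Prop := ∀ (S : Finset Pt) (A : Set Pt), (∀ y ∈ A, y ∉ S) →
  ∀ x ∈ S, lap (fun v => (nh S A v : ℝ)) x = 0

/-- monotonicity in the domain -/
def RowMono : Prop := ∀ F S S' : Finset Pt, F ⊆ S → S ⊆ S' →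
  tau S' * tau (S \ F) ≤ tau (S' \ F) * tau S

open Classical in
/-- with high probability all branches from the small window end in the lower half-plane -/
def RowNET : Prop := ∀ ε : ℝ, 0 < ε → ∃ K : ℕ, ∀ r R : ℕ, 1 ≤ r → K * r ≤ R →
  (((For (Win R)).filter (fun φ => ∃ f ∈ Win r, ¬ Hit φ f {y | y.2 < 0})).card : ℝ) ≤
    ε * tau (Win R)

/-! ## Temperley's bijection -/

/-- the centre of a coarse cell -/
def ctr (f : Pt) : Pt := (2 * f.1 + 1, 2 * f.2 + 1)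

/-- the dual parent map, in coarse coordinates -/
def par (m : Pt → Pt) (f : Pt) : Pt := f + (m (ctr f) - ctr f)

/-- the primal parent map, in fine coordinates -/
def pri (m : Pt → Pt) (p : Pt) : Pt := m p + (m p - p)

/-- the primal branches end at the deleted vertex -/
def RowAcP : Prop := ∀ (T : Temp), ∀ m ∈ PM T.V, ∀ p ∈ T.V, B0 p → ∃ n, (pri m)^[n] p = T.v0

/-- Temperley's bijection -/
def RowTB : Prop := ∀ (T : Temp) (S : Finset Pt), (∀ f, f ∈ S ↔ f ∈ T.cells) →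
  Set.BijOn par {m | IsPM T.V m} {φ | IsFor S φ}

/-- the dual branches from a window determine the matching in the window -/
def RowDET : Prop := ∀ (T T' : Temp) (R r : ℕ), Fit T (2 * R + 2) → Fit T' (2 * R + 2) →
  ∀ m ∈ PM T.V, ∀ m' ∈ PM T'.V, ∀ E : Finset Pt, E ⊆ Win R → Win (r + 2) ⊆ E →
  (∀ f ∈ E, par m f = par m' f) → (∀ f ∈ E, par m f ∈ E ∨ (par m f).2 < 0) →
  (∀ f ∈ E, Hit (par m) f {y | y.2 < 0}) → ∀ v ∈ Win r, m v = m' v

/-- scale-uniform locality -/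
def RowLOC : Prop := ∀ ε : ℝ, 0 < ε → ∃ K : ℕ, ∀ r : ℕ, 1 ≤ r → ∀ T T' : Temp,
  Fit T (K * r) → Fit T' (K * r) → ∀ g : (Pt → Pt) → ℝ, Dep (Win r) g →
  (∀ m, 0 ≤ g m ∧ g m ≤ 1) → |Ex1 T.V g - Ex1 T'.V g| ≤ ε

/-! ## The limit law -/

/-- exhaustions exist -/
def RowBOX : Prop := ∃ T, Exh T

/-- quantitative approximation of the pair law -/
def Near (P : Measure (Pt → Pt)) : Prop := ∀ ε : ℝ, 0 < ε → ∃ K : ℕ, ∀ r : ℕ, 1 ≤ r →
  ∀ T : Temp, Fit T (K * r) → ∀ G : Conf → ℝ, Dep2 (Win r) G → (∀ ω, 0 ≤ G ω ∧ G ω ≤ 1) →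
  |Ex T.V G - ∫ ω, G ω ∂(P.prod P)| ≤ ε

/-- the limit law -/
def RowLIM : Prop := ∃ P, IsHLaw P ∧ (∀ Q, IsHLaw Q → Q = P) ∧ (∀ᵐ m ∂P, IsHPM m) ∧ Near P

/-! ## Half-discs -/

/-- the open half-disc -/
def HD (R : ℝ) : Set ℂ := {z | ‖z‖ < R ∧ 0 < z.im}

/-- the closed half-disc -/
def cHD (R : ℝ) : Set ℂ := {z | ‖z‖ ≤ R ∧ 0 ≤ z.im}

/-- the convergence conditions on the polygons (fields of `TempApprox`) -/
structure Conv (Ω : Set ℂ) (T : ℕ → Temp) (δ : ℕ → ℝ) (a : ℕ → ℂ) : Prop where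
  cara₁ : ∀ K ⊆ Ω, IsCompact K → ∀ᶠ n in atTop, K ⊆ interior (region (δ n) (a n) (T n).faceSet)
  cara₂ : ∀ U : Set ℂ, IsOpen U → IsConnected U → (U ∩ Ω).Nonempty →
    (∃ᶠ n in atTop, U ⊆ region (δ n) (a n) (T n).faceSet) → U ⊆ Ω
  haus₁ : ∀ ε > 0, ∀ᶠ n in atTop,
    frontier (region (δ n) (a n) (T n).faceSet) ⊆ Metric.thickening ε (frontier Ω)
  haus₂ : ∀ ε > 0, ∀ᶠ n in atTop,
    frontier Ω ⊆ Metric.thickening ε (frontier (region (δ n) (a n) (T n).faceSet))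
  outer : ∀ ε > 0, ∀ᶠ n in atTop, region (δ n) (a n) (T n).faceSet ⊆ Metric.thickening ε Ω

/-- the conditions on the meshes and the origins of the grids -/
structure Grid (δ : ℕ → ℝ) (a : ℕ → ℂ) : Prop where
  pos : ∀ n, 0 < δ n
  mesh : Tendsto δ atTop (𝓝 0)
  im : ∀ n, 0 ≤ (a n).im
  orig : Tendsto a atTop (𝓝 0)

/-- approximations of the half-disc with a flat bottom -/
def RowAPX : Prop := ∀ (R : ℝ) (δ : ℕ → ℝ) (a : ℕ → ℂ), 0 < R → Grid δ a →
  ∃ T : ℕ → Temp, Conv (HD R) T δ a ∧ ∀ᶠ n in atTop,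
    (∀ v ∈ (T n).V, pt (δ n) (a n) v ∈ cHD R) ∧ ∀ r : ℕ, 2 * (δ n * r) ≤ R → Fit (T n) r

/-- the conformal map of the half-disc onto the disc is close to the Cayley map -/
def RowCONF : Prop := ∀ R : ℝ, 0 < R →
  (IsOpen (HD R) ∧ Bornology.IsBounded (HD R) ∧ (HD R).Nonempty ∧ SimplyConnectedSpace (HD R)) ∧
  ∃ f g : ℂ → ℂ, CI.Conf (HD R) (Metric.ball 0 1) f g ∧ UniformContinuous f ∧
    ∀ z ∈ cHD R, ‖f z - cay z‖ ≤ 2 / R

/-! ## Loop collections -/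

/-- a representative of a loop -/
noncomputable def rep (γ : Loop) : PL := (SeparationQuotient.surjective_mk γ).choose

theorem mk_rep (γ : Loop) : SeparationQuotient.mk (rep γ) = γ :=
  (SeparationQuotient.surjective_mk γ).choose_spec

/-- the image of a loop collection -/
noncomputable def push (f : ℂ → ℂ) (Γ : LoopColl) : LoopColl :=
  ofLoc Set.univ (fun x : Γ.Inst => SeparationQuotient.mk (mapL f (rep x.1)))

/-- `Γ` has a loop of diameter `≥ c` with a point within `η` of `1`. -/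
def Big (c η : ℝ) : Set LoopColl :=
  {Γ | ∃ γ : PL, Γ.mult (SeparationQuotient.mk γ) ≠ 0 ∧ c ≤ γ.diam ∧ ∃ t, ‖γ.c t - 1‖ ≤ η}

/-- a matching of a part of the half-plane lattice -/
structure PreM (m : Pt → Pt) : Prop where
  invol : ∀ v, m (m v) = v
  off : ∀ v : Pt, v.2 < 0 → m v = v
  adj : ∀ v, m v = v ∨ Adj v (m v)

theorem IsHPM.preM {m : Pt → Pt} (h : IsHPM m) : PreM m :=
  ⟨h.invol, h.off, fun v => (lt_or_ge v.2 0).imp (h.off v) (h.adj v)⟩

theorem preM_of_isPM {V : Finset Pt} (hV : ∀ v ∈ V, 0 ≤ v.2) {m : Pt → Pt} (h : IsPM V m) :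
    PreM m :=
  ⟨h.invol, fun v hv => h.off v fun h' => absurd (hV v h') (not_le.2 hv),
    fun v => (em (v ∈ V)).symm.imp (h.off v) (h.adj v)⟩

/-- the Cayley images of the loops inside the window -/
noncomputable def LW (δ : ℝ) (a : ℂ) (r : ℕ) (ω : Conf) : LoopColl :=
  ofLoc {L | L ∈ Loops ω ∧ L ⊆ (Win r : Set Pt)} (cloop δ a ω)

/-- some loop meets the window of size `s` and leaves the window of size `r` -/
def Cross (s r : ℕ) (ω : Conf) : Prop :=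
  ∃ v ∈ Win s, ω.1 v ≠ ω.2 v ∧ ¬ comp ω v ⊆ (Win r : Set Pt)

/-- images of loop collections -/
def RowPUSH : Prop := ∀ f : ℂ → ℂ, UniformContinuous f →
  UniformContinuous (push f) ∧
  (∀ (Ω Ω' : Set ℂ) (g : ℂ → ℂ) (Γ Γ' : LoopColl), CI.Conf Ω Ω' f g → CI.MapsColl Ω Ω' f Γ Γ' →
    push f Γ = Γ') ∧
  ∀ (V : Finset Pt) (R η δ : ℝ) (a : ℂ), 0 ≤ η → 0 < δ → (∀ v ∈ V, pt δ a v ∈ cHD R) →
    (∀ z ∈ cHD R, ‖f z - cay z‖ ≤ η) → ∀ ω ∈ DD V, close (2 * η) (push f (LL δ a ω)) (LH δ a ω)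

/-- the events `Big` -/
def RowBIG : Prop :=
  (∀ (c η ε : ℝ) (Γ Γ' : LoopColl), 0 < ε → ε < c → close ε Γ Γ' → Γ ∈ Big c η →
    Γ' ∈ Big (c - 2 * ε) (η + 2 * ε)) ∧
  ∀ (c : ℝ) (Γ : LoopColl), 0 < c →
    (∀ γ : PL, Γ.mult (SeparationQuotient.mk γ) ≠ 0 → Set.range γ.c ⊆ Metric.ball 0 1) →
    ∃ η : ℝ, 0 < η ∧ Γ ∉ Big c η

/-- dependence on the window only -/
def RowDEP : Prop := ∀ (δ : ℝ) (a : ℂ) (s r : ℕ),
  Dep2 (Win r) (LW δ a r) ∧ (s ≤ r → Dep2 (Win r) (Cross s r))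

/-- the loops of a pair of matchings of (parts of) the half-plane lattice -/
def RowWIN : Prop := ∀ (δ : ℝ) (a : ℂ) (ω : Conf), 0 < δ → 0 ≤ a.im → PreM ω.1 → PreM ω.2 →
  (∀ v : Pt, 0 ≤ v.2 → Continuous (cay ∘ (lcurve δ a ω v).c)) ∧
  LocFin (Loops ω) (cloop δ a ω) ∧
  Tendsto (fun r => LW δ a r ω) atTop (𝓝 (LH δ a ω)) ∧
  (∀ (s r : ℕ) (t : ℝ), 0 < t → t + ‖a‖ ≤ δ * s → ¬ Cross s r ω →
    close (8 / t) (LH δ a ω) (LW δ a r ω)) ∧
  ∀ (s r : ℕ) (t u : ℝ), 0 < u → u < t → t + ‖a‖ ≤ δ * r → 2 * (δ * s) + ‖a‖ + 1 ≤ u →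
    (∀ v, (comp ω v).Finite) → Cross s r ω → LH δ a ω ∈ Big (2 / u - 2 / t) (2 / t)

/-! ## A criterion for closeness -/

theorem exists_inst' (Γ : LoopColl) {A : Type*} (a : A → Loop)
    (hfin : ∀ γ, {i | a i = γ}.Finite) (hm : ∀ γ, Γ.mult γ = Set.ncard {i | a i = γ}) :
    ∃ e : Γ.Inst ≃ A, ∀ x, a (e x) = x.1 := by
  have h1 : ∀ γ, Nonempty (Fin (Γ.mult γ) ≃ {i // a i = γ}) := by
    intro γ
    have : Finite {i // a i = γ} := hfin γ
    have h2 : Nat.card {i // a i = γ} = Γ.mult γ := by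
      rw [hm]
      exact Nat.card_coe_set_eq _
    rw [← h2]
    exact ⟨(Finite.equivFin _).symm⟩
  refine ⟨(Equiv.sigmaCongrRight fun γ => (h1 γ).some).trans (Equiv.sigmaFiberEquiv a), ?_⟩
  rintro ⟨γ, i⟩
  exact ((h1 γ).some i).2

theorem LocFin.fiber {ι : Type*} {s : Set ι} {c : ι → Loop} (h : LocFin s c) {γ : Loop}
    (hγ : 0 < γ.diam) : {i | i ∈ s ∧ c i = γ}.Finite := by
  refine (h (γ.diam / 2) (by positivity)).subset ?_
  rintro i ⟨h1, h2⟩
  exact ⟨h1, by rw [h2]; linarith⟩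

theorem mult_ofLoc {ι : Type*} {s : Set ι} {c : ι → Loop} (h : LocFin s c) {γ : Loop}
    (hγ : 0 < γ.diam) : (ofLoc s c).mult γ = Set.ncard {i | i ∈ s ∧ c i = γ} := by
  classical
  show (if LocFin s c ∧ 0 < γ.diam then _ else 0) = _
  rw [if_pos ⟨h, hγ⟩]

/-- the members of `ofLoc s c` are the indices of the nonconstant loops -/
theorem inst_ofLoc {ι : Type*} {s : Set ι} {c : ι → Loop} (h : LocFin s c) :
    ∃ e : (ofLoc s c).Inst ≃ {i // i ∈ s ∧ 0 < (c i).diam}, ∀ x, c (e x).1 = x.1 := by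
  classical
  have key : ∀ γ : Loop, 0 < γ.diam → Subtype.val ''
      {i : {i // i ∈ s ∧ 0 < (c i).diam} | c i.1 = γ} = {i | i ∈ s ∧ c i = γ} := by
    intro γ hγ
    ext i
    constructor
    · rintro ⟨j, hj, rfl⟩
      exact ⟨j.2.1, hj⟩
    · rintro ⟨h1, h2⟩
      exact ⟨⟨i, h1, by rw [h2]; exact hγ⟩, h2, rfl⟩
  have emp : ∀ γ : Loop, ¬ 0 < γ.diam →
      {i : {i // i ∈ s ∧ 0 < (c i).diam} | c i.1 = γ} = ∅ := by
    intro γ hγ
    rw [Set.eq_empty_iff_forall_notMem]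
    intro j hj
    apply hγ
    rw [← show c j.1 = γ from hj]
    exact j.2.2
  refine exists_inst' (ofLoc s c) (fun i : {i // i ∈ s ∧ 0 < (c i).diam} => c i.1) ?_ ?_
  · intro γ
    by_cases hγ : 0 < γ.diam
    · refine Set.Finite.of_finite_image (f := Subtype.val) ?_ Subtype.val_injective.injOn
      rw [key γ hγ]
      exact h.fiber hγ
    · rw [emp γ hγ]
      exact Set.finite_empty
  · intro γ
    by_cases hγ : 0 < γ.diam
    · rw [mult_ofLoc h hγ, ← key γ hγ, Set.ncard_image_of_injective _ Subtype.val_injective]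
    · rw [emp γ hγ, Set.ncard_empty]
      by_contra h0
      exact hγ ((ofLoc s c).nonconst γ h0)

/-- a partial bijection between the index sets gives close collections -/
theorem close_ofLoc {ι ι' : Type*} {s : Set ι} {s' : Set ι'} {c : ι → Loop} {c' : ι' → Loop}
    {ε : ℝ} (hε : 0 ≤ ε) (h : LocFin s c) (h' : LocFin s' c') (Rl : ι → ι' → Prop)
    (h1 : ∀ i j j', Rl i j → Rl i j' → j = j') (h2 : ∀ i i' j, Rl i j → Rl i' j → i = i')
    (h3 : ∀ i ∈ s, ε < (c i).diam → ∃ j ∈ s', Rl i j)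
    (h4 : ∀ j ∈ s', ε < (c' j).diam → ∃ i ∈ s, Rl i j)
    (h5 : ∀ i j, Rl i j → dist (c i) (c' j) ≤ ε) :
    close (2 * ε) (ofLoc s c) (ofLoc s' c') := by
  obtain ⟨e, he⟩ := inst_ofLoc h
  obtain ⟨e', he'⟩ := inst_ofLoc h'
  refine ⟨fun x y => Rl (e x).1 (e' y).1, ?_, ?_, ?_, ?_, ?_⟩
  · intro x y y' k k'
    exact e'.injective (Subtype.ext (h1 _ _ _ k k'))
  · intro x x' y k k'
    exact e.injective (Subtype.ext (h2 _ _ _ k k'))
  · intro x hx
    rw [← he x] at hx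
    obtain ⟨j, hj, hR⟩ := h3 _ (e x).2.1 (by linarith)
    have d1 := Loop.diam_le (c (e x).1) (c' j)
    have d2 := h5 _ _ hR
    refine ⟨e'.symm ⟨j, hj, by linarith⟩, ?_⟩
    simpa using hR
  · intro y hy
    rw [← he' y] at hy
    obtain ⟨i, hi, hR⟩ := h4 _ (e' y).2.1 (by linarith)
    have d1 := Loop.diam_le (c' (e' y).1) (c i)
    have d2 := h5 _ _ hR
    rw [dist_comm] at d2
    refine ⟨e.symm ⟨i, hi, by linarith⟩, ?_⟩
    simpa using hR
  · intro x y k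
    rw [← he x, ← he' y]
    linarith [h5 _ _ k]

end Vale.Agent.Q155
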