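import Vale.Agent.Q155.Rows

/-!
# P155 in the upper half-plane: half-plane loops versus window loops
-/

namespace Vale.Agent.Q155

open MeasureTheory Filter Topology Vale.Agent.P155 Vale.Agent.P155.Q1

/-- the loops of a pair of matchings of the same part of the half-plane lattice -/
def RowWIN2 : Prop := ∀ (δ : ℝ) (a : ℂ) (ω : Conf), 0 < δ → 0 ≤ a.im → PreM ω.1 → PreM ω.2 →
  (∀ v, ω.1 v = v ↔ ω.2 v = v) →
  (∀ v : Pt, 0 ≤ v.2 → Continuous (cay ∘ (lcurve δ a ω v).c)) ∧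
  LocFin (Loops ω) (cloop δ a ω) ∧
  Tendsto (fun r => LW δ a r ω) atTop (𝓝 (LH δ a ω)) ∧
  (∀ (s r : ℕ) (t : ℝ), 0 < t → t + ‖a‖ ≤ δ * s → ¬ Cross s r ω →
    close (8 / t) (LH δ a ω) (LW δ a r ω)) ∧
  ∀ (s r : ℕ) (t u : ℝ), 0 < u → u < t → t + ‖a‖ ≤ δ * r → 2 * (δ * s) + ‖a‖ + 1 ≤ u →
    (∀ v, (comp ω v).Finite) → Cross s r ω → LH δ a ω ∈ Big (2 / u - 2 / t) (2 / t)

theorem supp_of_isPM {V : Finset Pt} {ω : Conf} (h1 : IsPM V ω.1) (h2 : IsPM V ω.2) (v : Pt) :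
    ω.1 v = v ↔ ω.2 v = v := by
  rw [SW.pm_fix_iff h1, SW.pm_fix_iff h2]

theorem supp_of_DD {V : Finset Pt} {ω : Conf} (h : ω ∈ DD V) (v : Pt) :
    ω.1 v = v ↔ ω.2 v = v := by
  rw [DD, Finset.mem_product, mem_PM, mem_PM] at h
  exact supp_of_isPM h.1 h.2 v

theorem IsHPM.fix_iff {m : Pt → Pt} (h : IsHPM m) (v : Pt) : m v = v ↔ v.2 < 0 := by
  refine ⟨fun e => ?_, h.off v⟩
  by_contra hv
  have := h.adj v (not_lt.1 hv)
  rw [e] at this
  exact SW.adj_irrefl v this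

theorem supp_of_HPM {ω : Conf} (h1 : IsHPM ω.1) (h2 : IsHPM ω.2) (v : Pt) :
    ω.1 v = v ↔ ω.2 v = v := by
  rw [h1.fix_iff, h2.fix_iff]

namespace WIN

/-! ## Dependence on a window -/

theorem ofLoc_congr {ι : Type*} {s s' : Set ι} {c c' : ι → Loop} (hs : s = s')
    (hc : ∀ i ∈ s, c i = c' i) : ofLoc s c = ofLoc s' c' := by
  classical
  subst hs
  have e1 : ∀ γ, {i | i ∈ s ∧ c i = γ} = {i | i ∈ s ∧ c' i = γ} := by
    intro γ
    ext i
    exact and_congr_right fun hi => by rw [hc i hi]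
  have e2 : LocFin s c ↔ LocFin s c' := by
    refine forall₂_congr fun ε _ => ?_
    have : {i | i ∈ s ∧ ε < (c i).diam} = {i | i ∈ s ∧ ε < (c' i).diam} := by
      ext i
      exact and_congr_right fun hi => by rw [hc i hi]
    rw [this]
  ext γ
  show (if LocFin s c ∧ 0 < γ.diam then Set.ncard {i | i ∈ s ∧ c i = γ} else 0) =
    (if LocFin s c' ∧ 0 < γ.diam then Set.ncard {i | i ∈ s ∧ c' i = γ} else 0)
  rw [e1 γ]
  exact if_congr (and_congr_left fun _ => e2) rfl rfl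

/-- the configurations agree on `W` -/
def Agr (W : Set Pt) (ω ω' : Conf) : Prop := ∀ v ∈ W, ω.1 v = ω'.1 v ∧ ω.2 v = ω'.2 v

theorem Agr.symm {W : Set Pt} {ω ω' : Conf} (h : Agr W ω ω') : Agr W ω' ω :=
  fun v hv => ⟨(h v hv).1.symm, (h v hv).2.symm⟩

theorem Agr.comp_sub {W : Set Pt} {ω ω' : Conf} (h : Agr W ω ω') {v : Pt}
    (hv : comp ω v ⊆ W) : comp ω' v ⊆ comp ω v := by
  refine SW.comp_sub (SW.same_refl ω v) (fun u hu => ?_) (fun u hu => ?_)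
  · rw [← (h u (hv hu)).1]
    exact SW.fst_mem_comp hu
  · rw [← (h u (hv hu)).2]
    exact SW.snd_mem_comp hu

theorem Agr.comp_eq {W : Set Pt} {ω ω' : Conf} (h : Agr W ω ω') {v : Pt}
    (hv : comp ω v ⊆ W) : comp ω' v = comp ω v :=
  (h.comp_sub hv).antisymm (h.symm.comp_sub ((h.comp_sub hv).trans hv))

theorem Agr.iter_eq {W : Set Pt} {ω ω' : Conf} (h : Agr W ω ω') {v : Pt}
    (hv : comp ω v ⊆ W) (n : ℕ) : (SW.suc ω')^[n] v = (SW.suc ω)^[n] v := by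
  induction n with
  | zero => rfl
  | succ n ih =>
    rw [Function.iterate_succ_apply', Function.iterate_succ_apply', ih]
    have := h _ (hv (SW.same_iter ω v n))
    unfold SW.suc at this ⊢
    rw [this.1, this.2]

theorem polyLoop_congr {m m' : ℕ} {x x' : ℤ → ℂ} {h : ∀ j, x (j + m) = x j}
    {h' : ∀ j, x' (j + m') = x' j} (hm : m = m') (hx : x = x') :
    polyLoop m x h = polyLoop m' x' h' := by
  subst hm hx
  rfl

theorem Agr.lcurve_eq {W : Set Pt} {ω ω' : Conf} (h : Agr W ω ω') (δ : ℝ) (a : ℂ) {v : Pt}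
    (hv : comp ω v ⊆ W) : lcurve δ a ω' v = lcurve δ a ω v := by
  refine polyLoop_congr (by rw [h.comp_eq hv]) ?_
  funext j
  unfold cyc
  rw [h.comp_eq hv, h.iter_eq hv]

theorem Agr.loops_sub {W : Set Pt} {ω ω' : Conf} (h : Agr W ω ω') :
    {L | L ∈ Loops ω ∧ L ⊆ W} ⊆ {L | L ∈ Loops ω' ∧ L ⊆ W} := by
  rintro L ⟨⟨v, hv, rfl⟩, hW⟩
  have := h v (hW (SW.same_refl ω v))
  exact ⟨⟨v, by rwa [← this.1, ← this.2], (h.comp_eq hW).symm⟩, hW⟩

theorem Agr.cloop_eq {W : Set Pt} {ω ω' : Conf} (h : Agr W ω ω') (δ : ℝ) (a : ℂ) {L : Set Pt}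
    (hL : L ∈ Loops ω) (hW : L ⊆ W) : cloop δ a ω L = cloop δ a ω' L := by
  obtain ⟨v, -, rfl⟩ := hL
  have hne : (comp ω v).Nonempty := ⟨v, SW.same_refl ω v⟩
  unfold cloop
  rw [dif_pos hne, dif_pos hne, h.lcurve_eq δ a (v := hne.some)]
  exact fun u hu => hW (SW.same_trans hne.some_mem hu)

theorem Agr.cross {s r : ℕ} {ω ω' : Conf} (h : Agr (Win r) ω ω') (hsr : s ≤ r)
    (hc : Cross s r ω) : Cross s r ω' := by
  obtain ⟨v, hv, h1, h2⟩ := hc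
  have := h v (Win_mono hsr hv)
  refine ⟨v, hv, by rwa [← this.1, ← this.2], fun h3 => h2 ?_⟩
  exact (h.symm.comp_sub h3).trans h3

/-! ## The Cayley map -/

theorem add_I_ne {z : ℂ} (hz : 0 ≤ z.im) : z + Complex.I ≠ 0 := by
  intro h
  have := congrArg Complex.im h
  simp at this
  linarith

theorem norm_le_add_I {z : ℂ} (hz : 0 ≤ z.im) : ‖z‖ ≤ ‖z + Complex.I‖ := by
  refine abs_le_of_sq_le_sq' ?_ (norm_nonneg _) |>.2
  rw [Complex.sq_norm, Complex.sq_norm, Complex.normSq_apply, Complex.normSq_apply]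
  simp
  nlinarith

theorem norm_cay_sub {z : ℂ} (hz : 0 ≤ z.im) : ‖cay z - 1‖ = 2 / ‖z + Complex.I‖ := by
  have h := add_I_ne hz
  have : cay z - 1 = (-2 * Complex.I) / (z + Complex.I) := by
    unfold cay
    field_simp
    ring
  rw [this, norm_div]
  simp

theorem norm_cay_le {z : ℂ} {t : ℝ} (hz : 0 ≤ z.im) (ht : 0 < t) (h : t ≤ ‖z‖) :
    ‖cay z - 1‖ ≤ 2 / t := by
  rw [norm_cay_sub hz]
  exact div_le_div_of_nonneg_left (by norm_num) ht (h.trans (norm_le_add_I hz))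

theorem le_norm_cay {z : ℂ} {u : ℝ} (hz : 0 ≤ z.im) (h : ‖z‖ + 1 ≤ u) :
    2 / u ≤ ‖cay z - 1‖ := by
  rw [norm_cay_sub hz]
  refine div_le_div_of_nonneg_left (by norm_num) (norm_pos_iff.2 (add_I_ne hz)) ?_
  refine (norm_add_le _ _).trans ?_
  simpa using h

theorem cont_cay {γ : PL} (h : ∀ t, 0 ≤ (γ.c t).im) : Continuous (cay ∘ γ.c) := by
  have := γ.c.continuous
  show Continuous fun t => (γ.c t - Complex.I) / (γ.c t + Complex.I)
  exact Continuous.div (by fun_prop) (by fun_prop) fun t => add_I_ne (h t)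

theorem mapL_apply {f : ℂ → ℂ} {γ : PL} (h : Continuous (f ∘ γ.c)) (t : S1) :
    (mapL f γ).c t = f (γ.c t) := by
  unfold mapL
  rw [dif_pos h]
  rfl

/-! ## Grid points -/

theorem pt_sub (δ : ℝ) (a : ℂ) (v : Pt) :
    pt δ a v - a = δ * ((v.1 : ℂ) + (v.2 : ℂ) * Complex.I) := by
  unfold pt
  ring

theorem pt_im {δ : ℝ} {a : ℂ} (hδ : 0 < δ) (ha : 0 ≤ a.im) {v : Pt} (hv : 0 ≤ v.2) :
    0 ≤ (pt δ a v).im := by
  have h : (0 : ℝ) ≤ v.2 := by exact_mod_cast hv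
  have : (pt δ a v).im = a.im + δ * v.2 := by
    simp [pt]
  rw [this]
  positivity

theorem pt_far {δ : ℝ} (a : ℂ) (hδ : 0 < δ) {s : ℕ} {v : Pt} (hv : 0 ≤ v.2) (h : v ∉ Win s) :
    δ * (s + 1) ≤ ‖pt δ a v - a‖ := by
  rw [pt_sub, norm_mul, Complex.norm_real, Real.norm_of_nonneg hδ.le]
  refine mul_le_mul_of_nonneg_left ?_ hδ.le
  have h1 := Complex.abs_re_le_norm ((v.1 : ℂ) + (v.2 : ℂ) * Complex.I)
  have h2 := Complex.abs_im_le_norm ((v.1 : ℂ) + (v.2 : ℂ) * Complex.I)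
  simp only [Complex.add_re, Complex.intCast_re, Complex.mul_re, Complex.I_re, mul_zero,
    Complex.intCast_im, Complex.I_im, mul_one, sub_self, add_zero, Complex.add_im, Complex.mul_im,
    zero_add] at h1 h2
  rw [mem_Win] at h
  have h3 : (s : ℤ) + 1 ≤ |v.1| ∨ (s : ℤ) + 1 ≤ |v.2| := by
    rcases abs_cases v.1 with ⟨e, _⟩ | ⟨e, _⟩ <;> rcases abs_cases v.2 with ⟨e', _⟩ | ⟨e', _⟩ <;>
      omega
  rcases h3 with h3 | h3
  · exact le_trans (by exact_mod_cast h3) h1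
  · exact le_trans (by exact_mod_cast h3) h2

theorem norm_int_le (x y : ℤ) : ‖(x : ℂ) + (y : ℂ) * Complex.I‖ ≤ ((|x| + |y| : ℤ) : ℝ) := by
  refine (Complex.norm_le_abs_re_add_abs_im _).trans (le_of_eq ?_)
  simp

theorem pt_near {δ : ℝ} (a : ℂ) (hδ : 0 < δ) {s : ℕ} {v : Pt} (h : v ∈ Win s) :
    ‖pt δ a v‖ ≤ 2 * (δ * s) + ‖a‖ := by
  have h1 : ‖pt δ a v - a‖ ≤ 2 * (δ * s) := by
    rw [pt_sub, norm_mul, Complex.norm_real, Real.norm_of_nonneg hδ.le]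
    have h2 := norm_int_le v.1 v.2
    rw [mem_Win] at h
    have h3 : |v.1| + |v.2| ≤ 2 * (s : ℤ) := by
      rcases abs_cases v.1 with ⟨e, _⟩ | ⟨e, _⟩ <;> rcases abs_cases v.2 with ⟨e', _⟩ | ⟨e', _⟩ <;>
        omega
    have h4 : ((|v.1| + |v.2| : ℤ) : ℝ) ≤ 2 * s := by exact_mod_cast h3
    nlinarith
  have := norm_add_le (pt δ a v - a) a
  rw [sub_add_cancel] at this
  linarith

theorem pt_adj {δ : ℝ} (a : ℂ) (hδ : 0 < δ) {u w : Pt} (h : Adj u w) :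
    ‖pt δ a w - pt δ a u‖ ≤ δ := by
  have e : pt δ a w - pt δ a u =
      δ * (((w.1 - u.1 : ℤ) : ℂ) + ((w.2 - u.2 : ℤ) : ℂ) * Complex.I) := by
    unfold pt
    push_cast
    ring
  rw [e, norm_mul, Complex.norm_real, Real.norm_of_nonneg hδ.le]
  have h2 := norm_int_le (w.1 - u.1) (w.2 - u.2)
  unfold Adj at h
  rw [abs_sub_comm w.1, abs_sub_comm w.2, h] at h2
  have : ‖((w.1 - u.1 : ℤ) : ℂ) + ((w.2 - u.2 : ℤ) : ℂ) * Complex.I‖ ≤ 1 := by exact_mod_cast h2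
  nlinarith

/-! ## Points of the curves -/

theorem polyLoop_pt (m : ℕ) (x : ℤ → ℂ) (h : ∀ j, x (j + m) = x j) (t : S1) :
    ∃ (j : ℤ) (θ : ℝ), 0 ≤ θ ∧ θ ≤ 1 ∧ (m = 0 → j = 0 ∧ θ = 0) ∧
      (polyLoop m x h).c t = x j + (θ : ℂ) * (x (j + 1) - x j) := by
  induction t using QuotientAddGroup.induction_on with
  | H t =>
    refine ⟨⌊(m : ℝ) * t⌋, m * t - ⌊(m : ℝ) * t⌋, sub_nonneg.2 (Int.floor_le _), ?_, ?_, rfl⟩
    · linarith [Int.lt_floor_add_one ((m : ℝ) * t)]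
    · rintro rfl
      simp

theorem polyLoop_vertex {m : ℕ} (hm : 0 < m) (x : ℤ → ℂ) (h : ∀ j, x (j + m) = x j) (n : ℤ) :
    ∃ t, (polyLoop m x h).c t = x n := by
  refine ⟨(((n : ℝ) / m : ℝ) : S1), ?_⟩
  rw [polyLoop_coe, mul_div_cancel₀ _ (by positivity), poly_int]

theorem preM_nonneg {m : Pt → Pt} (h : PreM m) {v : Pt} (hv : 0 ≤ v.2) : 0 ≤ (m v).2 := by
  by_contra hc
  have h1 := h.off _ (not_le.1 hc)
  rw [h.invol] at h1
  rw [← h1] at hc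
  exact hc hv

theorem comp_nonneg {ω : Conf} (h1 : PreM ω.1) (h2 : PreM ω.2) {v u : Pt} (hv : 0 ≤ v.2)
    (hu : u ∈ comp ω v) : 0 ≤ u.2 :=
  SW.comp_sub (S := {u | 0 ≤ u.2}) hv (fun _ h => preM_nonneg h1 h) (fun _ h => preM_nonneg h2 h) hu

theorem lcurve_im {δ : ℝ} {a : ℂ} {ω : Conf} (hδ : 0 < δ) (ha : 0 ≤ a.im) (h1 : PreM ω.1)
    (h2 : PreM ω.2) {v : Pt} (hv : 0 ≤ v.2) (t : S1) : 0 ≤ ((lcurve δ a ω v).c t).im := by
  obtain ⟨j, θ, h3, h4, -, e⟩ := polyLoop_pt _ _ (cyc_periodic δ a ω v) t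
  have k : ∀ j, 0 ≤ (cyc δ a ω v j).im := fun j =>
    pt_im hδ ha (comp_nonneg h1 h2 hv (SW.same_iter ω v _))
  show 0 ≤ ((polyLoop _ _ (cyc_periodic δ a ω v)).c t).im
  rw [e]
  have k1 := k j
  have k2 := k (j + 1)
  simp only [Complex.add_im, Complex.mul_im, Complex.ofReal_re, Complex.sub_im, Complex.ofReal_im,
    zero_mul, add_zero]
  nlinarith

/-! ## The cyclic structure of the loops -/

/-- two matchings of the same part of the half-plane lattice -/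
structure Good (ω : Conf) : Prop where
  p1 : PreM ω.1
  p2 : PreM ω.2
  supp : ∀ v, ω.1 v = v ↔ ω.2 v = v

variable {ω : Conf}

theorem Good.inv (h : Good ω) : SW.Inv2 ω := ⟨h.p1.invol, h.p2.invol⟩

theorem Good.ne_of_mem (h : Good ω) {v u : Pt} (hv : ω.1 v ≠ ω.2 v) (hu : u ∈ comp ω v) :
    ω.1 u ≠ ω.2 u := by
  refine SW.comp_sub (S := {u | ω.1 u ≠ ω.2 u}) hv (fun w hw e => hw ?_) (fun w hw e => hw ?_) hu
  · rw [h.p1.invol] at e
    rw [e, h.p2.invol, ← e]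
  · rw [h.p2.invol] at e
    rw [← e, h.p1.invol, e]

theorem Good.adj1 (h : Good ω) {v : Pt} (hv : ω.1 v ≠ ω.2 v) : Adj v (ω.1 v) :=
  (h.p1.adj v).resolve_left fun e => hv (by rw [e, (h.supp v).1 e])

theorem Good.adj2 (h : Good ω) {v : Pt} (hv : ω.1 v ≠ ω.2 v) : Adj v (ω.2 v) :=
  (h.p2.adj v).resolve_left fun e => hv (by rw [e, (h.supp v).2 e])

theorem Good.nonneg (h : Good ω) {v : Pt} (hv : ω.1 v ≠ ω.2 v) : 0 ≤ v.2 := by
  by_contra hc
  exact hv (by rw [h.p1.off v (not_le.1 hc), h.p2.off v (not_le.1 hc)])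

theorem Good.adj_suc (h : Good ω) {v : Pt} (hv : ω.1 v ≠ ω.2 v) : Adj v (SW.suc ω v) := by
  unfold SW.suc
  split_ifs
  exacts [h.adj1 hv, h.adj2 hv]

theorem Good.pre_suc (h : Good ω) {v : Pt} (hv : ω.1 v ≠ ω.2 v) : SW.pre ω (SW.suc ω v) = v := by
  have k := SW.white_iff_of_adj (h.adj_suc hv)
  by_cases hw : White v
  · rw [SW.pre_black (SW.black_iff_not_white.2 fun e => k.1 e hw), SW.suc_white hw, h.p1.invol]
  · rw [SW.pre_white (k.2 hw), SW.suc_black (SW.black_iff_not_white.2 hw), h.p2.invol]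

theorem Good.pre_iter (h : Good ω) {v : Pt} (hv : ω.1 v ≠ ω.2 v) (n : ℕ) :
    SW.pre ω ((SW.suc ω)^[n + 1] v) = (SW.suc ω)^[n] v := by
  rw [Function.iterate_succ_apply']
  exact h.pre_suc (h.ne_of_mem hv (SW.same_iter ω v n))

theorem Good.iter_cancel (h : Good ω) {v : Pt} (hv : ω.1 v ≠ ω.2 v) (k n : ℕ)
    (e : (SW.suc ω)^[k + n] v = (SW.suc ω)^[n] v) : (SW.suc ω)^[k] v = v := by
  induction n with
  | zero => exact e
  | succ n ih =>
    apply ih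
    rw [← h.pre_iter hv (k + n), ← h.pre_iter hv n]
    exact congrArg _ e

theorem Good.periodic (h : Good ω) {v : Pt} (hv : ω.1 v ≠ ω.2 v) (hf : (comp ω v).Finite) :
    0 < Function.minimalPeriod (SW.suc ω) v := by
  obtain ⟨n, m, hlt, e⟩ : ∃ n m : ℕ, n < m ∧ (SW.suc ω)^[n] v = (SW.suc ω)^[m] v := by
    obtain ⟨n, -, m, -, hne, e⟩ := Set.infinite_univ.exists_ne_map_eq_of_mapsTo
      (f := fun n : ℕ => (SW.suc ω)^[n] v) (fun n _ => SW.same_iter ω v n) hf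
    rcases lt_or_gt_of_ne hne with hlt | hlt
    exacts [⟨n, m, hlt, e⟩, ⟨m, n, hlt, e.symm⟩]
  obtain ⟨k, rfl⟩ := Nat.exists_eq_add_of_lt hlt
  have : (SW.suc ω)^[k + 1] v = v :=
    h.iter_cancel hv (k + 1) n (by rw [show k + 1 + n = n + k + 1 by ring, e])
  exact Function.IsPeriodicPt.minimalPeriod_pos (Nat.succ_pos k) this

theorem Good.comp_eq_image (h : Good ω) {v : Pt} (hv : ω.1 v ≠ ω.2 v) (hf : (comp ω v).Finite) :
    comp ω v = (fun n => (SW.suc ω)^[n] v) '' Set.Iio (Function.minimalPeriod (SW.suc ω) v) := by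
  have hp := h.periodic hv hf
  refine Set.Subset.antisymm ?_ (by rintro _ ⟨n, -, rfl⟩; exact SW.same_iter ω v n)
  have key : ∀ u ∈ Set.range (fun n => (SW.suc ω)^[n] v),
      SW.suc ω u ∈ Set.range (fun n => (SW.suc ω)^[n] v) ∧
      SW.pre ω u ∈ Set.range (fun n => (SW.suc ω)^[n] v) := by
    rintro _ ⟨n, rfl⟩
    refine ⟨⟨n + 1, Function.iterate_succ_apply' _ _ _⟩, ?_⟩
    obtain ⟨p, e⟩ := Nat.exists_eq_add_of_lt hp
    refine ⟨n + p, ?_⟩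
    show (SW.suc ω)^[n + p] v = SW.pre ω ((SW.suc ω)^[n] v)
    rw [← h.pre_iter hv (n + p), add_assoc, show p + 1 = 0 + p + 1 by ring, ← e,
      Function.iterate_add_apply, Function.iterate_minimalPeriod]
  have h2 : comp ω v ⊆ Set.range (fun n => (SW.suc ω)^[n] v) := by
    refine SW.comp_sub ⟨0, rfl⟩ (fun u hu => ?_) (fun u hu => ?_)
    · by_cases hw : White u
      · rw [← SW.suc_white hw]
        exact (key u hu).1
      · rw [← SW.pre_black (SW.black_iff_not_white.2 hw)]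
        exact (key u hu).2
    · by_cases hw : White u
      · rw [← SW.pre_white hw]
        exact (key u hu).2
      · rw [← SW.suc_black (SW.black_iff_not_white.2 hw)]
        exact (key u hu).1
  intro u hu
  obtain ⟨n, rfl⟩ := h2 hu
  exact ⟨_, Nat.mod_lt n hp, Function.iterate_mod_minimalPeriod_eq⟩

theorem Good.ncard_eq (h : Good ω) {v : Pt} (hv : ω.1 v ≠ ω.2 v) (hf : (comp ω v).Finite) :
    (comp ω v).ncard = Function.minimalPeriod (SW.suc ω) v := by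
  rw [h.comp_eq_image hv hf, Function.iterate_injOn_Iio_minimalPeriod.ncard_image,
    ← Finset.coe_range, Set.ncard_coe_finset, Finset.card_range]

theorem Good.cyc_nat (h : Good ω) (δ : ℝ) (a : ℂ) {v : Pt} (hv : ω.1 v ≠ ω.2 v)
    (hf : (comp ω v).Finite) (n : ℕ) : cyc δ a ω v n = pt δ a ((SW.suc ω)^[n] v) := by
  unfold cyc
  rw [h.ncard_eq hv hf, ← Int.natCast_mod, Int.toNat_natCast,
    Function.iterate_mod_minimalPeriod_eq]

theorem Good.cyc_step (h : Good ω) (δ : ℝ) (a : ℂ) {v : Pt} (hv : ω.1 v ≠ ω.2 v)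
    (hf : (comp ω v).Finite) (j : ℤ) : ∃ u ∈ comp ω v, cyc δ a ω v j = pt δ a u ∧
      cyc δ a ω v (j + 1) = pt δ a (SW.suc ω u) := by
  have hp : (0 : ℤ) < (comp ω v).ncard := by
    rw [h.ncard_eq hv hf]
    exact_mod_cast h.periodic hv hf
  refine ⟨_, SW.same_iter ω v _, rfl, ?_⟩
  rw [← Function.iterate_succ_apply' (SW.suc ω), ← h.cyc_nat δ a hv hf]
  unfold cyc
  rw [Nat.succ_eq_add_one, Nat.cast_add, Int.toNat_of_nonneg (Int.emod_nonneg _ hp.ne'),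
    Nat.cast_one, Int.emod_add_emod]

/-- every point of the curve is close to a vertex of the loop -/
theorem Good.curve_near (h : Good ω) {δ : ℝ} (a : ℂ) (hδ : 0 < δ) {v : Pt} (hv : ω.1 v ≠ ω.2 v)
    (t : S1) : ∃ u ∈ comp ω v, ‖(lcurve δ a ω v).c t - pt δ a u‖ ≤ δ := by
  obtain ⟨j, θ, h3, h4, h5, e⟩ := polyLoop_pt _ _ (cyc_periodic δ a ω v) t
  have e' : (lcurve δ a ω v).c t = _ := e
  rw [e']
  by_cases hf : (comp ω v).Finite
  · obtain ⟨u, hu, e1, e2⟩ := h.cyc_step δ a hv hf j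
    refine ⟨u, hu, ?_⟩
    rw [e1, e2, add_sub_cancel_left, norm_mul, Complex.norm_real, Real.norm_of_nonneg h3]
    have := pt_adj a hδ (h.adj_suc (h.ne_of_mem hv hu))
    nlinarith [norm_nonneg (pt δ a (SW.suc ω u) - pt δ a u)]
  · obtain ⟨rfl, rfl⟩ := h5 (Set.Infinite.ncard hf)
    refine ⟨v, SW.same_refl ω v, ?_⟩
    simp [cyc, hδ.le]

/-- every vertex of a finite loop is on the curve -/
theorem Good.vertex_on (h : Good ω) (δ : ℝ) (a : ℂ) {v u : Pt} (hv : ω.1 v ≠ ω.2 v)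
    (hf : (comp ω v).Finite) (hu : u ∈ comp ω v) : ∃ t, (lcurve δ a ω v).c t = pt δ a u := by
  have hp : 0 < (comp ω v).ncard := by
    rw [h.ncard_eq hv hf]
    exact h.periodic hv hf
  rw [h.comp_eq_image hv hf] at hu
  obtain ⟨n, -, rfl⟩ := hu
  obtain ⟨t, ht⟩ := polyLoop_vertex hp _ (cyc_periodic δ a ω v) n
  exact ⟨t, ht.trans (h.cyc_nat δ a hv hf n)⟩

theorem Good.loop_rep (h : Good ω) (δ : ℝ) (a : ℂ) {L : Set Pt} (hL : L ∈ Loops ω) :
    ∃ w, ω.1 w ≠ ω.2 w ∧ L = comp ω w ∧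
      cloop δ a ω L = SeparationQuotient.mk (mapL cay (lcurve δ a ω w)) := by
  obtain ⟨v, hv, rfl⟩ := hL
  have hne : (comp ω v).Nonempty := ⟨v, SW.same_refl ω v⟩
  refine ⟨hne.some, h.ne_of_mem hv hne.some_mem, SW.comp_eq_of_same h.inv hne.some_mem, ?_⟩
  unfold cloop
  rw [dif_pos hne]

variable {δ : ℝ} {a : ℂ}

theorem Good.cay_apply (h : Good ω) (hδ : 0 < δ) (ha : 0 ≤ a.im) {w : Pt} (hw : ω.1 w ≠ ω.2 w)
    (t : S1) : (mapL cay (lcurve δ a ω w)).c t = cay ((lcurve δ a ω w).c t) :=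
  mapL_apply (cont_cay (lcurve_im hδ ha h.p1 h.p2 (h.nonneg hw))) t

/-- infinite components give constant loops -/
theorem Good.finite_of_diam (h : Good ω) (hδ : 0 < δ) (ha : 0 ≤ a.im) {L : Set Pt}
    (hL : L ∈ Loops ω) (hd : 0 < (cloop δ a ω L).diam) : L.Finite := by
  obtain ⟨w, hw, rfl, e⟩ := h.loop_rep δ a hL
  by_contra hf
  rw [e, Loop.diam_mk] at hd
  refine hd.not_ge (Metric.diam_le_of_forall_dist_le le_rfl ?_)
  have k : ∀ t, (lcurve δ a ω w).c t = cyc δ a ω w 0 := by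
    intro t
    obtain ⟨j, θ, -, -, h5, e⟩ := polyLoop_pt _ _ (cyc_periodic δ a ω w) t
    obtain ⟨rfl, rfl⟩ := h5 (Set.Infinite.ncard hf)
    refine Eq.trans e ?_
    simp
  rintro _ ⟨s, rfl⟩ _ ⟨t, rfl⟩
  rw [h.cay_apply hδ ha hw, h.cay_apply hδ ha hw, k, k, dist_self]

/-- loops with a large Cayley image meet the window -/
theorem Good.meets (h : Good ω) (hδ : 0 < δ) (ha : 0 ≤ a.im) {s : ℕ} {t : ℝ} (ht : 0 < t)
    (hs : t + ‖a‖ ≤ δ * s) {L : Set Pt} (hL : L ∈ Loops ω) (hd : 4 / t < (cloop δ a ω L).diam) :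
    ∃ u ∈ Win s, ω.1 u ≠ ω.2 u ∧ L = comp ω u := by
  obtain ⟨w, hw, rfl, e⟩ := h.loop_rep δ a hL
  by_contra hc
  rw [e, Loop.diam_mk] at hd
  have k : ∀ τ, ‖(mapL cay (lcurve δ a ω w)).c τ - 1‖ ≤ 2 / t := by
    intro τ
    rw [h.cay_apply hδ ha hw]
    refine norm_cay_le (lcurve_im hδ ha h.p1 h.p2 (h.nonneg hw) τ) ht ?_
    obtain ⟨u, hu, hn⟩ := h.curve_near a hδ hw τ
    have hu' := h.ne_of_mem hw hu
    have h1 := pt_far a hδ (h.nonneg hu') (s := s)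
      (fun hm => hc ⟨u, hm, hu', SW.comp_eq_of_same h.inv hu⟩)
    have h2 : ‖pt δ a u - a‖ ≤ ‖(lcurve δ a ω w).c τ - pt δ a u‖ + ‖(lcurve δ a ω w).c τ‖ + ‖a‖ := by
      have e : pt δ a u - a = -((lcurve δ a ω w).c τ - pt δ a u) + (lcurve δ a ω w).c τ + -a := by
        ring
      rw [e]
      refine (norm_add₃_le).trans ?_
      rw [norm_neg, norm_neg]
    linarith
  refine hd.not_ge (Metric.diam_le_of_forall_dist_le (by positivity) ?_)
  rintro _ ⟨σ, rfl⟩ _ ⟨τ, rfl⟩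
  have := dist_triangle_right ((mapL cay (lcurve δ a ω w)).c σ) ((mapL cay (lcurve δ a ω w)).c τ) 1
  rw [dist_eq_norm _ 1, dist_eq_norm _ 1] at this
  have h1 := k σ
  have h2 := k τ
  have : 4 / t = 2 / t + 2 / t := by ring
  linarith

theorem Good.locFin (h : Good ω) (hδ : 0 < δ) (ha : 0 ≤ a.im) :
    LocFin (Loops ω) (cloop δ a ω) := by
  intro ε hε
  obtain ⟨s, hs⟩ := exists_nat_ge ((4 / ε + ‖a‖) / δ)
  rw [div_le_iff₀' hδ] at hs
  refine ((Win s).finite_toSet.image (comp ω)).subset ?_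
  rintro L ⟨hL, hd⟩
  obtain ⟨u, hu, -, e⟩ := h.meets hδ ha (by positivity : 0 < 4 / ε) hs hL
    (by rwa [div_div_cancel₀ (by norm_num : (4 : ℝ) ≠ 0)])
  exact ⟨u, hu, e.symm⟩

theorem Good.close_of (h : Good ω) (hδ : 0 < δ) (ha : 0 ≤ a.im) {ε : ℝ} (hε : 0 ≤ ε) {r : ℕ}
    (hr : ∀ L ∈ Loops ω, ε < (cloop δ a ω L).diam → L ⊆ (Win r : Set Pt)) :
    close (2 * ε) (LH δ a ω) (LW δ a r ω) := by
  have hl := h.locFin hδ ha
  refine close_ofLoc hε hl (fun η hη => (hl η hη).subset fun L hL => ⟨hL.1.1, hL.2⟩)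
    (fun L L' => L = L') (fun _ _ _ e e' => e.symm.trans e') (fun _ _ _ e e' => e.trans e'.symm)
    (fun L hL hd => ⟨L, ⟨hL, hr L hL hd⟩, rfl⟩) (fun L hL _ => ⟨L, hL.1, rfl⟩) ?_
  rintro L _ rfl
  rwa [dist_self]

theorem exists_win {L : Set Pt} (hf : L.Finite) (h : ∀ v ∈ L, 0 ≤ v.2) :
    ∀ᶠ r in atTop, L ⊆ (Win r : Set Pt) := by
  have : ∀ v ∈ L, ∀ᶠ r in atTop, v ∈ Win r := by
    intro v hv
    filter_upwards [eventually_ge_atTop (v.1.natAbs + v.2.natAbs)] with r hr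
    have := h v hv
    rw [mem_Win]
    omega
  exact (hf.eventually_all.2 this).mono fun r hr v hv => hr v hv

theorem Good.tendsto (h : Good ω) (hδ : 0 < δ) (ha : 0 ≤ a.im) :
    Tendsto (fun r => LW δ a r ω) atTop (𝓝 (LH δ a ω)) := by
  rw [tendsto_iff]
  intro ε hε
  have hf := h.locFin hδ ha (ε / 2) (by positivity)
  have : ∀ L ∈ {L | L ∈ Loops ω ∧ ε / 2 < (cloop δ a ω L).diam},
      ∀ᶠ r in atTop, L ⊆ (Win r : Set Pt) := by
    rintro L ⟨hL, hd⟩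
    refine exists_win (h.finite_of_diam hδ ha hL (lt_trans (by positivity) hd)) ?_
    obtain ⟨v, hv, rfl⟩ := hL
    exact fun u hu => h.nonneg (h.ne_of_mem hv hu)
  filter_upwards [hf.eventually_all.2 this] with r hr
  have := h.close_of hδ ha (by positivity : 0 ≤ ε / 2) fun L hL hd => hr L ⟨hL, hd⟩
  rw [mul_div_cancel₀ _ two_ne_zero] at this
  exact close_symm this

theorem Good.big (h : Good ω) (hδ : 0 < δ) (ha : 0 ≤ a.im) {s r : ℕ} {t u : ℝ} (hu : 0 < u)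
    (hut : u < t) (hr : t + ‖a‖ ≤ δ * r) (hs : 2 * (δ * s) + ‖a‖ + 1 ≤ u)
    (hf : ∀ v, (comp ω v).Finite) (hc : Cross s r ω) :
    LH δ a ω ∈ Big (2 / u - 2 / t) (2 / t) := by
  obtain ⟨v, hv, hne, hn⟩ := hc
  obtain ⟨x, hx, hxr⟩ := Set.not_subset.1 hn
  have hL : comp ω v ∈ Loops ω := ⟨v, hne, rfl⟩
  obtain ⟨w, hw, e, e'⟩ := h.loop_rep δ a hL
  obtain ⟨σ, hσ⟩ := h.vertex_on δ a hw (hf w) (u := v) (e ▸ SW.same_refl ω v)
  obtain ⟨τ, hτ⟩ := h.vertex_on δ a hw (hf w) (u := x) (e ▸ hx)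
  have hx0 := h.nonneg (h.ne_of_mem hne hx)
  have h1 : 2 / u ≤ ‖(mapL cay (lcurve δ a ω w)).c σ - 1‖ := by
    rw [h.cay_apply hδ ha hw, hσ]
    refine le_norm_cay (pt_im hδ ha (h.nonneg hne)) ?_
    linarith [pt_near a hδ hv]
  have h2 : ‖(mapL cay (lcurve δ a ω w)).c τ - 1‖ ≤ 2 / t := by
    rw [h.cay_apply hδ ha hw, hτ]
    refine norm_cay_le (pt_im hδ ha hx0) (hu.trans hut) ?_
    have h3 := pt_far a hδ hx0 hxr
    have h4 := norm_sub_le (pt δ a x) a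
    linarith
  have h3 : 2 / u - 2 / t ≤ (mapL cay (lcurve δ a ω w)).diam := by
    have h4 := (mapL cay (lcurve δ a ω w)).dist_le_diam σ τ
    have h5 := dist_triangle ((mapL cay (lcurve δ a ω w)).c σ) ((mapL cay (lcurve δ a ω w)).c τ) 1
    rw [dist_eq_norm _ 1, dist_eq_norm _ 1] at h5
    linarith
  have h4 : 0 < 2 / u - 2 / t := sub_pos.2 (div_lt_div_of_pos_left two_pos hu hut)
  refine ⟨mapL cay (lcurve δ a ω w), ?_, h3, τ, h2⟩
  have hd : 0 < Loop.diam (SeparationQuotient.mk (mapL cay (lcurve δ a ω w))) := h4.trans_le h3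
  have hl := h.locFin hδ ha
  unfold LH
  rw [mult_ofLoc hl hd]
  exact Set.ncard_ne_zero_of_mem (a := comp ω v) ⟨hL, e'⟩ (hl.fiber hd)

end WIN

theorem rowDEP : RowDEP := by
  intro δ a s r
  refine ⟨fun ω ω' h => ?_, fun hsr ω ω' h => ?_⟩
  · have h' : WIN.Agr (Win r) ω ω' := h
    exact WIN.ofLoc_congr (h'.loops_sub.antisymm h'.symm.loops_sub)
      fun L hL => h'.cloop_eq δ a hL.1 hL.2
  · have h' : WIN.Agr (Win r) ω ω' := h
    exact propext ⟨h'.cross hsr, h'.symm.cross hsr⟩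

theorem rowWIN2 : RowWIN2 := by
  intro δ a ω hδ ha h1 h2 h3
  have h : WIN.Good ω := ⟨h1, h2, h3⟩
  refine ⟨fun v hv => WIN.cont_cay (WIN.lcurve_im hδ ha h1 h2 hv), h.locFin hδ ha,
    h.tendsto hδ ha, fun s r t ht hs hc => ?_,
    fun s r t u hu hut hr hs hf hc => h.big hδ ha hu hut hr hs hf hc⟩
  rw [show 8 / t = 2 * (4 / t) by ring]
  refine h.close_of hδ ha (by positivity) fun L hL hd => ?_
  obtain ⟨v, hv, hne, rfl⟩ := h.meets hδ ha ht hs hL hd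
  by_contra hn
  exact hc ⟨v, hv, hne, hn⟩

end Vale.Agent.Q155
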